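import Vale.Agent.P292.X442.Hom
import Vale.Agent.P292.Bdl.B1

/-! The ring generated by the image of the Lie algebra in the Darboux ring, and the literal
statements of the remaining blocks. -/

namespace Vale.Agent.P292.X442

open LieAlgebra

universe u

variable {g : Type u} [LieRing g] [LieAlgebra ℂ g]
variable {T : Ct g} {n : ℕ} (B : Bs T n) {A : Type} [CommRing A] [Algebra ℂ A]
  (X : Dx A (Fin n) fun k l => T.c ⁅B.u k, B.u l⁆)

theorem Ct.ad_nil (T : Ct g) {x : g} {μ : ℤ} (hμ : μ ≠ 0) (hx : ⁅T.h, x⁆ = (μ : ℂ) • x) :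
    (ad ℂ g x) ^ 5 = 0 := by
  have h1 : ∀ (N : ℕ) (v : g) (ν : ℂ), ⁅T.h, v⁆ = ν • v →
      ⁅T.h, ((ad ℂ g x) ^ N) v⁆ = (ν + N * μ) • ((ad ℂ g x) ^ N) v := by
    intro N
    induction N with
    | zero => intro v ν hv; simpa using hv
    | succ N ih =>
      intro v ν hv
      rw [pow_succ', Module.End.mul_apply, ad_apply, T.lie_wt hx (ih v ν hv)]
      congr 1
      push_cast
      ring
  ext v
  obtain ⟨w, hw, hwe⟩ := T.dec v
  rw [LinearMap.zero_apply, hw, map_sum]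
  refine Finset.sum_eq_zero fun i _ => T.wt_eq_zero (h1 5 _ _ (hwe i)) fun j h => ?_
  have h2 : (((i : ℕ) : ℤ) + 5 * μ : ℤ) = ((j : ℕ) : ℤ) := by
    have h3 : (((((i : ℕ) : ℤ) + 5 * μ : ℤ)) : ℂ) = (((j : ℕ) : ℤ) : ℂ) := by
      push_cast
      push_cast at h
      linear_combination h
    exact_mod_cast h3
  omega

namespace Dx

/-- the Hamiltonian derivation of an element of the Lie algebra -/
noncomputable def L (x : g) : Derivation ℂ A A := X.ham (X.phi B x)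

@[simp] theorem L_apply (x : g) (r : A) : X.L B x r = X.P (X.phi B x) r := rfl

/-- local nilpotency of `f` at an element -/
def FN (r : A) : Prop := ∃ N : ℕ, (⇑(X.L B T.f))^[N] r = 0

/-- the ring generated by the Lie algebra -/
noncomputable def RR : Subalgebra ℂ A := Algebra.adjoin ℂ (Set.range (X.phi B))

theorem phi_mem (x : g) : X.phi B x ∈ X.RR B := Algebra.subset_adjoin ⟨x, rfl⟩

theorem sigma_b : X.σ X.b = -X.b := by
  have h1 : X.σ (X.a * X.b) = 1 := by rw [X.ab, map_one]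
  rw [map_mul, X.σa] at h1
  linear_combination (-X.b) * h1 - X.σ X.b * X.ab

theorem sigma_psi (m : ℕ) (v : g) : X.σ (X.psi B m v) = X.psi B m v := by
  induction m using Nat.strong_induction_on generalizing v with
  | _ m ih =>
    rcases m with _ | _ | _ | m
    · simp [psi_zero]
    · simp [psi_one]
    · rw [psi_two, map_smul, map_mul, X.σa]
      congr 1
      ring
    · change X.σ (((((m : ℂ) + 1)⁻¹) • X.op B (X.psi B (m + 2)) (X.psi B (m + 1))) v) =
        ((((m : ℂ) + 1)⁻¹) • X.op B (X.psi B (m + 2)) (X.psi B (m + 1))) v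
      rw [LinearMap.smul_apply, map_smul, op_apply, map_mul, map_add, map_mul, map_sum, sigma_b,
        X.σs, ih (m + 1) (by omega)]
      simp only [map_mul, X.σy, ih (m + 2) (by omega), neg_mul, Finset.sum_neg_distrib]
      congr 1
      ring

theorem sigma_phi (v : g) : X.σ (X.phi B v) = X.phi B v := by
  rw [phi_apply, map_sum]
  exact Finset.sum_congr rfl fun m _ => X.sigma_psi B m v

theorem sigma_of_mem {r : A} (hr : r ∈ X.RR B) : X.σ r = r := by
  refine Algebra.adjoin_induction (p := fun r _ => X.σ r = r) ?_ ?_ ?_ ?_ hr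
  · rintro _ ⟨y, rfl⟩
    exact X.sigma_phi B y
  · intro c
    exact X.σ.commutes c
  · intro a b _ _ ha hb
    rw [map_add, ha, hb]
  · intro a b _ _ ha hb
    rw [map_mul, ha, hb]

theorem iter_phi (x v : g) (N : ℕ) :
    (⇑(X.L B x))^[N] (X.phi B v) = X.phi B (((ad ℂ g x) ^ N) v) := by
  induction N with
  | zero => rfl
  | succ N ih => rw [Function.iterate_succ_apply', ih, L_apply, ← X.phi_lie, pow_succ']; rfl

theorem iter_nil {x : g} (hx : IsNilpotent (ad ℂ g x)) {r : A} (hr : r ∈ X.RR B) :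
    ∃ N : ℕ, (⇑(X.L B x))^[N] r = 0 := by
  obtain ⟨N, hN⟩ := hx
  refine Algebra.adjoin_induction (p := fun r _ => ∃ N : ℕ, (⇑(X.L B x))^[N] r = 0)
    ?_ ?_ ?_ ?_ hr
  · rintro _ ⟨y, rfl⟩
    exact ⟨N, by rw [iter_phi, hN, LinearMap.zero_apply, map_zero]⟩
  · intro c
    exact ⟨1, (X.L B x).map_algebraMap c⟩
  · rintro a b _ _ ⟨i, hi⟩ ⟨j, hj⟩
    refine ⟨max i j, ?_⟩
    rw [iterate_map_add, iterate_zero_of_le _ (le_max_left i j) hi,
      iterate_zero_of_le _ (le_max_right i j) hj, add_zero]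
  · rintro a b _ _ ⟨i, hi⟩ ⟨j, hj⟩
    exact ⟨i + j + 1, iterate_mul_eq_zero _ (iterate_zero_of_le _ (Nat.le_succ i) hi)
      (iterate_zero_of_le _ (Nat.le_succ j) hj)⟩

/-- the map to the ring -/
noncomputable def phiR : g →ₗ[ℂ] X.RR B :=
  (X.phi B).codRestrict (Subalgebra.toSubmodule (X.RR B)) (X.phi_mem B)

@[simp] theorem coe_phiR (x : g) : (X.phiR B x : A) = X.phi B x := rfl

theorem P_phi_mem (x : g) {r : A} (hr : r ∈ X.RR B) : X.P (X.phi B x) r ∈ X.RR B := by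
  refine Algebra.adjoin_induction (p := fun r _ => X.P (X.phi B x) r ∈ X.RR B) ?_ ?_ ?_ ?_ hr
  · rintro _ ⟨y, rfl⟩
    rw [← X.phi_lie]
    exact X.phi_mem B _
  · intro c
    rw [X.P_alg]
    exact zero_mem _
  · intro a b _ _ ha hb
    rw [map_add]
    exact add_mem ha hb
  · intro a b ha' hb' ha hb
    rw [X.leib]
    exact add_mem (mul_mem ha hb') (mul_mem ha' hb)

theorem P_mem {q r : A} (hq : q ∈ X.RR B) (hr : r ∈ X.RR B) : X.P q r ∈ X.RR B := by
  refine Algebra.adjoin_induction (p := fun q _ => X.P q r ∈ X.RR B) ?_ ?_ ?_ ?_ hq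
  · rintro _ ⟨y, rfl⟩
    exact X.P_phi_mem B y hr
  · intro c
    rw [X.P_alg']
    exact zero_mem _
  · intro a b _ _ ha hb
    rw [map_add, LinearMap.add_apply]
    exact add_mem ha hb
  · intro a b ha' hb' ha hb
    rw [X.leib']
    exact add_mem (mul_mem ha' hb) (mul_mem hb' ha)

/-- the bracket of the ring -/
noncomputable def PR : X.RR B →ₗ[ℂ] X.RR B →ₗ[ℂ] X.RR B :=
  LinearMap.mk₂ ℂ (fun x y => ⟨X.P x y, X.P_mem B x.2 y.2⟩)
    (fun x x' y => Subtype.ext (by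
      change X.P ((x : A) + x') y = X.P x y + X.P x' y
      rw [map_add, LinearMap.add_apply]))
    (fun c x y => Subtype.ext (by
      change X.P (c • (x : A)) y = c • X.P x y
      rw [map_smul, LinearMap.smul_apply]))
    (fun x y y' => Subtype.ext (by
      change X.P (x : A) (y + y') = X.P x y + X.P x y'
      rw [map_add]))
    (fun c x y => Subtype.ext (by
      change X.P (x : A) (c • (y : A)) = c • X.P x y
      rw [map_smul]))

@[simp] theorem coe_PR (x y : X.RR B) : (X.PR B x y : A) = X.P x y := rfl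

theorem PR_phi (x y : g) : X.PR B (X.phiR B x) (X.phiR B y) = X.phiR B ⁅x, y⁆ :=
  Subtype.ext (by rw [coe_PR, coe_phiR, coe_phiR, coe_phiR, X.phi_lie])

theorem PR_leib (x y z : X.RR B) :
    X.PR B x (y * z) = X.PR B x y * z + y * X.PR B x z :=
  Subtype.ext (X.leib x y z)

theorem PR_alt (x : X.RR B) : X.PR B x x = 0 := Subtype.ext (X.alt x)

theorem PR_jac (x y z : X.RR B) : X.PR B x (X.PR B y z) =
    X.PR B (X.PR B x y) z + X.PR B y (X.PR B x z) := Subtype.ext (X.jac x y z)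

/-- the graded pieces -/
noncomputable def gr (k : ℕ) : Submodule ℂ (X.RR B) :=
  ((LinearMap.range (X.phi B)) ^ k).comap (X.RR B).val.toLinearMap

end Dx

/-! Statements of blocks. -/

/-- Block B: dual bases exist. -/
def StBs : Prop := ∀ (g : Type u) [LieRing g] [LieAlgebra ℂ g] [FiniteDimensional ℂ g]
  (T : Ct g), ∃ (n : ℕ) (_ : Bs T n), (∃ u : g, u ≠ 0 ∧ ⁅T.h, u⁆ = u) → 0 < n

/-- Block O: automorphisms of the ring. There is one exchanging `e` and `f`, and every point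
which does not kill the Lie algebra is moved to the chart of `e`. -/
def StOrb : Prop := ∀ (g : Type u) [LieRing g] [LieAlgebra ℂ g] [FiniteDimensional ℂ g]
  [LieAlgebra.IsSimple ℂ g] (T : Ct g) (n : ℕ) (B : Bs T n) (A : Type) [CommRing A] [Algebra ℂ A]
  [IsDomain A] (X : Dx A (Fin n) fun k l => T.c ⁅B.u k, B.u l⁆),
  (∃ ψ : X.RR B ≃ₐ[ℂ] X.RR B, ψ (X.phiR B T.e) = -X.phiR B T.f) ∧
  (∀ p : X.RR B →ₐ[ℂ] ℂ, (∃ x, p (X.phiR B x) ≠ 0) → ∃ ψ : X.RR B ≃ₐ[ℂ] X.RR B,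
    (∀ x y, ψ (X.PR B x y) = X.PR B (ψ x) (ψ y)) ∧ p (ψ (X.phiR B T.e)) ≠ 0)

/-- Block N: normality, if the ring consists of all the even elements on which `f` is
nilpotent. -/
def StNor : Prop := ∀ (g : Type u) [LieRing g] [LieAlgebra ℂ g] [FiniteDimensional ℂ g]
  (T : Ct g) (n : ℕ) (B : Bs T n) (A : Type) [CommRing A] [Algebra ℂ A]
  [IsDomain A] [IsIntegrallyClosed A] (X : Dx A (Fin n) fun k l => T.c ⁅B.u k, B.u l⁆),
  (∀ r : A, X.σ r = r → X.FN B r → r ∈ X.RR B) →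
  (∀ r : A, X.σ r = r → ∃ N : ℕ, X.a ^ (2 * N) * r ∈
    Algebra.adjoin ℂ ({X.a ^ 2, X.a * X.s} ∪ Set.range fun k => X.a * X.y k)) →
  (∃ ψ : X.RR B ≃ₐ[ℂ] X.RR B, ψ (X.phiR B T.e) = -X.phiR B T.f) →
  IsIntegrallyClosed (X.RR B)

/-- Block D: the dimension. -/
def StDim : Prop := ∀ (g : Type u) [LieRing g] [LieAlgebra ℂ g] [FiniteDimensional ℂ g]
  (T : Ct g) (n : ℕ) (B : Bs T n) (A : Type) [CommRing A] [Algebra ℂ A]
  [IsDomain A] (X : Dx A (Fin n) fun k l => T.c ⁅B.u k, B.u l⁆),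
  ((n + 2 : ℕ) : Cardinal) ≤ Algebra.trdeg ℂ A → 0 < n → 3 ≤ Algebra.trdeg ℂ (X.RR B)

/-- Block S: nondegeneracy of the bracket at the points of the chart of `e`. -/
def StSym : Prop := ∀ (g : Type u) [LieRing g] [LieAlgebra ℂ g] [FiniteDimensional ℂ g]
  (T : Ct g) (n : ℕ) (B : Bs T n) (A : Type) [CommRing A] [Algebra ℂ A]
  [IsDomain A] (X : Dx A (Fin n) fun k l => T.c ⁅B.u k, B.u l⁆),
  (∀ r : A, X.σ r = r → ∃ N : ℕ, X.a ^ (2 * N) * r ∈
    Algebra.adjoin ℂ ({X.a ^ 2, X.a * X.s} ∪ Set.range fun k => X.a * X.y k)) →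
  ∀ p : X.RR B →ₐ[ℂ] ℂ, p (X.phiR B T.e) ≠ 0 →
    ∀ a, (∀ b, p (X.PR B a b) = 0) →
      a - algebraMap ℂ (X.RR B) (p a) ∈ RingHom.ker p ^ 2

/-- Block K: the key statement (Weyl's theorem). -/
def StKey : Prop := ∀ (g : Type u) [LieRing g] [LieAlgebra ℂ g] [FiniteDimensional ℂ g]
  [LieAlgebra.IsSimple ℂ g] (T : Ct g) (n : ℕ) (B : Bs T n) (A : Type) [CommRing A] [Algebra ℂ A]
  [IsDomain A] (X : Dx A (Fin n) fun k l => T.c ⁅B.u k, B.u l⁆)
  (k : ℤ) (r : A), r ≠ 0 → X.E r = (2 * (k : ℂ)) • r → X.FN B r →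
  ∃ m : ℕ, (m : ℤ) = k ∧ r ∈ (LinearMap.range (X.phi B)) ^ m

end Vale.Agent.P292.X442
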