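import Vale.Agent.P292.X442.DarDef
import Vale.Agent.P292.X442.Ring

namespace Vale.Agent.P292.X442

universe u

/-- Block C: the Darboux chart of the ring of a Lie algebra. -/
def StDar : Prop := ∀ (g : Type u) [LieRing g] [LieAlgebra ℂ g] [FiniteDimensional ℂ g]
  (T : Ct g) (n : ℕ) (B : Bs T n) (A : Type) [CommRing A] [Algebra ℂ A]
  [IsDomain A] (X : Dx A (Fin n) fun k l => T.c ⁅B.u k, B.u l⁆),
  (∀ r : A, X.σ r = r → ∃ N : ℕ, X.a ^ (2 * N) * r ∈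
    Algebra.adjoin ℂ ({X.a ^ 2, X.a * X.s} ∪ Set.range fun k => X.a * X.y k)) →
  ((n + 2 : ℕ) : Cardinal) ≤ Algebra.trdeg ℂ A → HasDarbouxChart (X.gr B) (X.PR B)

end Vale.Agent.P292.X442
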