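import Vale.Agent.P292.H442.Ext

/-! Third interface: the Lie algebra of a contact Fano manifold of dimension at least three is
not three-dimensional; realization of Lie algebras. -/

namespace Vale.Agent.P292.X442

open Vale.Agent.P292.H442

universe u v

/-- Block T: the Lie algebra of contact vector fields is not three-dimensional. -/
def StNot3 : Prop := ∀ {R : Type u} [CommRing R] [Algebra ℂ R] (𝒜 : ℕ → Submodule ℂ R)
  [GradedAlgebra 𝒜] (P : R →ₗ[ℂ] R →ₗ[ℂ] R), IsContactFano 𝒜 P → 3 ≤ Algebra.trdeg ℂ R →
  Module.finrank ℂ (𝒜 1) ≠ 3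

end Vale.Agent.P292.X442
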