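import Vale.Agent.P292.X442.Iface
import Vale.Agent.P292.H169.Cart
import Vale.Agent.P292.Bdl.B2
import Vale.Agent.P292.Bdl.B4

/-! Every simple complex Lie algebra has a contact grading triple. -/

namespace Vale.Agent.P292.X442

open Module LieAlgebra LieModule Vale.Agent.P292.H169

universe u

section root

variable {g : Type u} [LieRing g] [LieAlgebra ℂ g] [FiniteDimensional ℂ g]
  [LieAlgebra.IsKilling ℂ g] (H : LieSubalgebra ℂ g) [H.IsCartanSubalgebra]
  (φ : (H →ₗ[ℂ] ℂ) →ₗ[ℝ] ℝ)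
  (hinj : ∀ α β : Weight ℂ H g,
    φ (Weight.toLinear ℂ H g α) = φ (Weight.toLinear ℂ H g β) → α = β)

include hinj in
/-- for an extremal root vector `e`, `(ad e)²` maps into `ℂ e` -/
theorem sq_mem {α : Weight ℂ H g} (hα : α.IsNonZero)
    (hmax : ∀ β : Weight ℂ H g, φ (Weight.toLinear ℂ H g β) ≤ φ (Weight.toLinear ℂ H g α))
    {e : g} (he : e ∈ rootSpace H α) (he0 : e ≠ 0) (x : g) :
    ∃ c : ℂ, ⁅e, ⁅e, x⁆⁆ = c • e := by
  have key : ∀ y : g, y ∈ rootSpace H α → ∃ c : ℂ, y = c • e := by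
    intro y hy
    have h1 := LieAlgebra.IsKilling.finrank_rootSpace_eq_one (H := H) α hα
    have h2 : (⟨e, he⟩ : rootSpace H α) ≠ 0 := fun h => he0 (congrArg Subtype.val h)
    obtain ⟨c, hc⟩ := (finrank_eq_one_iff_of_nonzero' (⟨e, he⟩ : rootSpace H α) h2).1 h1 ⟨y, hy⟩
    exact ⟨c, (congrArg Subtype.val hc).symm⟩
  have heV : e ∈ VV H φ (φ (Weight.toLinear ℂ H g α)) := by
    rw [VV_eq H φ hinj]; exact he
  let L : g →ₗ[ℂ] g := (ad ℂ g e) ∘ₗ (ad ℂ g e)
  have hL : (⊤ : Submodule ℂ g) ≤ (ℂ ∙ e).comap L := by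
    rw [← VV_top H φ hinj]
    refine iSup_le fun r x hx => ?_
    rw [Submodule.mem_comap]
    change ⁅e, ⁅e, x⁆⁆ ∈ ℂ ∙ e
    by_cases hy0 : ⁅e, ⁅e, x⁆⁆ = 0
    · rw [hy0]; exact Submodule.zero_mem _
    have hx0 : x ≠ 0 := by
      rintro rfl
      apply hy0
      rw [lie_zero, lie_zero]
    obtain ⟨β, hβ, -⟩ := exists_root H φ hinj hx hx0
    have hy : ⁅e, ⁅e, x⁆⁆ ∈ VV H φ (φ (Weight.toLinear ℂ H g α) +
        (φ (Weight.toLinear ℂ H g α) + r)) := VV_lie H φ hinj heV (VV_lie H φ hinj heV hx)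
    obtain ⟨γ, hγ, hyγ⟩ := exists_root H φ hinj hy hy0
    have h1 := hmax γ
    have h2 := hmax (-β)
    have h3 : φ (Weight.toLinear ℂ H g (-β)) = -r := by
      rw [← hβ, ← map_neg]
      rfl
    have h4 : γ = α := hinj γ α (by linarith)
    rw [h4] at hyγ
    obtain ⟨c, hc⟩ := key _ hyγ
    rw [hc]
    exact Submodule.smul_mem _ _ (Submodule.mem_span_singleton_self e)
  have h5 := hL (Submodule.mem_top (x := x))
  rw [Submodule.mem_comap] at h5
  obtain ⟨c, hc⟩ := Submodule.mem_span_singleton.1 h5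
  exact ⟨c, hc.symm⟩

end root

variable {g : Type u} [LieRing g] [LieAlgebra ℂ g] [FiniteDimensional ℂ g]

/-- an extremal `sl₂` triple -/
theorem exists_triple [LieAlgebra.IsSimple ℂ g] : ∃ h e f : g, IsSl2Triple h e f ∧
    (∀ x : g, ∃ c : ℂ, ⁅e, ⁅e, x⁆⁆ = c • e) ∧ (∀ x : g, ∃ c : ℂ, ⁅f, ⁅f, x⁆⁆ = c • f) := by
  classical
  have hnt : Nontrivial g := by
    by_contra hcon
    rw [not_nontrivial_iff_subsingleton] at hcon
    exact LieAlgebra.IsSimple.non_abelian (R := ℂ) (L := g)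
      ⟨fun x y => Subsingleton.elim _ _⟩
  obtain ⟨x0, hx0⟩ := LieAlgebra.exists_isCartanSubalgebra_engel ℂ g
  set H := LieSubalgebra.engel ℂ x0 with hH
  obtain ⟨φ, hinj⟩ := exists_sep (g := g) H
  have hne : Nonempty (Weight ℂ H g) := ⟨0⟩
  obtain ⟨α, hmax⟩ := Finite.exists_max fun β : Weight ℂ H g => φ (Weight.toLinear ℂ H g β)
  have hα : α.IsNonZero := by
    intro hz
    have h0 : φ (Weight.toLinear ℂ H g α) = 0 := by
      have : Weight.toLinear ℂ H g α = 0 := by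
        ext x
        exact congrFun hz x
      rw [this, map_zero]
    have hall : ∀ β : Weight ℂ H g, β = α := by
      intro β
      apply hinj
      have h1 := hmax β
      have h2 := hmax (-β)
      have h3 : φ (Weight.toLinear ℂ H g (-β)) = -φ (Weight.toLinear ℂ H g β) := by
        rw [← map_neg]
        rfl
      linarith
    apply LieAlgebra.IsSimple.non_abelian (R := ℂ) (L := g)
    have hmem : ∀ x : g, x ∈ H := by
      intro x
      have h1 : (⊤ : Submodule ℂ g) ≤ (rootSpace H (0 : H → ℂ)).toSubmodule := by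
        rw [← VV_top H φ hinj]
        refine iSup_le fun r y hy => ?_
        by_cases hy0 : y = 0
        · rw [hy0]; exact Submodule.zero_mem _
        obtain ⟨β, -, hβ⟩ := exists_root H φ hinj hy hy0
        have h2 : (β : H → ℂ) = 0 := by rw [hall β]; exact hz
        rw [h2] at hβ
        exact hβ
      have h3 := h1 (Submodule.mem_top (x := x))
      have h4 : x ∈ rootSpace H (0 : H → ℂ) := h3
      rw [LieAlgebra.rootSpace_zero_eq] at h4
      exact h4
    refine ⟨fun x y => ?_⟩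
    have h5 : ⁅(⟨x, hmem x⟩ : H), (⟨y, hmem y⟩ : H)⁆ = 0 := trivial_lie_zero H H _ _
    exact congrArg Subtype.val h5
  obtain ⟨h, e, f, ht, he, hf⟩ := LieAlgebra.IsKilling.exists_isSl2Triple_of_weight_isNonZero hα
  refine ⟨h, e, f, ht, fun x => sq_mem H φ hinj hα hmax he ht.e_ne_zero x, fun x => ?_⟩
  have hf' : f ∈ rootSpace H ((-α : Weight ℂ H g) : H → ℂ) := hf
  refine sq_mem H (-φ) (fun β γ hβγ => hinj β γ ?_) (α := -α)
    (LieModule.Weight.IsNonZero.neg hα) (fun β => ?_) hf' ht.f_ne_zero x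
  · simpa using hβγ
  · have h1 := hmax (-β)
    have h3 : φ (Weight.toLinear ℂ H g (-β)) = -φ (Weight.toLinear ℂ H g β) := by
      rw [← map_neg]
      rfl
    have h4 : φ (Weight.toLinear ℂ H g (-α)) = -φ (Weight.toLinear ℂ H g α) := by
      rw [← map_neg]
      rfl
    simp only [LinearMap.neg_apply]
    rw [h4]
    linarith

section sl

variable {h e f : g} (ht : IsSl2Triple h e f) (hE : ∀ x : g, ∃ c : ℂ, ⁅e, ⁅e, x⁆⁆ = c • e)
  (hF : ∀ x : g, ∃ c : ℂ, ⁅f, ⁅f, x⁆⁆ = c • f)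

include ht hE hF in
theorem htop_of (x : g) :
    x ∈ ⨆ i : Fin 5, Module.End.eigenspace (ad ℂ g h) ((i : ℂ) - 2) := by
  refine iSup_eigenspace_of_cube (ad ℂ g e) (ad ℂ g h) (ad ℂ g f) ?_ ?_ ?_ ?_ ?_ x
  · ext y
    change ⁅e, ⁅f, y⁆⁆ - ⁅f, ⁅e, y⁆⁆ = ⁅h, y⁆
    rw [← lie_lie, ht.lie_e_f]
  · ext y
    change ⁅h, ⁅e, y⁆⁆ - ⁅e, ⁅h, y⁆⁆ = (2 : ℂ) • ⁅e, y⁆
    rw [← lie_lie, ht.lie_h_e_smul ℂ, smul_lie]
  · ext y
    change ⁅h, ⁅f, y⁆⁆ - ⁅f, ⁅h, y⁆⁆ = -((2 : ℂ) • ⁅f, y⁆)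
    rw [← lie_lie, ht.lie_lie_smul_f ℂ, neg_lie, smul_lie]
  · ext y
    rw [pow_succ, pow_succ, pow_one]
    change ⁅e, ⁅e, ⁅e, y⁆⁆⁆ = 0
    obtain ⟨c, hc⟩ := hE y
    rw [hc, lie_smul, lie_self, smul_zero]
  · ext y
    rw [pow_succ, pow_succ, pow_one]
    change ⁅f, ⁅f, ⁅f, y⁆⁆⁆ = 0
    obtain ⟨c, hc⟩ := hF y
    rw [hc, lie_smul, lie_self, smul_zero]

include ht hE hF in
/-- the top piece is a line -/
theorem top_line {v : g} (hv : ⁅h, v⁆ = (2 : ℂ) • v) : ∃ c : ℂ, v = c • e := by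
  have htop := htop_of ht hE hF
  have hev : ⁅e, v⁆ = 0 := by
    have h1 := eigen_lie h (ht.lie_h_e_smul ℂ) hv
    refine eq_zero_of_eigen h htop _ (fun j hj => ?_) _ h1
    have h2 : ((j : ℕ) : ℂ) = ((6 : ℕ) : ℂ) := by push_cast; linear_combination hj
    have h3 : (j : ℕ) = 6 := by exact_mod_cast h2
    have := j.2
    omega
  have hfv : ⁅h, ⁅f, v⁆⁆ = 0 := by
    rw [leibniz_lie, ht.lie_lie_smul_f ℂ, hv, neg_lie, smul_lie, lie_smul]
    abel
  have h1 : ⁅e, ⁅f, v⁆⁆ = (2 : ℂ) • v := by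
    rw [leibniz_lie, hev, lie_zero, add_zero, ht.lie_e_f, hv]
  have h2 : ⁅e, ⁅f, ⁅f, v⁆⁆⁆ = (2 : ℂ) • ⁅f, v⁆ := by
    rw [leibniz_lie, ht.lie_e_f, hfv, zero_add, h1, lie_smul]
  have h3 : ⁅e, ⁅e, ⁅f, ⁅f, v⁆⁆⁆⁆ = (4 : ℂ) • v := by
    rw [h2, lie_smul, h1, smul_smul]
    norm_num
  obtain ⟨c, hc⟩ := hE ⁅f, ⁅f, v⁆⁆
  refine ⟨(4 : ℂ)⁻¹ * c, ?_⟩
  rw [mul_smul, ← hc, h3, smul_smul]
  norm_num

include ht hE hF in
/-- the bottom piece is a line -/
theorem bot_line {v : g} (hv : ⁅h, v⁆ = (-2 : ℂ) • v) : ∃ c : ℂ, v = c • f := by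
  refine top_line ht.symm hF hE ?_
  rw [neg_lie, hv]
  module

include ht hE hF in
theorem kill_ne [LieAlgebra.IsKilling ℂ g] : killingForm ℂ g e f ≠ 0 := by
  intro h0
  apply ht.e_ne_zero
  have htop := htop_of ht hE hF
  have h1 : killingForm ℂ g e = 0 := by
    ext v
    refine forall_of_eigen h htop (killingForm ℂ g e) (fun i v hv => ?_) v
    by_cases hi : i = 0
    · subst hi
      obtain ⟨c, hc⟩ := bot_line ht hE hF (v := v) (by rw [hv]; norm_num)
      rw [hc, map_smul, h0, smul_zero]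
    · refine killingForm_eq_zero_of_eigen h (ht.lie_h_e_smul ℂ) hv (fun h0 => hi ?_)
      have h2 : ((i : ℕ) : ℂ) = ((0 : ℕ) : ℂ) := by push_cast; linear_combination h0
      have h3 : (i : ℕ) = 0 := by exact_mod_cast h2
      exact Fin.ext h3
  have h2 := LieAlgebra.IsKilling.killingForm_nondegenerate ℂ g
  exact h2.1 e (fun v => by rw [h1]; rfl)

include ht hE hF in
/-- if there is nothing in degree one, the dimension is three -/
theorem dim_three [LieAlgebra.IsSimple ℂ g] (h1 : ∀ u : g, ⁅h, u⁆ = u → u = 0) :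
    finrank ℂ g = 3 := by
  have htop := htop_of ht hE hF
  have hm1 : ∀ v : g, ⁅h, v⁆ = (-1 : ℂ) • v → v = 0 := by
    intro v hv
    have hev : ⁅e, v⁆ = 0 := by
      apply h1
      rw [eigen_lie h (ht.lie_h_e_smul ℂ) hv]
      norm_num
    have hfv : ⁅f, v⁆ = 0 := by
      have h1 := eigen_lie h (ht.lie_lie_smul_f ℂ |>.trans (neg_smul _ _).symm) hv
      refine eq_zero_of_eigen h htop _ (fun j hj => ?_) _ h1
      have h2 : ((j : ℕ) : ℂ) + 1 = 0 := by linear_combination hj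
      have h3 : (j : ℕ) + 1 = 0 := by exact_mod_cast h2
      omega
    have h2 : ⁅h, v⁆ = 0 := by
      rw [← ht.lie_e_f, lie_lie, hfv, hev, lie_zero, lie_zero, sub_zero]
    rw [hv] at h2
    exact (smul_eq_zero.1 h2).resolve_left (by norm_num)
  -- the span is an ideal
  set b : Fin 3 → g := ![f, h, e] with hb
  set I : Submodule ℂ g := Submodule.span ℂ (Set.range b) with hI
  have hfI : f ∈ I := Submodule.subset_span ⟨0, rfl⟩
  have hhI : h ∈ I := Submodule.subset_span ⟨1, rfl⟩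
  have heI : e ∈ I := Submodule.subset_span ⟨2, rfl⟩
  have hclos : ∀ z ∈ I, ∀ y ∈ I, ⁅z, y⁆ ∈ I := by
    have base : ∀ i j : Fin 3, ⁅b i, b j⁆ ∈ I := by
      intro i j
      have k1 : ⁅h, e⁆ ∈ I := by rw [ht.lie_h_e_smul ℂ]; exact I.smul_mem _ heI
      have k2 : ⁅h, f⁆ ∈ I := by
        rw [ht.lie_lie_smul_f ℂ]; exact I.neg_mem (I.smul_mem _ hfI)
      have k3 : ⁅e, f⁆ ∈ I := by rw [ht.lie_e_f]; exact hhI
      have k1' : ⁅e, h⁆ ∈ I := by rw [← lie_skew]; exact I.neg_mem k1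
      have k2' : ⁅f, h⁆ ∈ I := by rw [← lie_skew]; exact I.neg_mem k2
      have k3' : ⁅f, e⁆ ∈ I := by rw [← lie_skew]; exact I.neg_mem k3
      fin_cases i <;> fin_cases j <;> simp [hb] <;> first | exact k1 | exact k2 | exact k3 | exact k1' | exact k2' | exact k3'
    intro z hz y hy
    induction hz using Submodule.span_induction with
    | mem z hz =>
      obtain ⟨i, rfl⟩ := hz
      induction hy using Submodule.span_induction with
      | mem y hy =>
        obtain ⟨j, rfl⟩ := hy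
        exact base i j
      | zero => rw [lie_zero]; exact I.zero_mem
      | add a c _ _ ha hc => rw [lie_add]; exact I.add_mem ha hc
      | smul t a _ ha => rw [lie_smul]; exact I.smul_mem _ ha
    | zero => rw [zero_lie]; exact I.zero_mem
    | add a c _ _ ha hc => rw [add_lie]; exact I.add_mem ha hc
    | smul t a _ ha => rw [smul_lie]; exact I.smul_mem _ ha
  have hIs : ∀ c : ℤ, c ≠ 0 → ∀ u : g, ⁅h, u⁆ = (c : ℂ) • u → ∀ y ∈ I, ⁅u, y⁆ ∈ I := by
    intro c hc u hu y hy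
    have huI : u ∈ I := by
      by_cases h2 : c = 2
      · subst h2
        obtain ⟨t, ht'⟩ := top_line ht hE hF (v := u) (by rw [hu]; norm_num)
        rw [ht']
        exact I.smul_mem _ heI
      by_cases h3 : c = -2
      · subst h3
        obtain ⟨t, ht'⟩ := bot_line ht hE hF (v := u) (by rw [hu]; norm_num)
        rw [ht']
        exact I.smul_mem _ hfI
      by_cases h4 : c = 1
      · subst h4
        have : u = 0 := h1 u (by rw [hu]; norm_num)
        rw [this]; exact I.zero_mem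
      by_cases h5 : c = -1
      · subst h5
        have : u = 0 := hm1 u (by rw [hu]; norm_num)
        rw [this]; exact I.zero_mem
      have : u = 0 := by
        refine eq_zero_of_eigen h htop _ (fun j hj => ?_) _ hu
        have h6 : (((j : ℕ) : ℤ) : ℂ) = ((c + 2 : ℤ) : ℂ) := by
          push_cast; linear_combination hj
        have h7 : ((j : ℕ) : ℤ) = c + 2 := by exact_mod_cast h6
        have := j.2
        omega
      rw [this]; exact I.zero_mem
    exact hclos u huI y hy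
  have hid := lie_mem_of_forall_eigen h htop I hIs e ht.e_ne_zero (ht.lie_h_e_smul ℂ)
  let J : LieIdeal ℂ g := { I with lie_mem := fun {x m} hm => hid x m hm }
  have hJ : J = ⊤ := by
    refine (LieAlgebra.IsSimple.eq_bot_or_eq_top J).resolve_left fun h0 => ht.e_ne_zero ?_
    have h2 : e ∈ J := heI
    rw [h0] at h2
    exact (LieSubmodule.mem_bot e).1 h2
  have hItop : I = ⊤ := by
    rw [eq_top_iff]
    intro x _
    have h2 : x ∈ J := by rw [hJ]; exact LieSubmodule.mem_top x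
    exact h2
  have hlin : LinearIndependent ℂ b := by
    refine Module.End.eigenvectors_linearIndependent' (ad ℂ g h) (![-2, 0, 2] : Fin 3 → ℂ) ?_ b ?_
    · intro i j hij
      fin_cases i <;> fin_cases j <;> simp at hij ⊢ <;> norm_num at hij
    · intro i
      rw [Module.End.hasEigenvector_iff, Module.End.mem_eigenspace_iff]
      fin_cases i
      · refine ⟨?_, ht.f_ne_zero⟩
        change ⁅h, f⁆ = (-2 : ℂ) • f
        rw [ht.lie_lie_smul_f ℂ, neg_smul]
      · refine ⟨?_, ht.h_ne_zero⟩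
        change ⁅h, h⁆ = (0 : ℂ) • h
        rw [lie_self, zero_smul]
      · refine ⟨?_, ht.e_ne_zero⟩
        change ⁅h, e⁆ = (2 : ℂ) • e
        exact ht.lie_h_e_smul ℂ
  have h2 := finrank_span_eq_card hlin
  rw [← hI, hItop, finrank_top, Fintype.card_fin] at h2
  exact h2

end sl

/-- decomposition into eigenvectors -/
theorem dec_of {h : g} (htop : ∀ x : g,
    x ∈ ⨆ i : Fin 5, Module.End.eigenspace (ad ℂ g h) ((i : ℂ) - 2)) (v : g) :
    ∃ w : Fin 5 → g, v = ∑ i, w i ∧ ∀ i : Fin 5, ⁅h, w i⁆ = (((i : ℕ) : ℂ) - 2) • w i := by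
  classical
  refine Submodule.iSup_induction (fun i : Fin 5 =>
    Module.End.eigenspace (ad ℂ g h) ((i : ℂ) - 2)) (motive := fun v => ∃ w : Fin 5 → g,
      v = ∑ i, w i ∧ ∀ i : Fin 5, ⁅h, w i⁆ = (((i : ℕ) : ℂ) - 2) • w i) (htop v) ?_ ?_ ?_
  · intro i x hx
    rw [Module.End.mem_eigenspace_iff, ad_apply] at hx
    refine ⟨Pi.single i x, ?_, fun j => ?_⟩
    · simp
    · by_cases hj : j = i
      · subst hj
        rw [Pi.single_eq_same]
        exact hx
      · rw [Pi.single_eq_of_ne hj, lie_zero, smul_zero]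
  · exact ⟨0, by simp, fun i => by simp⟩
  · rintro x y ⟨w, hx, hw⟩ ⟨w', hy, hw'⟩
    refine ⟨w + w', ?_, fun i => ?_⟩
    · rw [hx, hy, ← Finset.sum_add_distrib]
      rfl
    · rw [Pi.add_apply, lie_add, hw, hw', smul_add]

theorem stCt : StCt.{u} := by
  intro g _ _ _ _
  obtain ⟨h, e, f, ht, hE, hF⟩ := exists_triple (g := g)
  have htop := htop_of ht hE hF
  have hk := kill_ne ht hE hF
  let c : g →ₗ[ℂ] ℂ := (killingForm ℂ g e f)⁻¹ • (LinearMap.flip (killingForm ℂ g) f)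
  have hc : ∀ v, c v = (killingForm ℂ g e f)⁻¹ * killingForm ℂ g v f := fun v => rfl
  have hce : c e = 1 := by rw [hc, inv_mul_cancel₀ hk]
  have htl : ∀ v : g, ⁅h, v⁆ = (2 : ℂ) • v → v = c v • e := by
    intro v hv
    obtain ⟨t, htv⟩ := top_line ht hE hF hv
    have : c v = t := by
      rw [htv, map_smul, hce, smul_eq_mul, mul_one]
    rw [this]
    exact htv
  refine ⟨⟨e, h, f, c, ht.lie_h_e_smul ℂ, ?_, ht.lie_e_f, hce, ?_, htl, dec_of htop, ?_⟩, ?_⟩
  · rw [ht.lie_lie_smul_f ℂ, neg_smul]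
  · intro v μ hv hμ
    rw [hc]
    have h1 : killingForm ℂ g v f = 0 :=
      killingForm_eq_zero_of_eigen h (a := μ) (b := -2) hv
        (by rw [ht.lie_lie_smul_f ℂ, neg_smul]) (fun h0 => hμ (by linear_combination h0))
    rw [h1, mul_zero]
  · intro u hu hu'
    refine eq_zero_of_forall_lie_eq_zero h htop ht u (by rw [hu, one_smul]) fun a ha => ?_
    rw [one_smul] at ha
    have h1 : ⁅h, ⁅u, a⁆⁆ = (2 : ℂ) • ⁅u, a⁆ := by
      rw [eigen_lie h (a := 1) (b := 1) (by rw [hu, one_smul]) (by rw [ha, one_smul])]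
      norm_num
    rw [htl _ h1, hu' a ha, zero_smul]
  · intro h3
    by_contra hcon
    push Not at hcon
    apply h3
    refine dim_three ht hE hF fun u hu => ?_
    by_contra hu0
    exact hcon u hu0 hu

end Vale.Agent.P292.X442
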