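import Vale.Agent.P292.X442.Iface

/-! Block E2: Darboux rings. -/

set_option linter.all false

open MvPolynomial

namespace Vale.Agent.P292.X442.D231

/-- the index set of the variables -/
abbrev Sg (n : ℕ) := Option (Option (Fin n))

/-- polynomials -/
abbrev Po (n : ℕ) := MvPolynomial (Sg n) ℂ

/-- the localization -/
abbrev Lo (n : ℕ) := Localization.Away (X none : Po n)

noncomputable section

variable {n : ℕ}

/-- the variables -/
def xx (i : Sg n) : Lo n := algebraMap (Po n) (Lo n) (X i)

/-- the inverse of the first variable -/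
def bb : Lo n := IsLocalization.Away.invSelf (X none : Po n)

theorem xx_bb : (xx none : Lo n) * bb = 1 := IsLocalization.Away.mul_invSelf (X none : Po n)

theorem pows_le : Submonoid.powers (X none : Po n) ≤ nonZeroDivisors (Po n) :=
  powers_le_nonZeroDivisors_of_noZeroDivisors (X_ne_zero _)

theorem dom : IsDomain (Lo n) := IsLocalization.isDomain_localization pows_le

theorem intc : IsIntegrallyClosed (Lo n) :=
  isIntegrallyClosed_of_isLocalization (Lo n) (Submonoid.powers (X none : Po n)) pows_le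

theorem inj : Function.Injective (algebraMap (Po n) (Lo n)) :=
  IsLocalization.injective (Lo n) pows_le

theorem algInd : AlgebraicIndependent ℂ (xx : Sg n → Lo n) := by
  have h : (aeval (xx : Sg n → Lo n) : Po n →ₐ[ℂ] Lo n) = IsScalarTower.toAlgHom ℂ (Po n) (Lo n) := by
    apply MvPolynomial.algHom_ext
    intro i
    rw [aeval_X]
    rfl
  rw [AlgebraicIndependent, h]
  exact inj

theorem trd : ((n + 2 : ℕ) : Cardinal) ≤ Algebra.trdeg ℂ (Lo n) := by
  have := (algInd (n := n)).cardinalMk_le_trdeg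
  have h2 : Cardinal.mk (Sg n) = ((n + 2 : ℕ) : Cardinal) := by
    simp [Sg, add_assoc, one_add_one_eq_two]
  rwa [h2] at this

theorem poly_mem (s : Subalgebra ℂ (Lo n)) (h : ∀ i, xx i ∈ s) (p : Po n) :
    algebraMap (Po n) (Lo n) p ∈ s := by
  induction p using MvPolynomial.induction_on with
  | C a =>
    have : algebraMap (Po n) (Lo n) (C a) = algebraMap ℂ (Lo n) a := rfl
    rw [this]
    exact s.algebraMap_mem a
  | add p q hp hq => rw [map_add]; exact s.add_mem hp hq
  | mul_X p i hp => rw [map_mul]; exact s.mul_mem hp (h i)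

theorem gens : Algebra.adjoin ℂ (({xx none, bb, xx (some none)} : Set (Lo n)) ∪
    Set.range fun k => xx (some (some k))) = ⊤ := by
  rw [eq_top_iff]
  intro z _
  set s := Algebra.adjoin ℂ (({xx none, bb, xx (some none)} : Set (Lo n)) ∪
    Set.range fun k => xx (some (some k))) with hs
  have hx : ∀ i, (xx i : Lo n) ∈ s := by
    intro i
    apply Algebra.subset_adjoin
    rcases i with _ | _ | k
    · simp
    · simp
    · right; exact ⟨k, rfl⟩
  have hb : (bb : Lo n) ∈ s := Algebra.subset_adjoin (by simp)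
  obtain ⟨p, ⟨_, k, rfl⟩, rfl⟩ := IsLocalization.exists_mk'_eq (Submonoid.powers (X none : Po n)) z
  have h1 : IsLocalization.mk' (Lo n) p (⟨X none ^ k, k, rfl⟩ : Submonoid.powers (X none : Po n)) =
      algebraMap (Po n) (Lo n) p * bb ^ k := by
    rw [IsLocalization.mk'_eq_iff_eq_mul]
    change _ = _ * bb ^ k * algebraMap (Po n) (Lo n) (X none ^ k)
    rw [map_pow, mul_assoc, ← mul_pow, mul_comm bb, show algebraMap (Po n) (Lo n) (X none) = xx none
      from rfl, xx_bb, one_pow, mul_one]
  rw [h1]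
  exact s.mul_mem (poly_mem s hx p) (s.pow_mem hb k)

/-- extension of a derivation to the localization -/
theorem exists_ext (v : Sg n → Lo n) : ∃ D : Derivation ℂ (Lo n) (Lo n), ∀ i, D (xx i) = v i := by
  let M := Submonoid.powers (X none : Po n)
  let d : Derivation ℂ (Po n) (Lo n) := mkDerivation ℂ v
  have hl : IsLocalizedModule M (KaehlerDifferential.map ℂ ℂ (Po n) (Lo n)) :=
    KaehlerDifferential.isLocalizedModule_map ℂ (Po n) (Lo n) M
  let l : Ω[Po n⁄ℂ] →ₗ[Po n] Lo n := d.liftKaehlerDifferential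
  have hu : ∀ x : M, IsUnit ((algebraMap (Po n) (Module.End (Po n) (Lo n))) x) := by
    intro x
    exact IsLocalizedModule.map_units (Algebra.linearMap (Po n) (Lo n)) x
  let l' : Ω[Lo n⁄ℂ] →ₗ[Po n] Lo n :=
    IsLocalizedModule.lift M (KaehlerDifferential.map ℂ ℂ (Po n) (Lo n)) l hu
  let l'' : Ω[Lo n⁄ℂ] →ₗ[Lo n] Lo n := LinearMap.extendScalarsOfIsLocalization M (Lo n) l'
  refine ⟨l''.compDer (KaehlerDifferential.D ℂ (Lo n)), fun i => ?_⟩
  change l' (KaehlerDifferential.D ℂ (Lo n) (algebraMap (Po n) (Lo n) (X i))) = v i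
  have h1 : KaehlerDifferential.D ℂ (Lo n) (algebraMap (Po n) (Lo n) (X i)) =
      KaehlerDifferential.map ℂ ℂ (Po n) (Lo n) (KaehlerDifferential.D ℂ (Po n) (X i)) := by
    rw [KaehlerDifferential.map_D]
  rw [h1]
  change (IsLocalizedModule.lift M (KaehlerDifferential.map ℂ ℂ (Po n) (Lo n)) l hu)
    (KaehlerDifferential.map ℂ ℂ (Po n) (Lo n) (KaehlerDifferential.D ℂ (Po n) (X i))) = v i
  rw [IsLocalizedModule.lift_apply]
  change d.liftKaehlerDifferential (KaehlerDifferential.D ℂ (Po n) (X i)) = v i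
  rw [Derivation.liftKaehlerDifferential_comp_D]
  exact mkDerivation_X ℂ v i

/-- derivations are determined by the variables -/
theorem der_ext {D D' : Derivation ℂ (Lo n) (Lo n)} (h : ∀ i, D (xx i) = D' (xx i)) : D = D' := by
  apply Derivation.ext_of_adjoin_eq_top _ gens
  have hb : ∀ D : Derivation ℂ (Lo n) (Lo n), D bb = - (bb * bb * D (xx none)) := by
    intro D
    have h1 : D ((xx none : Lo n) * bb) = 0 := by rw [xx_bb, Derivation.map_one_eq_zero]
    rw [Derivation.leibniz, smul_eq_mul, smul_eq_mul] at h1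
    have h2 : bb * ((xx none : Lo n) * D bb + bb * D (xx none)) = 0 := by rw [h1, mul_zero]
    have h3 : bb * ((xx none : Lo n) * D bb) = D bb := by
      rw [← mul_assoc, mul_comm bb, xx_bb, one_mul]
    rw [mul_add, h3] at h2
    rw [mul_assoc]
    exact eq_neg_of_add_eq_zero_left h2
  rintro z (hz | ⟨k, rfl⟩)
  · simp only [Set.mem_insert_iff, Set.mem_singleton_iff] at hz
    rcases hz with rfl | rfl | rfl
    · exact h _
    · rw [hb, hb, h]
    · exact h _
  · exact h _

/-- partial derivatives -/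
def pd (i : Sg n) : Derivation ℂ (Lo n) (Lo n) :=
  (exists_ext (fun j => if j = i then (1 : Lo n) else 0)).choose

theorem pd_xx (i j : Sg n) : pd i (xx j) = if j = i then (1 : Lo n) else 0 :=
  (exists_ext (fun j => if j = i then (1 : Lo n) else 0)).choose_spec j

/-- the constant Poisson bracket with matrix `c` -/
def PB (c : Sg n → Sg n → ℂ) : Lo n →ₗ[ℂ] Lo n →ₗ[ℂ] Lo n :=
  ∑ i, ∑ j, c i j • (LinearMap.mul ℂ (Lo n)).compl₁₂ (pd i : Lo n →ₗ[ℂ] Lo n)
    (pd j : Lo n →ₗ[ℂ] Lo n)

theorem PB_apply (c : Sg n → Sg n → ℂ) (x y : Lo n) :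
    PB c x y = ∑ i, ∑ j, c i j • (pd i x * pd j y) := by
  simp [PB, LinearMap.sum_apply]

theorem PB_skew {c : Sg n → Sg n → ℂ} (hc : ∀ i j, c i j = - c j i) (x y : Lo n) :
    PB c x y = - PB c y x := by
  rw [PB_apply, PB_apply, Finset.sum_comm, ← Finset.sum_neg_distrib]
  refine Finset.sum_congr rfl fun i _ => ?_
  rw [← Finset.sum_neg_distrib]
  refine Finset.sum_congr rfl fun j _ => ?_
  rw [hc j i, neg_smul, mul_comm]

theorem PB_alt {c : Sg n → Sg n → ℂ} (hc : ∀ i j, c i j = - c j i) (x : Lo n) :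
    PB c x x = 0 := by
  have h := PB_skew hc x x
  have h2 : (2 : ℂ) • PB c x x = 0 := by
    rw [two_smul]
    nth_rw 1 [h]
    exact neg_add_cancel _
  exact (smul_eq_zero.1 h2).resolve_left two_ne_zero

theorem PB_leib (c : Sg n → Sg n → ℂ) (x y z : Lo n) :
    PB c x (y * z) = PB c x y * z + y * PB c x z := by
  simp only [PB_apply, Finset.sum_mul, Finset.mul_sum, ← Finset.sum_add_distrib]
  refine Finset.sum_congr rfl fun i _ => Finset.sum_congr rfl fun j _ => ?_
  rw [Derivation.leibniz, smul_eq_mul, smul_eq_mul, smul_mul_assoc, mul_smul_comm, ← smul_add]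
  congr 1
  ring

theorem PB_leib' {c : Sg n → Sg n → ℂ} (hc : ∀ i j, c i j = - c j i) (x y z : Lo n) :
    PB c (y * z) x = PB c y x * z + y * PB c z x := by
  rw [PB_skew hc, PB_leib, PB_skew hc x y, PB_skew hc x z]
  ring

/-- the derivation `P x` -/
def ad (c : Sg n → Sg n → ℂ) (x : Lo n) : Derivation ℂ (Lo n) (Lo n) :=
  Derivation.mk' (PB c x) fun y z => by
    rw [PB_leib, smul_eq_mul, smul_eq_mul]
    ring

theorem PB_xx (c : Sg n → Sg n → ℂ) (i j : Sg n) :
    PB c (xx i) (xx j) = algebraMap ℂ (Lo n) (c i j) := by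
  rw [PB_apply, Finset.sum_eq_single i, Finset.sum_eq_single j]
  · rw [pd_xx, pd_xx, if_pos rfl, if_pos rfl, mul_one, Algebra.algebraMap_eq_smul_one]
  · intro b _ hb
    rw [pd_xx b j, if_neg (Ne.symm hb), mul_zero, smul_zero]
  · simp
  · intro b _ hb
    refine Finset.sum_eq_zero fun j' _ => ?_
    rw [pd_xx b i, if_neg (Ne.symm hb), zero_mul, smul_zero]
  · simp

theorem PB_const (c : Sg n → Sg n → ℂ) (x : Lo n) (r : ℂ) :
    PB c x (algebraMap ℂ (Lo n) r) = 0 := (ad c x).map_algebraMap r

/-- the Jacobiator -/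
theorem PB_jac {c : Sg n → Sg n → ℂ} (hc : ∀ i j, c i j = - c j i) (x y z : Lo n) :
    PB c x (PB c y z) = PB c (PB c x y) z + PB c y (PB c x z) := by
  have hcomm : ∀ (x y : Lo n), (∀ i, PB c x (PB c y (xx i)) =
      PB c (PB c x y) (xx i) + PB c y (PB c x (xx i))) → ∀ z, PB c x (PB c y z) =
      PB c (PB c x y) z + PB c y (PB c x z) := by
    intro x y h z
    have h1 : ⁅ad c x, ad c y⁆ = ad c (PB c x y) := by
      apply der_ext
      intro i
      rw [Derivation.commutator_apply]
      change PB c x (PB c y (xx i)) - PB c y (PB c x (xx i)) = PB c (PB c x y) (xx i)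
      rw [h i]
      abel
    have h2 := congrArg (fun D : Derivation ℂ (Lo n) (Lo n) => D z) h1
    change ⁅ad c x, ad c y⁆ z = ad c (PB c x y) z at h2
    rw [Derivation.commutator_apply] at h2
    change PB c x (PB c y z) - PB c y (PB c x z) = PB c (PB c x y) z at h2
    rw [← h2]
    abel
  -- all cyclic permutations of the Jacobi identity are equivalent
  have hrot : ∀ x y z : Lo n, PB c x (PB c y z) = PB c (PB c x y) z + PB c y (PB c x z) →
      PB c z (PB c x y) = PB c (PB c z x) y + PB c x (PB c z y) := by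
    intro x y z h
    rw [PB_skew hc z (PB c x y), PB_skew hc (PB c z x) y, PB_skew hc z x, PB_skew hc z y,
      map_neg, map_neg, h]
    ring
  have k1 : ∀ i j l : Sg n, PB c (xx i) (PB c (xx j) (xx l)) =
      PB c (PB c (xx i) (xx j)) (xx l) + PB c (xx j) (PB c (xx i) (xx l)) := by
    intro i j l
    rw [PB_xx, PB_xx, PB_xx, PB_const, PB_const, PB_skew hc, PB_const]
    simp
  have k2 : ∀ (i j : Sg n) (z : Lo n), PB c (xx i) (PB c (xx j) z) =
      PB c (PB c (xx i) (xx j)) z + PB c (xx j) (PB c (xx i) z) :=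
    fun i j z => hcomm _ _ (fun l => k1 i j l) z
  have k3 : ∀ (z : Lo n) (i : Sg n) (y : Lo n), PB c z (PB c (xx i) y) =
      PB c (PB c z (xx i)) y + PB c (xx i) (PB c z y) :=
    fun z i y => hcomm _ _ (fun j => hrot _ _ _ (k2 i j z)) y
  exact hcomm x y (fun i => hrot _ _ _ (k3 y i x)) z

/-- the structure constants -/
def cc (w : Fin n → Fin n → ℂ) : Sg n → Sg n → ℂ
  | none, some none => 1
  | some none, none => -1
  | some (some k), some (some l) => w k l
  | _, _ => 0

theorem cc_skew {w : Fin n → Fin n → ℂ} (h : ∀ k l, w k l = -w l k) (i j : Sg n) :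
    cc w i j = - cc w j i := by
  rcases i with _ | _ | i <;> rcases j with _ | _ | j <;> simp [cc]
  exact h i j

theorem isUnit_neg (m : Submonoid.powers (X none : Po n)) :
    IsUnit ((aeval fun i => -(xx i : Lo n)) (m : Po n)) := by
  obtain ⟨_, k, rfl⟩ := m
  change IsUnit ((aeval fun i => -(xx i : Lo n)) ((X none : Po n) ^ k))
  rw [map_pow, aeval_X]
  exact (IsUnit.of_mul_eq_one bb (xx_bb (n := n))).neg.pow k

/-- the sign automorphism -/
def sg : Lo n →ₐ[ℂ] Lo n :=
  IsLocalization.liftAlgHom (M := Submonoid.powers (X none : Po n))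
    (f := (aeval fun i => -(xx i : Lo n) : Po n →ₐ[ℂ] Lo n)) isUnit_neg

theorem sg_xx (i : Sg n) : sg (xx i : Lo n) = - xx i := by
  change IsLocalization.lift isUnit_neg (algebraMap (Po n) (Lo n) (X i)) = _
  rw [IsLocalization.lift_eq]
  exact aeval_X _ _

end

end Vale.Agent.P292.X442.D231

namespace Vale.Agent.P292.X442

open D231

/-- Darboux rings exist. -/
theorem stDx : StDx := by
  intro n w hw
  obtain ⟨E, hE⟩ := exists_ext (fun i : Sg n => (xx i : Lo n))
  refine ⟨Lo n, inferInstance, inferInstance, dom, intc, trd, ⟨{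
    a := xx none
    b := bb
    s := xx (some none)
    y := fun k => xx (some (some k))
    P := PB (cc w)
    E := E
    σ := sg
    ab := xx_bb
    gen := gens
    alt := fun x => PB_alt (cc_skew hw) x
    leib := fun x y z => PB_leib _ x y z
    jac := fun x y z => PB_jac (cc_skew hw) x y z
    as := by rw [PB_xx]; exact map_one _
    ay := fun k => by rw [PB_xx]; exact map_zero _
    sy := fun k => by rw [PB_xx]; exact map_zero _
    yy := fun k l => PB_xx _ _ _
    Ea := hE _
    Es := hE _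
    Ey := fun k => hE _
    σa := sg_xx _
    σs := sg_xx _
    σy := fun k => sg_xx _ }⟩⟩

end Vale.Agent.P292.X442
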