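import Vale.Agent.P292.X442.Iface2

/-! Block M: monomials in a Darboux ring. -/

namespace Vale.Agent.P292.X442

namespace Dx

section

variable {A : Type*} [CommRing A] [Algebra ℂ A] {ι : Type*} {w : ι → ι → ℂ} (X : Dx A ι w)

theorem mul_mem_V {d m d' m' : ℤ} {x y : A} (hx : x ∈ X.V d m) (hy : y ∈ X.V d' m') :
    x * y ∈ X.V (d + d') (m + m') := by
  rw [mem_V] at hx hy ⊢
  constructor
  · rw [Derivation.leibniz, hx.1, hy.1, smul_eq_mul, smul_eq_mul, mul_smul_comm, mul_smul_comm,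
      mul_comm y x, ← add_smul, Int.cast_add, add_comm]
  · rw [X.leib, hx.2, hy.2, mul_smul_comm, smul_mul_assoc, ← add_smul, Int.cast_add, neg_add]

theorem one_mem_V : (1 : A) ∈ X.V 0 0 := by
  rw [mem_V]
  constructor
  · simp
  · rw [X.P_one]
    simp

theorem pow_mem_V {d m : ℤ} {x : A} (hx : x ∈ X.V d m) (k : ℕ) :
    x ^ k ∈ X.V (k * d) (k * m) := by
  induction k with
  | zero => simpa using X.one_mem_V
  | succ k ih =>
    rw [pow_succ]
    have := X.mul_mem_V ih hx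
    convert this using 2 <;> push_cast <;> ring

theorem a_mem_V : X.a ∈ X.V 1 1 := by
  rw [mem_V]
  constructor
  · rw [X.Ea]; simp
  · rw [X.leib', X.alt, X.skew X.s X.a, X.as]
    simp

theorem s_mem_V : X.s ∈ X.V 1 (-1) := by
  rw [mem_V]
  constructor
  · rw [X.Es]; simp
  · rw [X.leib', X.alt, X.as]
    simp

theorem y_mem_V (k : ι) : X.y k ∈ X.V 1 0 := by
  rw [mem_V]
  constructor
  · rw [X.Ey]; simp
  · rw [X.leib', X.ay, X.sy]
    simp

theorem b_mem_V : X.b ∈ X.V (-1) (-1) := by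
  have ha := X.a_mem_V
  rw [mem_V] at ha ⊢
  constructor
  · rw [X.der_b, ha.1]
    simp only [mul_smul_comm, mul_assoc, X.ba]
    simp
  · have h := X.der_b (X.ham (X.a * X.s))
    rw [ham_apply, ham_apply, ha.2] at h
    rw [h]
    simp only [mul_smul_comm, mul_assoc, X.ba]
    simp

/-- the unit `a` -/
def u : Aˣ := ⟨X.a, X.b, X.ab, X.ba⟩

theorem u_val : (X.u : A) = X.a := rfl

theorem u_zpow_mem (i : ℤ) : ((X.u ^ i : Aˣ) : A) ∈ X.V i i := by
  rcases i with k | k
  · have := X.pow_mem_V X.a_mem_V k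
    simpa [u_val] using this
  · have := X.pow_mem_V X.b_mem_V (k + 1)
    have e : ((X.u ^ (Int.negSucc k) : Aˣ) : A) = X.b ^ (k + 1) := by
      rw [zpow_negSucc, ← inv_pow, Units.val_pow_eq_pow_val]
      rfl
    rw [e]
    convert this using 2 <;> rw [Int.negSucc_eq] <;> push_cast <;> ring

end

variable {n : ℕ} {w : Fin n → Fin n → ℂ} {A : Type*} [CommRing A] [Algebra ℂ A]
  (X : Dx A (Fin n) w)

/-- the monomials -/
def mon (t : ℤ × ℕ × (Fin n → ℕ)) : A :=
  ((X.u ^ t.1 : Aˣ) : A) * X.s ^ t.2.1 * ∏ k, X.y k ^ t.2.2 k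

/-- the bidegree of a monomial -/
def bd (t : ℤ × ℕ × (Fin n → ℕ)) : ℤ × ℤ :=
  (t.1 + t.2.1 + ∑ k, (t.2.2 k : ℤ), t.1 - t.2.1)

theorem prod_mem_V (α : Fin n → ℕ) (s : Finset (Fin n)) :
    ∏ k ∈ s, X.y k ^ α k ∈ X.V (∑ k ∈ s, (α k : ℤ)) 0 := by
  classical
  induction s using Finset.induction_on with
  | empty => simpa using X.one_mem_V
  | insert k s hk ih =>
    rw [Finset.prod_insert hk, Finset.sum_insert hk]
    have := X.mul_mem_V (X.pow_mem_V (X.y_mem_V k) (α k)) ih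
    convert this using 2 <;> ring

theorem mon_mem (t : ℤ × ℕ × (Fin n → ℕ)) : X.mon t ∈ X.V (bd t).1 (bd t).2 := by
  unfold mon bd
  have := X.mul_mem_V (X.mul_mem_V (X.u_zpow_mem t.1) (X.pow_mem_V X.s_mem_V t.2.1))
    (X.prod_mem_V t.2.2 Finset.univ)
  convert this using 2 <;> ring

theorem mon_mul (t t' : ℤ × ℕ × (Fin n → ℕ)) : X.mon t * X.mon t' = X.mon (t + t') := by
  unfold mon
  simp only [Prod.fst_add, Prod.snd_add, Pi.add_apply, pow_add, zpow_add, Units.val_mul,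
    Finset.prod_mul_distrib]
  ring

theorem mon_zero : X.mon 0 = 1 := by
  unfold mon
  simp

theorem span_mon : Submodule.span ℂ (Set.range X.mon) = ⊤ := by
  classical
  rw [eq_top_iff]
  intro r _
  have hr : r ∈ (Algebra.adjoin ℂ ({X.a, X.b, X.s} ∪ Set.range X.y)).toSubmodule := by
    rw [X.gen]
    trivial
  rw [Algebra.adjoin_eq_span] at hr
  refine Submodule.span_mono ?_ hr
  let S : Submonoid A :=
    { carrier := Set.range X.mon
      one_mem' := ⟨0, X.mon_zero⟩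
      mul_mem' := by
        rintro _ _ ⟨t, rfl⟩ ⟨t', rfl⟩
        exact ⟨t + t', (X.mon_mul t t').symm⟩ }
  have : Submonoid.closure ({X.a, X.b, X.s} ∪ Set.range X.y) ≤ S := by
    rw [Submonoid.closure_le]
    rintro z ((rfl | rfl | rfl) | ⟨k, rfl⟩)
    · exact ⟨(1, 0, 0), by simp [mon, u_val]⟩
    · refine ⟨(-1, 0, 0), ?_⟩
      simp only [mon, zpow_neg, zpow_one, pow_zero, mul_one, Pi.zero_apply, Finset.prod_const_one]
      rfl
    · exact ⟨(0, 1, 0), by simp [mon]⟩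
    · refine ⟨(0, 0, Pi.single k 1), ?_⟩
      simp only [mon, zpow_zero, Units.val_one, pow_zero, one_mul]
      rw [Finset.prod_eq_single k]
      · simp
      · intro l _ hl
        simp [hl]
      · simp
  exact fun z hz => this hz

theorem V_indep : iSupIndep fun p : ℤ × ℤ => X.V p.1 p.2 := by
  let T : Module.End ℂ A := (X.E : A →ₗ[ℂ] A) - Complex.I • X.P (X.a * X.s)
  have h1 := Module.End.eigenspaces_iSupIndep T
  have hinj : Function.Injective fun p : ℤ × ℤ => (p.1 : ℂ) + Complex.I * p.2 := by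
    rintro ⟨p, q⟩ ⟨p', q'⟩ h
    have h2 := congrArg Complex.re h
    have h3 := congrArg Complex.im h
    simp at h2 h3
    rw [h2, h3]
  refine (h1.comp hinj).mono ?_
  rintro ⟨p, q⟩ r hr
  rw [mem_V] at hr
  simp only [Function.comp_apply, Module.End.mem_eigenspace_iff]
  change X.E r - Complex.I • X.P (X.a * X.s) r = _
  rw [hr.1, hr.2, smul_smul, ← sub_smul]
  congr 1
  ring

/-- the span of the monomials of a given bidegree -/
def W (p : ℤ × ℤ) : Submodule ℂ A := Submodule.span ℂ (X.mon '' {t | bd t = p})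

theorem W_le (p : ℤ × ℤ) : X.W p ≤ X.V p.1 p.2 := by
  unfold W
  rw [Submodule.span_le]
  rintro _ ⟨t, ht, rfl⟩
  have := X.mon_mem t
  rw [ht] at this
  exact this

theorem iSup_W : ⨆ p, X.W p = ⊤ := by
  rw [eq_top_iff, ← X.span_mon, Submodule.span_le]
  rintro _ ⟨t, rfl⟩
  exact (le_iSup X.W (bd t)) (Submodule.subset_span ⟨t, rfl, rfl⟩)

theorem V_eq (d m : ℤ) : X.V d m = X.W (d, m) := by
  refine le_antisymm ?_ (X.W_le (d, m))
  intro r hr
  have h1 : r ∈ X.W (d, m) ⊔ ⨆ (q) (_ : q ≠ (d, m)), X.W q := by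
    have : (⊤ : Submodule ℂ A) ≤ X.W (d, m) ⊔ ⨆ (q) (_ : q ≠ (d, m)), X.W q := by
      rw [← X.iSup_W]
      refine iSup_le fun q => ?_
      by_cases hq : q = (d, m)
      · rw [hq]
        exact le_sup_left
      · exact le_sup_of_le_right (le_iSup₂_of_le q hq le_rfl)
    exact this trivial
  obtain ⟨x, hx, y, hy, hxy⟩ := Submodule.mem_sup.1 h1
  have h2 : y ∈ ⨆ (q) (_ : q ≠ (d, m)), X.V q.1 q.2 :=
    (iSup₂_mono fun q _ => X.W_le q) hy
  have h3 : y ∈ X.V d m := by
    have : y = r - x := by rw [← hxy]; ring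
    rw [this]
    exact Submodule.sub_mem _ hr (X.W_le (d, m) hx)
  have h4 : y = 0 := by
    have := (X.V_indep (d, m))
    rw [Submodule.disjoint_def] at this
    exact this y h3 h2
  rw [← hxy, h4, add_zero]
  exact hx

theorem sigma_mon (t : ℤ × ℕ × (Fin n → ℕ)) :
    X.σ (X.mon t) = ((-1 : ℂ) ^ (bd t).1) • X.mon t := by
  have hmul : ∀ (x y : A) (p q : ℤ), X.σ x = ((-1 : ℂ) ^ p) • x → X.σ y = ((-1 : ℂ) ^ q) • y →
      X.σ (x * y) = ((-1 : ℂ) ^ (p + q)) • (x * y) := by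
    intro x y p q hx hy
    rw [map_mul, hx, hy, smul_mul_smul_comm, zpow_add₀ (by norm_num)]
  have hpow : ∀ (x : A), X.σ x = -x → ∀ k : ℕ, X.σ (x ^ k) = ((-1 : ℂ) ^ (k : ℤ)) • x ^ k := by
    intro x hx k
    rw [map_pow, hx, neg_pow, zpow_natCast, Algebra.smul_def, map_pow, map_neg, map_one]
  have hb : X.σ X.b = -X.b := by
    have h1 : X.σ X.a * X.σ X.b = 1 := by rw [← map_mul, X.ab, map_one]
    rw [X.σa] at h1
    linear_combination (-X.b) * h1 - X.σ X.b * X.ab
  have hu : ∀ i : ℤ, X.σ ((X.u ^ i : Aˣ) : A) = ((-1 : ℂ) ^ i) • ((X.u ^ i : Aˣ) : A) := by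
    intro i
    rcases i with k | k
    · have := hpow X.a X.σa k
      simpa [u_val] using this
    · have e : ((X.u ^ (Int.negSucc k) : Aˣ) : A) = X.b ^ (k + 1) := by
        rw [zpow_negSucc, ← inv_pow, Units.val_pow_eq_pow_val]
        rfl
      rw [e, hpow X.b hb (k + 1)]
      congr 1
      rw [zpow_negSucc, zpow_natCast, ← inv_pow]
      norm_num
  have hprod : ∀ s : Finset (Fin n), X.σ (∏ k ∈ s, X.y k ^ t.2.2 k) =
      ((-1 : ℂ) ^ (∑ k ∈ s, (t.2.2 k : ℤ))) • ∏ k ∈ s, X.y k ^ t.2.2 k := by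
    classical
    intro s
    induction s using Finset.induction_on with
    | empty => simp
    | insert k s hk ih =>
      rw [Finset.prod_insert hk, Finset.sum_insert hk]
      exact hmul _ _ _ _ (hpow _ (X.σy k) _) ih
  exact hmul _ _ _ _ (hmul _ _ _ _ (hu t.1) (hpow _ X.σs _)) (hprod _)

/-- the elements which are multiplied into the cone ring by an even power of `a` -/
def Sev : Submodule ℂ A where
  carrier := {r | ∃ N : ℕ, X.a ^ (2 * N) * r ∈
    Algebra.adjoin ℂ ({X.a ^ 2, X.a * X.s} ∪ Set.range fun k => X.a * X.y k)}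
  zero_mem' := ⟨0, by rw [mul_zero]; exact Subalgebra.zero_mem _⟩
  add_mem' := by
    rintro x y ⟨N, hN⟩ ⟨N', hN'⟩
    refine ⟨N + N', ?_⟩
    have ha : ∀ j : ℕ, X.a ^ (2 * j) ∈
        Algebra.adjoin ℂ ({X.a ^ 2, X.a * X.s} ∪ Set.range fun k => X.a * X.y k) := by
      intro j
      rw [pow_mul]
      have h2 : X.a ^ 2 ∈
          Algebra.adjoin ℂ ({X.a ^ 2, X.a * X.s} ∪ Set.range fun k => X.a * X.y k) :=
        Algebra.subset_adjoin (Or.inl (Or.inl rfl))
      exact pow_mem h2 j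
    have e : X.a ^ (2 * (N + N')) * (x + y) =
        X.a ^ (2 * N') * (X.a ^ (2 * N) * x) + X.a ^ (2 * N) * (X.a ^ (2 * N') * y) := by ring
    rw [e]
    exact Subalgebra.add_mem _ (Subalgebra.mul_mem _ (ha _) hN) (Subalgebra.mul_mem _ (ha _) hN')
  smul_mem' := by
    rintro c x ⟨N, hN⟩
    refine ⟨N, ?_⟩
    rw [mul_smul_comm]
    exact Subalgebra.smul_mem _ hN c

theorem mon_Sev (t : ℤ × ℕ × (Fin n → ℕ)) (ht : Even (bd t).1) : X.mon t ∈ X.Sev := by
  obtain ⟨i, j, α⟩ := t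
  -- the exponent
  have hev : Even (i - j - ∑ k, (α k : ℤ)) := by
    obtain ⟨c, hc⟩ := ht
    refine ⟨c - j - ∑ k, (α k : ℤ), ?_⟩
    have hc' : i + j + ∑ k, (α k : ℤ) = c + c := hc
    linear_combination hc'
  obtain ⟨c, hc⟩ := hev
  refine ⟨c.natAbs, ?_⟩
  obtain ⟨e, he⟩ : ∃ e : ℕ, (e : ℤ) = c.natAbs + c := ⟨((c.natAbs : ℤ) + c).toNat, by omega⟩
  have hexp : (2 * c.natAbs : ℤ) + i = 2 * e + j + ∑ k, (α k : ℤ) := by
    rw [he]
    linear_combination hc
  have key : X.a ^ (2 * c.natAbs) * X.mon (i, j, α) =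
      (X.a ^ 2) ^ e * (X.a * X.s) ^ j * ∏ k, (X.a * X.y k) ^ α k := by
    have h1 : X.a ^ (2 * c.natAbs) * ((X.u ^ i : Aˣ) : A) =
        (X.a ^ 2) ^ e * X.a ^ j * ∏ k, X.a ^ α k := by
      have h2 : X.u ^ ((2 * c.natAbs : ℕ) : ℤ) * X.u ^ i =
          X.u ^ ((2 * e : ℕ) : ℤ) * X.u ^ ((j : ℕ) : ℤ) * X.u ^ ((∑ k, α k : ℕ) : ℤ) := by
        rw [← zpow_add, ← zpow_add, ← zpow_add]
        congr 1
        push_cast
        push_cast at hexp
        exact hexp
      have h3 := congrArg (Units.val) h2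
      simp only [Units.val_mul, zpow_natCast, Units.val_pow_eq_pow_val, u_val] at h3
      rw [h3, Finset.prod_pow_eq_pow_sum, pow_mul]
    unfold mon
    simp only [mul_pow, Finset.prod_mul_distrib]
    rw [← mul_assoc, ← mul_assoc, h1]
    ring
  rw [key]
  have g1 : X.a ^ 2 ∈ Algebra.adjoin ℂ ({X.a ^ 2, X.a * X.s} ∪ Set.range fun k => X.a * X.y k) :=
    Algebra.subset_adjoin (Or.inl (Or.inl rfl))
  have g2 : X.a * X.s ∈
      Algebra.adjoin ℂ ({X.a ^ 2, X.a * X.s} ∪ Set.range fun k => X.a * X.y k) :=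
    Algebra.subset_adjoin (Or.inl (Or.inr rfl))
  have g3 : ∀ k, X.a * X.y k ∈
      Algebra.adjoin ℂ ({X.a ^ 2, X.a * X.s} ∪ Set.range fun k => X.a * X.y k) :=
    fun k => Algebra.subset_adjoin (Or.inr ⟨k, rfl⟩)
  exact mul_mem (mul_mem (pow_mem g1 e) (pow_mem g2 j))
    (prod_mem fun k _ => pow_mem (g3 k) (α k))

theorem add_sigma_Sev (r : A) : r + X.σ r ∈ X.Sev := by
  have hr : r ∈ Submodule.span ℂ (Set.range X.mon) := by
    rw [X.span_mon]
    trivial
  induction hr using Submodule.span_induction with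
  | mem x hx =>
    obtain ⟨t, rfl⟩ := hx
    rw [X.sigma_mon]
    rcases Int.even_or_odd (bd t).1 with h | h
    · rw [h.neg_one_zpow, one_smul]
      exact X.Sev.add_mem (X.mon_Sev t h) (X.mon_Sev t h)
    · rw [h.neg_one_zpow, neg_one_smul, add_neg_cancel]
      exact X.Sev.zero_mem
  | zero =>
    rw [map_zero, add_zero]
    exact X.Sev.zero_mem
  | add x y _ _ hx hy =>
    rw [map_add]
    have e : x + y + (X.σ x + X.σ y) = (x + X.σ x) + (y + X.σ y) := by ring
    rw [e]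
    exact X.Sev.add_mem hx hy
  | smul c x _ hx =>
    rw [map_smul, ← smul_add]
    exact X.Sev.smul_mem c hx

theorem bd_set_finite (p : ℤ × ℤ) : {t : ℤ × ℕ × (Fin n → ℕ) | bd t = p}.Finite := by
  obtain ⟨N, hN⟩ : ∃ N : ℕ, p.1 - p.2 ≤ N := ⟨(p.1 - p.2).toNat, Int.self_le_toNat _⟩
  refine Set.Finite.of_finite_image (f := fun t : ℤ × ℕ × (Fin n → ℕ) => t.2) ?_ ?_
  · refine ((Set.finite_Iic N).prod (Set.Finite.pi' (t := fun _ : Fin n => Set.Iic N)
      fun _ => Set.finite_Iic N)).subset ?_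
    rintro _ ⟨t, ht, rfl⟩
    obtain ⟨i, j, α⟩ := t
    have h1 : i + j + ∑ k, (α k : ℤ) = p.1 := congrArg Prod.fst ht
    have h2 : i - j = p.2 := congrArg Prod.snd ht
    have h0 : 0 ≤ ∑ k, (α k : ℤ) := Finset.sum_nonneg fun k _ => Int.natCast_nonneg _
    refine ⟨?_, fun k => ?_⟩
    · change j ≤ N
      omega
    have h3 : (α k : ℤ) ≤ ∑ k, (α k : ℤ) :=
      Finset.single_le_sum (f := fun k => (α k : ℤ)) (fun k _ => Int.natCast_nonneg _)
        (Finset.mem_univ k)
    change α k ≤ N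
    omega
  · intro t ht t' ht' h
    obtain ⟨i, j, α⟩ := t
    obtain ⟨i', j', α'⟩ := t'
    simp only [Prod.mk.injEq] at h
    obtain ⟨rfl, rfl⟩ := h
    have h1 : i - j = p.2 := congrArg Prod.snd ht
    have h2 : i' - j = p.2 := congrArg Prod.snd ht'
    have : i = i' := by omega
    rw [this]

end Dx

theorem stMon : StMon := by
  intro n w A _ _ _ X
  refine ⟨?_, ?_, ?_, ?_, ?_, ?_⟩
  · rw [eq_top_iff, ← X.iSup_W]
    exact iSup_mono fun p => X.W_le p
  · intro d m
    rw [X.V_eq]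
    exact FiniteDimensional.span_of_finite ℂ ((Dx.bd_set_finite (d, m)).image _)
  · intro d m hdm
    rw [X.V_eq]
    unfold Dx.W
    have : {t : ℤ × ℕ × (Fin n → ℕ) | Dx.bd t = (d, m)} = ∅ := by
      rw [Set.eq_empty_iff_forall_notMem]
      rintro ⟨i, j, α⟩ ht
      have h1 : i + j + ∑ k, (α k : ℤ) = d := congrArg Prod.fst ht
      have h2 : i - j = m := congrArg Prod.snd ht
      have h0 : 0 ≤ ∑ k, (α k : ℤ) := Finset.sum_nonneg fun k _ => Int.natCast_nonneg _
      omega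
    rw [this, Set.image_empty, Submodule.span_empty]
  · intro k
    rw [X.V_eq]
    unfold Dx.W
    have : {t : ℤ × ℕ × (Fin n → ℕ) | Dx.bd t = ((k : ℤ), (k : ℤ))} = {((k : ℤ), 0, 0)} := by
      ext ⟨i, j, α⟩
      rw [Set.mem_ofPred_eq, Set.mem_singleton_iff]
      constructor
      · intro ht
        have h1 : i + j + ∑ k, (α k : ℤ) = k := congrArg Prod.fst ht
        have h2 : i - j = k := congrArg Prod.snd ht
        have h0 : 0 ≤ ∑ k, (α k : ℤ) := Finset.sum_nonneg fun k _ => Int.natCast_nonneg _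
        have h3 : ∑ k, (α k : ℤ) = 0 := by omega
        have h4 : ∀ l, α l = 0 := by
          intro l
          have := (Finset.sum_eq_zero_iff_of_nonneg (fun k _ => Int.natCast_nonneg (α k))).1 h3 l
            (Finset.mem_univ l)
          omega
        have h5 : j = 0 := by omega
        have h6 : i = k := by omega
        rw [h5, h6]
        have h7 : α = 0 := funext h4
        rw [h7]
      · intro ht
        rw [ht]
        simp [Dx.bd]
    rw [this, Set.image_singleton]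
    congr 2
    simp [Dx.mon, Dx.u_val]
  · intro d m r hr
    rw [X.V_eq] at hr
    unfold Dx.W at hr
    induction hr using Submodule.span_induction with
    | mem x hx =>
      obtain ⟨t, ht, rfl⟩ := hx
      have ht' : Dx.bd t = (d, m) := ht
      rw [X.sigma_mon, ht']
    | zero => rw [map_zero, smul_zero]
    | add x y _ _ hx hy => rw [map_add, hx, hy, smul_add]
    | smul c x _ hx => rw [map_smul, hx, smul_comm]
  · intro r hr
    have h1 := X.add_sigma_Sev r
    rw [hr] at h1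
    have h2 := X.Sev.smul_mem ((1 / 2 : ℂ)) h1
    have h3 : (1 / 2 : ℂ) • (r + r) = r := by
      rw [← two_smul ℂ r, smul_smul]
      norm_num
    rw [h3] at h2
    exact h2

end Vale.Agent.P292.X442
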