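import Vale.Agent.P292.X442.Ring

/-! Block N: normality of the ring. -/

namespace Vale.Agent.P292.X442

open LieAlgebra

universe u

theorem stNor : StNor.{u} := by
  intro g _ _ _ T n B A _ _ _ _ X h1 h2 h3
  obtain ⟨ψ, hψ⟩ := h3
  -- the chart of `e`
  have ha : X.a ≠ 0 := fun h => by
    have := X.ab
    rw [h, zero_mul] at this
    exact zero_ne_one this
  have he : X.phiR B T.e ≠ 0 := fun h => by
    have h1 := congrArg Subtype.val h
    rw [X.coe_phiR, X.phi_e] at h1
    exact mul_ne_zero ha ha h1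
  have hf : X.phi B T.f ≠ 0 := fun h => by
    have h4 : X.phiR B T.f = 0 := Subtype.ext h
    rw [h4, neg_zero] at hψ
    exact he ((map_eq_zero_iff ψ ψ.injective).1 hψ)
  have hchart : ∀ r : A, X.σ r = r → ∃ N : ℕ, X.phi B T.e ^ N * r ∈ X.RR B := by
    intro r hr
    obtain ⟨N, hN⟩ := h2 r hr
    refine ⟨N, ?_⟩
    have h4 : X.phi B T.e ^ N = X.a ^ (2 * N) := by
      rw [X.phi_e, pow_mul, pow_two]
    rw [h4]
    refine (Algebra.adjoin_le (S := X.RR B) ?_) hN
    rintro z ((rfl | rfl) | ⟨k, rfl⟩)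
    · rw [SetLike.mem_coe, pow_two, ← X.phi_e B]
      exact X.phi_mem B _
    · have h5 : X.a * X.s = -X.phi B T.h := by rw [X.phi_h, neg_neg]
      rw [SetLike.mem_coe, h5]
      exact neg_mem (X.phi_mem B _)
    · rw [SetLike.mem_coe]
      change X.a * X.y k ∈ _
      rw [← X.phi_uk B]
      exact X.phi_mem B _
  -- fraction fields
  have hinjA : Function.Injective (algebraMap A (FractionRing A)) :=
    IsFractionRing.injective A (FractionRing A)
  have hinjR : Function.Injective (algebraMap (X.RR B) (FractionRing (X.RR B))) :=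
    IsFractionRing.injective (X.RR B) (FractionRing (X.RR B))
  have hinj : Function.Injective
      ((algebraMap A (FractionRing A)).comp (X.RR B).val.toRingHom) :=
    hinjA.comp Subtype.val_injective
  let φ : FractionRing (X.RR B) →+* FractionRing A := IsFractionRing.lift hinj
  have hφ : ∀ r : X.RR B, φ (algebraMap (X.RR B) (FractionRing (X.RR B)) r) =
      algebraMap A (FractionRing A) (r : A) := fun r => IsFractionRing.lift_algebraMap hinj r
  have hinjψ : Function.Injective
      ((algebraMap (X.RR B) (FractionRing (X.RR B))).comp ψ.symm.toRingEquiv.toRingHom) :=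
    hinjR.comp ψ.symm.injective
  let ψK : FractionRing (X.RR B) →+* FractionRing (X.RR B) := IsFractionRing.lift hinjψ
  have hψK : ∀ r : X.RR B, ψK (algebraMap (X.RR B) (FractionRing (X.RR B)) r) =
      algebraMap (X.RR B) (FractionRing (X.RR B)) (ψ.symm r) :=
    fun r => IsFractionRing.lift_algebraMap hinjψ r
  -- integral elements lie in the normal domain `A`
  have key : ∀ x : FractionRing (X.RR B), IsIntegral (X.RR B) x →
      ∃ y : A, algebraMap A (FractionRing A) y = φ x ∧ X.σ y = y := by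
    intro x hx
    have hx' : IsIntegral A (φ x) := by
      refine IsIntegral.map_of_comp_eq (X.RR B).val.toRingHom φ ?_ hx
      ext r
      exact (hφ r).symm
    obtain ⟨y, hy⟩ := (IsIntegrallyClosed.isIntegral_iff (R := A)
      (K := FractionRing A)).1 hx'
    refine ⟨y, hy, ?_⟩
    obtain ⟨r1, r2, hr2, hxr⟩ := IsFractionRing.div_surjective (A := X.RR B) x
    have hr2' : r2 ≠ 0 := nonZeroDivisors.ne_zero hr2
    have h5 : y * (r2 : A) = r1 := by
      apply hinjA
      rw [map_mul, hy, ← hφ, ← hφ, ← map_mul, ← hxr, div_mul_cancel₀]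
      intro h0
      exact hr2' (hinjR (by rw [h0, map_zero]))
    have h6 := congrArg X.σ h5
    rw [map_mul, X.sigma_of_mem B r2.2, X.sigma_of_mem B r1.2, ← h5] at h6
    exact mul_right_cancel₀ (fun h0 => hr2' (Subtype.ext h0)) h6
  rw [isIntegrallyClosed_iff (FractionRing (X.RR B))]
  intro x hx
  obtain ⟨y, hy, hσ⟩ := key x hx
  -- the transported element
  have hx' : IsIntegral (X.RR B) (ψK x) := by
    refine IsIntegral.map_of_comp_eq ψ.symm.toRingEquiv.toRingHom ψK ?_ hx
    ext r
    exact (hψK r).symm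
  obtain ⟨y', hy', hσ'⟩ := key _ hx'
  obtain ⟨N, hN⟩ := hchart y' hσ'
  let w : X.RR B := ⟨_, hN⟩
  have hw : algebraMap (X.RR B) (FractionRing (X.RR B)) w =
      algebraMap (X.RR B) (FractionRing (X.RR B)) (X.phiR B T.e) ^ N * ψK x := by
    apply φ.injective
    rw [hφ, map_mul φ, map_pow φ, hφ, ← hy', ← map_pow, ← map_mul]
    rfl
  have hw' : algebraMap (X.RR B) (FractionRing (X.RR B)) (ψ w) =
      algebraMap (X.RR B) (FractionRing (X.RR B)) (-X.phiR B T.f) ^ N * x := by
    apply ψK.injective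
    rw [hψK, map_mul, map_pow, hψK, ← hψ, AlgEquiv.symm_apply_apply, AlgEquiv.symm_apply_apply, hw]
  have h7 : (-X.phi B T.f) ^ N * y = (ψ w : A) := by
    apply hinjA
    rw [← hφ, hw', map_mul φ, map_pow φ, hφ, ← hy, map_mul, map_pow]
    rfl
  -- nilpotency
  have hnil : IsNilpotent (ad ℂ g T.f) := by
    refine ⟨5, T.ad_nil (μ := -2) (by norm_num) ?_⟩
    rw [T.hf]
    norm_num
  obtain ⟨M, hM⟩ := X.iter_nil B hnil (ψ w).2
  have h8 : X.L B T.f (-X.phi B T.f) = 0 := by
    rw [map_neg, X.L_apply, X.alt, neg_zero]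
  have h9 : ∀ (k : ℕ) (z : A), (⇑(X.L B T.f))^[k] ((-X.phi B T.f) ^ N * z) =
      (-X.phi B T.f) ^ N * (⇑(X.L B T.f))^[k] z := by
    intro k
    induction k with
    | zero => intro z; rfl
    | succ k ih =>
      intro z
      rw [Function.iterate_succ_apply, Function.iterate_succ_apply, ← ih]
      congr 1
      rw [Derivation.leibniz, Derivation.leibniz_pow, h8]
      simp
  rw [← h7, h9] at hM
  have h10 : (⇑(X.L B T.f))^[M] y = 0 :=
    (mul_eq_zero.1 hM).resolve_left (pow_ne_zero _ (neg_ne_zero.2 hf))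
  have hyR : y ∈ X.RR B := h1 y hσ ⟨M, h10⟩
  refine ⟨⟨y, hyR⟩, ?_⟩
  apply φ.injective
  rw [hφ, ← hy]

end Vale.Agent.P292.X442
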