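import Vale.Agent.P292.X442.Iface

/-!
Block X: the exponential of a locally nilpotent derivation.
-/

namespace Vale.Agent.P292.X442.E192

open Finset

variable {R : Type*} [CommRing R] [Algebra ℂ R]

/-- truncated exponential -/
noncomputable def T (L : R →ₗ[ℂ] R) (n : ℕ) (r : R) : R :=
  ∑ l ∈ range n, ((l.factorial : ℂ)⁻¹) • (L ^ l) r

lemma pow_zero_of_le {L : R →ₗ[ℂ] R} {n m : ℕ} {r : R} (h : (L ^ n) r = 0) (hm : n ≤ m) :
    (L ^ m) r = 0 := by
  obtain ⟨k, rfl⟩ := Nat.exists_eq_add_of_le hm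
  rw [add_comm, pow_add, Module.End.mul_apply, h, map_zero]

lemma T_eq {L : R →ₗ[ℂ] R} {n m : ℕ} {r : R} (h : (L ^ n) r = 0) (hm : n ≤ m) :
    T L m r = T L n r := by
  unfold T
  symm
  refine Finset.sum_subset (fun l hl => ?_) (fun l _ hl => ?_)
  · rw [mem_range] at *; omega
  · rw [mem_range, not_lt] at hl
    rw [pow_zero_of_le h hl, smul_zero]

lemma T_eq' {L : R →ₗ[ℂ] R} {n m : ℕ} {r : R} (h : (L ^ n) r = 0) (h' : (L ^ m) r = 0) :
    T L m r = T L n r := by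
  rcases le_total n m with hnm | hnm
  · exact T_eq h hnm
  · exact (T_eq h' hnm).symm

lemma T_add (L : R →ₗ[ℂ] R) (n : ℕ) (x y : R) : T L n (x + y) = T L n x + T L n y := by
  unfold T
  rw [← Finset.sum_add_distrib]
  exact Finset.sum_congr rfl fun l _ => by rw [map_add, smul_add]

lemma T_smul (L : R →ₗ[ℂ] R) (n : ℕ) (c : ℂ) (x : R) : T L n (c • x) = c • T L n x := by
  unfold T
  rw [Finset.smul_sum]
  exact Finset.sum_congr rfl fun l _ => by rw [map_smul, smul_comm]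

omit [Algebra ℂ R] in
/-- sums over the triangles -/
lemma sum_tri (N : ℕ) (g : ℕ × ℕ → R) : ∑ k ∈ range N, ∑ p ∈ antidiagonal k, g p =
    ∑ p ∈ (range N ×ˢ range N).filter (fun p => p.1 + p.2 < N), g p := by
  rw [← Finset.sum_fiberwise_of_maps_to (s := (range N ×ˢ range N).filter
    (fun p => p.1 + p.2 < N)) (t := range N) (g := fun p => p.1 + p.2)]
  · refine Finset.sum_congr rfl fun k hk => Finset.sum_congr ?_ fun _ _ => rfl
    ext p
    rw [mem_range] at hk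
    simp only [HasAntidiagonal.mem_antidiagonal, mem_filter, mem_product, mem_range]
    omega
  · intro p hp
    rw [mem_filter] at hp
    rw [mem_range]
    exact hp.2

omit [Algebra ℂ R] in
lemma sum_sq (n : ℕ) (g : ℕ × ℕ → R) (hg : ∀ p : ℕ × ℕ, n ≤ p.1 ∨ n ≤ p.2 → g p = 0) :
    ∑ k ∈ range (2 * n), ∑ p ∈ antidiagonal k, g p = ∑ i ∈ range n, ∑ j ∈ range n, g (i, j) := by
  rw [sum_tri, ← Finset.sum_product' (range n) (range n) (fun i j => g (i, j))]
  symm
  refine Finset.sum_subset (fun p hp => ?_) (fun p _ hp => ?_)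
  · simp only [mem_filter, mem_product, mem_range] at *
    omega
  · rw [mem_product, mem_range, mem_range, not_and_or, not_lt, not_lt] at hp
    exact hg p hp

lemma fact_succ (i : ℕ) : ((i + 1 : ℕ) : ℂ) * (((i + 1).factorial : ℂ)⁻¹) = ((i.factorial : ℂ)⁻¹) := by
  have h4 : (i.factorial : ℂ) ≠ 0 := by exact_mod_cast Nat.factorial_ne_zero _
  have h5 : ((i + 1 : ℕ) : ℂ) ≠ 0 := by exact_mod_cast Nat.succ_ne_zero i
  rw [Nat.factorial_succ, Nat.cast_mul, mul_inv, ← mul_assoc, mul_inv_cancel₀ h5, one_mul]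

/-- term of the Leibniz rule -/
noncomputable def G (L : R →ₗ[ℂ] R) (B : R →ₗ[ℂ] R →ₗ[ℂ] R) (x y : R) (p : ℕ × ℕ) : R :=
  (((p.1.factorial : ℂ)⁻¹) * ((p.2.factorial : ℂ)⁻¹)) • B ((L ^ p.1) x) ((L ^ p.2) y)

/-- Leibniz rule for the iterates -/
lemma leib_pow {L : R →ₗ[ℂ] R} {B : R →ₗ[ℂ] R →ₗ[ℂ] R}
    (hB : ∀ x y, L (B x y) = B (L x) y + B x (L y)) (k : ℕ) (x y : R) :
    ((k.factorial : ℂ)⁻¹) • (L ^ k) (B x y) = ∑ p ∈ antidiagonal k, G L B x y p := by
  induction k with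
  | zero => simp [G]
  | succ k ih =>
    have h1 : (((k + 1).factorial : ℂ)⁻¹) • (L ^ (k + 1)) (B x y) =
        (((k + 1 : ℕ) : ℂ)⁻¹) • L (((k.factorial : ℂ)⁻¹) • (L ^ k) (B x y)) := by
      rw [map_smul, smul_smul, pow_succ' L k, Module.End.mul_apply, Nat.factorial_succ,
        Nat.cast_mul, mul_inv]
    have h0 : ((k + 1 : ℕ) : ℂ) ≠ 0 := by exact_mod_cast Nat.succ_ne_zero k
    have h2 : ((k + 1 : ℕ) : ℂ) • ∑ p ∈ antidiagonal (k + 1), G L B x y p =
        L (∑ p ∈ antidiagonal k, G L B x y p) := by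
      have e1 : ((k + 1 : ℕ) : ℂ) • ∑ p ∈ antidiagonal (k + 1), G L B x y p =
          ∑ p ∈ antidiagonal (k + 1), ((p.1 : ℂ) • G L B x y p) +
          ∑ p ∈ antidiagonal (k + 1), ((p.2 : ℂ) • G L B x y p) := by
        rw [Finset.smul_sum, ← Finset.sum_add_distrib]
        refine Finset.sum_congr rfl fun p hp => ?_
        rw [HasAntidiagonal.mem_antidiagonal] at hp
        rw [← add_smul, ← hp]
        push_cast
        rfl
      rw [e1, Finset.Nat.sum_antidiagonal_succ (f := fun p => (p.1 : ℂ) • G L B x y p),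
        Finset.Nat.sum_antidiagonal_succ' (f := fun p => (p.2 : ℂ) • G L B x y p), map_sum]
      simp only [Nat.cast_zero, zero_smul, zero_add]
      rw [← Finset.sum_add_distrib]
      refine Finset.sum_congr rfl fun p _ => ?_
      unfold G
      rw [map_smul, hB, smul_add, smul_smul, smul_smul]
      simp only
      congr 1
      · rw [← mul_assoc, fact_succ, pow_succ' L p.1, Module.End.mul_apply]
      · rw [mul_left_comm, fact_succ, pow_succ' L p.2, Module.End.mul_apply]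
    rw [h1, ih, ← h2, smul_smul, inv_mul_cancel₀ h0, one_smul]

lemma T_bil {L : R →ₗ[ℂ] R} {B : R →ₗ[ℂ] R →ₗ[ℂ] R}
    (hB : ∀ x y, L (B x y) = B (L x) y + B x (L y)) {n : ℕ} {x y : R} (hx : (L ^ n) x = 0)
    (hy : (L ^ n) y = 0) : T L (2 * n) (B x y) = B (T L n x) (T L n y) := by
  have h1 : T L (2 * n) (B x y) = ∑ k ∈ range (2 * n), ∑ p ∈ antidiagonal k, G L B x y p := by
    unfold T
    exact Finset.sum_congr rfl fun k _ => leib_pow hB k x y
  rw [h1, sum_sq n]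
  · unfold T G
    rw [LinearMap.map_sum₂]
    refine Finset.sum_congr rfl fun i _ => ?_
    rw [map_sum]
    refine Finset.sum_congr rfl fun j _ => ?_
    rw [map_smul, map_smul, LinearMap.smul_apply, smul_smul]
    rw [mul_comm]
  · rintro ⟨i, j⟩ h
    unfold G
    rcases h with h | h
    · simp only at h ⊢
      rw [pow_zero_of_le hx h, map_zero, LinearMap.zero_apply, smul_zero]
    · simp only at h ⊢
      rw [pow_zero_of_le hy h, map_zero, smul_zero]

lemma bil_zero {L : R →ₗ[ℂ] R} {B : R →ₗ[ℂ] R →ₗ[ℂ] R}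
    (hB : ∀ x y, L (B x y) = B (L x) y + B x (L y)) {n : ℕ} {x y : R} (hx : (L ^ n) x = 0)
    (hy : (L ^ n) y = 0) : (L ^ (2 * n)) (B x y) = 0 := by
  have h := leib_pow hB (2 * n) x y
  have h0 : ∑ p ∈ antidiagonal (2 * n), G L B x y p = 0 := by
    refine Finset.sum_eq_zero fun p hp => ?_
    rw [HasAntidiagonal.mem_antidiagonal] at hp
    unfold G
    rcases le_or_gt n p.1 with h | h
    · rw [pow_zero_of_le hx h, map_zero, LinearMap.zero_apply, smul_zero]
    · rw [pow_zero_of_le hy (by omega), map_zero, smul_zero]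
  rw [h0] at h
  have h3 : (((2 * n).factorial : ℂ)⁻¹) ≠ 0 := inv_ne_zero (by exact_mod_cast Nat.factorial_ne_zero _)
  exact (smul_eq_zero.1 h).resolve_left h3

lemma coef_zero (k : ℕ) (hk : k ≠ 0) : ∑ p ∈ antidiagonal k,
    (((p.1.factorial : ℂ)⁻¹) * ((p.2.factorial : ℂ)⁻¹)) * (-1) ^ p.1 = 0 := by
  have h := (Commute.all (-1 : ℂ) 1).add_pow' k
  rw [neg_add_cancel, zero_pow hk] at h
  have h3 : (k.factorial : ℂ) ≠ 0 := by exact_mod_cast Nat.factorial_ne_zero _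
  have e : (k.factorial : ℂ) * ∑ p ∈ antidiagonal k,
      (((p.1.factorial : ℂ)⁻¹) * ((p.2.factorial : ℂ)⁻¹)) * (-1) ^ p.1 = 0 := by
    rw [h, Finset.mul_sum]
    refine Finset.sum_congr rfl fun p hp => ?_
    rw [HasAntidiagonal.mem_antidiagonal] at hp
    have h1 := Nat.add_choose_mul_factorial_mul_factorial p.2 p.1
    rw [add_comm p.2 p.1, hp] at h1
    have h2 : (k.choose p.1 : ℂ) * p.2.factorial * p.1.factorial = k.factorial := by
      exact_mod_cast h1
    have h4 : (p.1.factorial : ℂ) ≠ 0 := by exact_mod_cast Nat.factorial_ne_zero _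
    have h5 : (p.2.factorial : ℂ) ≠ 0 := by exact_mod_cast Nat.factorial_ne_zero _
    rw [← h2, one_pow, mul_one, nsmul_eq_mul]
    field_simp
  exact (mul_eq_zero.1 e).resolve_left h3

lemma neg_pow_apply (L : R →ₗ[ℂ] R) (i : ℕ) (x : R) :
    ((-L) ^ i) x = ((-1 : ℂ) ^ i) • (L ^ i) x := by
  induction i with
  | zero => simp
  | succ i ih =>
    rw [pow_succ' (-L) i, Module.End.mul_apply, ih, LinearMap.neg_apply, map_smul,
      pow_succ' L i, Module.End.mul_apply, pow_succ, mul_smul, neg_one_smul, smul_neg]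

/-- the inverse -/
lemma T_neg {L : R →ₗ[ℂ] R} {n : ℕ} {r : R} (h : (L ^ n) r = 0) : T (-L) n (T L n r) = r := by
  rcases Nat.eq_zero_or_pos n with rfl | hn
  · have h0 : r = 0 := by simpa using h
    simp [T, h0]
  let g : ℕ × ℕ → R := fun p =>
    ((((p.1.factorial : ℂ)⁻¹) * ((p.2.factorial : ℂ)⁻¹)) * (-1) ^ p.1) • (L ^ (p.1 + p.2)) r
  have hg : ∀ p : ℕ × ℕ, n ≤ p.1 ∨ n ≤ p.2 → g p = 0 := by
    intro p hp
    change _ • (L ^ (p.1 + p.2)) r = 0
    rw [pow_zero_of_le h (by omega), smul_zero]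
  have e1 : T (-L) n (T L n r) = ∑ i ∈ range n, ∑ j ∈ range n, g (i, j) := by
    unfold T
    refine Finset.sum_congr rfl fun i _ => ?_
    rw [map_sum, Finset.smul_sum]
    refine Finset.sum_congr rfl fun j _ => ?_
    change _ = ((((i.factorial : ℂ)⁻¹) * ((j.factorial : ℂ)⁻¹)) * (-1) ^ i) • (L ^ (i + j)) r
    rw [map_smul, neg_pow_apply, pow_add, Module.End.mul_apply, smul_smul, smul_smul]
  rw [e1, ← sum_sq n g hg, Finset.sum_eq_single 0]
  · simp [g]
  · intro k _ hk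
    have e2 : ∑ p ∈ antidiagonal k, g p = (∑ p ∈ antidiagonal k,
        (((p.1.factorial : ℂ)⁻¹) * ((p.2.factorial : ℂ)⁻¹)) * (-1) ^ p.1) • (L ^ k) r := by
      rw [Finset.sum_smul]
      refine Finset.sum_congr rfl fun p hp => ?_
      rw [HasAntidiagonal.mem_antidiagonal] at hp
      rw [← hp]
    rw [e2, coef_zero k hk, zero_smul]
  · intro h0
    exact absurd (Finset.mem_range.2 (by omega)) h0

/-- the exponential -/
noncomputable def ex (L : R →ₗ[ℂ] R) (hL : ∀ r, ∃ n, (L ^ n) r = 0) (r : R) : R :=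
  T L (hL r).choose r

lemma ex_eq {L : R →ₗ[ℂ] R} (hL : ∀ r, ∃ n, (L ^ n) r = 0) {n : ℕ} {r : R} (h : (L ^ n) r = 0) :
    ex L hL r = T L n r := T_eq' h (hL r).choose_spec

lemma two_zero {L : R →ₗ[ℂ] R} (hL : ∀ r, ∃ n, (L ^ n) r = 0) (x y : R) :
    ∃ n, 1 ≤ n ∧ (L ^ n) x = 0 ∧ (L ^ n) y = 0 := by
  obtain ⟨n, hn⟩ := hL x
  obtain ⟨m, hm⟩ := hL y
  exact ⟨n + m + 1, by omega, pow_zero_of_le hn (by omega), pow_zero_of_le hm (by omega)⟩

lemma ex_bil {L : R →ₗ[ℂ] R} (hL : ∀ r, ∃ n, (L ^ n) r = 0) {B : R →ₗ[ℂ] R →ₗ[ℂ] R}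
    (hB : ∀ x y, L (B x y) = B (L x) y + B x (L y)) (x y : R) :
    ex L hL (B x y) = B (ex L hL x) (ex L hL y) := by
  obtain ⟨n, -, hx, hy⟩ := two_zero hL x y
  rw [ex_eq hL hx, ex_eq hL hy, ex_eq hL (bil_zero hB hx hy), T_bil hB hx hy]

/-- the exponential as an algebra homomorphism -/
noncomputable def exA (L : R →ₗ[ℂ] R) (hL : ∀ r, ∃ n, (L ^ n) r = 0)
    (hD : ∀ x y, L (x * y) = L x * y + x * L y) : R →ₐ[ℂ] R where
  toFun := ex L hL
  map_one' := by
    have h1 : L 1 = 0 := by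
      have := hD 1 1
      rw [mul_one, mul_one, one_mul] at this
      simpa using this
    have h2 : (L ^ 1) (1 : R) = 0 := by rw [pow_one]; exact h1
    rw [ex_eq hL h2]
    simp [T]
  map_mul' x y := ex_bil hL (B := LinearMap.mul ℂ R) (fun x y => by simpa using hD x y) x y
  map_zero' := by
    have h2 : (L ^ 0) (0 : R) = 0 := by simp
    rw [ex_eq hL h2]
    simp [T]
  map_add' x y := by
    obtain ⟨n, -, hx, hy⟩ := two_zero hL x y
    rw [ex_eq hL hx, ex_eq hL hy, ex_eq hL (by rw [map_add, hx, hy, add_zero]), T_add]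
  commutes' c := by
    have h1 : L 1 = 0 := by
      have := hD 1 1
      rw [mul_one, mul_one, one_mul] at this
      simpa using this
    have h2 : (L ^ 1) (algebraMap ℂ R c) = 0 := by
      rw [pow_one, Algebra.algebraMap_eq_smul_one, map_smul, h1, smul_zero]
    rw [ex_eq hL h2]
    simp [T]

lemma exA_apply (L : R →ₗ[ℂ] R) (hL : ∀ r, ∃ n, (L ^ n) r = 0)
    (hD : ∀ x y, L (x * y) = L x * y + x * L y) (r : R) : exA L hL hD r = ex L hL r := rfl

lemma ex_neg {L M : R →ₗ[ℂ] R} (hL : ∀ r, ∃ n, (L ^ n) r = 0) (hM : ∀ r, ∃ n, (M ^ n) r = 0)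
    (hLM : M = -L) (r : R) : ex M hM (ex L hL r) = r := by
  subst hLM
  obtain ⟨n, hn⟩ := hL r
  rw [ex_eq hL hn]
  have h1 : ((-L) ^ n) (T L n r) = 0 := by
    rw [neg_pow_apply]
    unfold T
    rw [map_sum]
    have : ∀ l ∈ range n, (L ^ n) (((l.factorial : ℂ)⁻¹) • (L ^ l) r) = 0 := by
      intro l _
      rw [map_smul, ← Module.End.mul_apply, ← pow_add, pow_zero_of_le hn (by omega), smul_zero]
    rw [Finset.sum_congr rfl this, Finset.sum_const_zero, smul_zero]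
  rw [ex_eq hM h1, T_neg hn]

theorem stExp : StExp := by
  intro R _ _ P D hP hD
  have hit : ∀ (n : ℕ) (r : R), ((D : R →ₗ[ℂ] R) ^ n) r = (⇑D)^[n] r := by
    intro n r
    rw [Module.End.pow_apply]
    rfl
  have hL : ∀ r, ∃ n, ((D : R →ₗ[ℂ] R) ^ n) r = 0 := fun r => by
    obtain ⟨n, hn⟩ := hD r
    exact ⟨n, by rw [hit, hn]⟩
  have hM : ∀ r, ∃ n, ((-(D : R →ₗ[ℂ] R)) ^ n) r = 0 := fun r => by
    obtain ⟨n, hn⟩ := hL r
    exact ⟨n, by rw [neg_pow_apply, hn, smul_zero]⟩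
  have hd : ∀ x y, (D : R →ₗ[ℂ] R) (x * y) = (D : R →ₗ[ℂ] R) x * y + x * (D : R →ₗ[ℂ] R) y := by
    intro x y
    change D (x * y) = D x * y + x * D y
    rw [D.leibniz, smul_eq_mul, smul_eq_mul]
    ring
  have hd' : ∀ x y, (-(D : R →ₗ[ℂ] R)) (x * y) =
      (-(D : R →ₗ[ℂ] R)) x * y + x * (-(D : R →ₗ[ℂ] R)) y := by
    intro x y
    rw [LinearMap.neg_apply, LinearMap.neg_apply, LinearMap.neg_apply, hd]
    ring
  refine ⟨AlgEquiv.ofAlgHom (exA _ hL hd) (exA _ hM hd') ?_ ?_, ?_, ?_⟩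
  · ext r
    rw [AlgHom.comp_apply, exA_apply, exA_apply, AlgHom.id_apply]
    exact ex_neg hM hL (by rw [neg_neg]) r
  · ext r
    rw [AlgHom.comp_apply, exA_apply, exA_apply, AlgHom.id_apply]
    exact ex_neg hL hM rfl r
  · intro x y
    exact ex_bil hL (B := P) hP x y
  · intro r n hn
    change ex _ hL r = _
    rw [ex_eq hL (n := n) (by rw [hit, hn])]
    unfold T
    exact Finset.sum_congr rfl fun l _ => by rw [hit]

end Vale.Agent.P292.X442.E192
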