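import Vale.Agent.P292.X442.Ring
import Vale.Agent.P292.X442.Exp192
import Vale.Agent.P292.Bdl.B5

/-!
Block O: automorphisms of the ring.
-/

namespace Vale.Agent.P292.X442

open LieAlgebra Polynomial

universe u

variable {g : Type u} [LieRing g] [LieAlgebra ℂ g]

namespace Dx

variable {T : Ct g} {n : ℕ} (B : Bs T n) {A : Type} [CommRing A] [Algebra ℂ A]
  (X : Dx A (Fin n) fun k l => T.c ⁅B.u k, B.u l⁆)

/-- the Hamiltonian derivation of the ring -/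
noncomputable def LR (x : g) : Derivation ℂ (X.RR B) (X.RR B) :=
  Derivation.mk' (X.PR B (X.phiR B x)) fun y z => by
    rw [X.PR_leib, smul_eq_mul, smul_eq_mul]
    ring

theorem LR_apply (x : g) (r : X.RR B) : X.LR B x r = X.PR B (X.phiR B x) r := rfl

theorem coe_LR_iter (x : g) (N : ℕ) (r : X.RR B) :
    (((⇑(X.LR B x))^[N] r : X.RR B) : A) = (⇑(X.L B x))^[N] (r : A) := by
  induction N with
  | zero => rfl
  | succ N ih =>
    rw [Function.iterate_succ_apply', Function.iterate_succ_apply', ← ih]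
    rfl

theorem LR_iter_phi (x v : g) (N : ℕ) :
    (⇑(X.LR B x))^[N] (X.phiR B v) = X.phiR B (((ad ℂ g x) ^ N) v) :=
  Subtype.ext (by rw [coe_LR_iter, coe_phiR, coe_phiR, iter_phi])

/-- the exponentials lift to the ring -/
theorem exists_lift_exp (x : g) (N : ℕ) (hx : (ad ℂ g x) ^ (N + 1) = 0) :
    ∃ ψ : X.RR B ≃ₐ[ℂ] X.RR B, (∀ a b, ψ (X.PR B a b) = X.PR B (ψ a) (ψ b)) ∧
      ∀ v, ψ (X.phiR B v) = X.phiR B (expAd x N hx v) := by
  obtain ⟨ψ, h1, h2⟩ := E192.stExp (X.RR B) (X.PR B) (X.LR B x) (fun a b => by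
      rw [LR_apply, LR_apply, LR_apply]
      exact X.PR_jac B _ _ _) (fun r => by
      obtain ⟨M, hM⟩ := X.iter_nil B ⟨N + 1, hx⟩ r.2
      exact ⟨M, Subtype.ext (by rw [coe_LR_iter, hM]; rfl)⟩)
  refine ⟨ψ, h1, fun v => ?_⟩
  rw [h2 (X.phiR B v) (N + 1) (by rw [LR_iter_phi, hx, LinearMap.zero_apply, map_zero]),
    expAd_apply, map_sum]
  refine Finset.sum_congr rfl fun l _ => ?_
  rw [map_smul, LR_iter_phi]

/-- the adjoint group lifts to the ring -/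
theorem exists_lift (σ : g ≃ₗ[ℂ] g) (hσ : σ ∈ adjointGroup g) :
    ∃ ψ : X.RR B ≃ₐ[ℂ] X.RR B, (∀ a b, ψ (X.PR B a b) = X.PR B (ψ a) (ψ b)) ∧
      ∀ v, ψ (X.phiR B v) = X.phiR B (σ v) := by
  refine adjointGroup_induction (Q := fun σ => ∃ ψ : X.RR B ≃ₐ[ℂ] X.RR B,
    (∀ a b, ψ (X.PR B a b) = X.PR B (ψ a) (ψ b)) ∧ ∀ v, ψ (X.phiR B v) = X.phiR B (σ v))
    ?_ ?_ ?_ σ hσ
  · intro x N hx
    exact X.exists_lift_exp B x N hx
  · exact ⟨AlgEquiv.refl, fun _ _ => rfl, fun _ => rfl⟩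
  · rintro σ τ ⟨ψ, h1, h2⟩ ⟨ψ', h1', h2'⟩
    refine ⟨ψ'.trans ψ, fun a b => ?_, fun v => ?_⟩
    · change ψ (ψ' _) = X.PR B (ψ (ψ' a)) (ψ (ψ' b))
      rw [h1', h1]
    · change ψ (ψ' _) = X.phiR B (σ (τ v))
      rw [h2', h2]

end Dx

namespace Ct

variable (T : Ct g)

theorem e_ne : T.e ≠ 0 := fun h0 => by
  have h1 := T.ce
  rw [h0, map_zero] at h1
  exact zero_ne_one h1

theorem htop (v : g) : v ∈ ⨆ i : Fin 5, Module.End.eigenspace (ad ℂ g T.h) ((i : ℂ) - 2) := by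
  obtain ⟨w, hw, hwe⟩ := T.dec v
  rw [hw]
  refine Submodule.sum_mem _ fun i _ => ?_
  refine Submodule.mem_iSup_of_mem i ?_
  rw [Module.End.mem_eigenspace_iff, ad_apply]
  exact hwe i

/-- an element of the adjoint group exchanges `e` and `-f` -/
theorem exists_swap : ∃ σ ∈ adjointGroup g, σ T.e = -T.f := by
  have he5 : (ad ℂ g T.e) ^ (4 + 1) = 0 := T.ad_nil (μ := 2) (by norm_num) (by
    rw [T.he]; norm_num)
  have hf5 : (ad ℂ g (-T.f)) ^ (4 + 1) = 0 := T.ad_nil (μ := -2) (by norm_num) (by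
    rw [lie_neg, T.hf]; push_cast; rw [smul_neg])
  have heh : ⁅T.e, T.h⁆ = (-2 : ℂ) • T.e := by rw [← lie_skew, T.he, neg_smul]
  have hfe : ⁅-T.f, T.e⁆ = T.h := by rw [neg_lie, lie_skew, T.ef]
  have hfh : ⁅-T.f, T.h⁆ = (-2 : ℂ) • T.f := by rw [neg_lie, lie_skew, T.hf]
  have hff : ⁅-T.f, (-2 : ℂ) • T.f⁆ = 0 := by rw [lie_smul, neg_lie, lie_self, neg_zero, smul_zero]
  have h1 : expAd T.e 4 he5 T.e = T.e := by
    rw [expAd_apply_of_cube T.e he5 T.e (by simp)]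
    simp
  have h2 : expAd (-T.f) 4 hf5 T.e = T.e + T.h - T.f := by
    rw [expAd_apply_of_cube (-T.f) hf5 T.e (by rw [hfe, hfh, hff]), hfe, hfh]
    module
  have h3 : expAd T.e 4 he5 (T.e + T.h - T.f) = -T.f := by
    have k1 : ⁅T.e, T.e + T.h - T.f⁆ = (-2 : ℂ) • T.e - T.h := by
      rw [lie_sub, lie_add, lie_self, heh, T.ef]
      module
    have k2 : ⁅T.e, (-2 : ℂ) • T.e - T.h⁆ = (2 : ℂ) • T.e := by
      rw [lie_sub, lie_smul, lie_self, heh]
      module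
    have k3 : ⁅T.e, (2 : ℂ) • T.e⁆ = 0 := by rw [lie_smul, lie_self, smul_zero]
    rw [expAd_apply_of_cube T.e he5 _ (by rw [k1, k2, k3]), k1, k2]
    module
  refine ⟨expAd T.e 4 he5 * (expAd (-T.f) 4 hf5 * expAd T.e 4 he5),
    mul_mem (expAd_mem _ _ _) (mul_mem (expAd_mem _ _ _) (expAd_mem _ _ _)), ?_⟩
  change expAd T.e 4 he5 (expAd (-T.f) 4 hf5 (expAd T.e 4 he5 T.e)) = -T.f
  rw [h1, h2, h3]

/-- a nonzero linear form does not vanish on the orbit of `e` -/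
theorem exists_apply_ne [FiniteDimensional ℂ g] [LieAlgebra.IsSimple ℂ g]
    (l : g →ₗ[ℂ] ℂ) (hl : ∃ x, l x ≠ 0) : ∃ σ ∈ adjointGroup g, l (σ T.e) ≠ 0 := by
  by_contra hcon
  push Not at hcon
  obtain ⟨x, hx⟩ := hl
  apply hx
  let I : Submodule ℂ g :=
    { carrier := {y | ∀ σ ∈ adjointGroup g, l (σ y) = 0}
      add_mem' := fun {a b} ha hb σ hσ => by rw [map_add, map_add, ha σ hσ, hb σ hσ, add_zero]
      zero_mem' := fun σ _ => by rw [map_zero, map_zero]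
      smul_mem' := fun c a ha σ hσ => by rw [map_smul, map_smul, ha σ hσ, smul_zero] }
  have hI : ∀ c : ℤ, c ≠ 0 → ∀ u : g, ⁅T.h, u⁆ = (c : ℂ) • u → ∀ y ∈ I, ⁅u, y⁆ ∈ I := by
    intro c hc u hu y hy σ hσ
    have hnil : ∀ t : ℂ, (ad ℂ g (t • u)) ^ (4 + 1) = 0 := fun t =>
      T.ad_nil hc (by rw [lie_smul, hu, smul_comm])
    let Q : ℂ[X] := ∑ m ∈ Finset.range (4 + 1),
      monomial m ((m.factorial : ℂ)⁻¹ * l (σ (((ad ℂ g u) ^ m) y)))
    have hQ : Q = 0 := by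
      apply Polynomial.funext
      intro t
      have h1 := hy (σ * expAd (t • u) 4 (hnil t)) (mul_mem hσ (expAd_mem _ _ _))
      have h2 : l (σ (expAd (t • u) 4 (hnil t) y)) = 0 := h1
      rw [expAd_apply, map_sum, map_sum] at h2
      rw [eval_zero, eval_finsetSum, ← h2]
      refine Finset.sum_congr rfl fun m _ => ?_
      rw [eval_monomial, map_smul, map_smul, smul_eq_mul, map_smul (ad ℂ g), _root_.smul_pow,
        LinearMap.smul_apply, map_smul, map_smul, smul_eq_mul]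
      ring
    have h3 : Q.coeff 1 = 0 := by rw [hQ]; rfl
    simpa [Q, Finset.sum_range_succ, coeff_monomial] using h3
  have hI' := lie_mem_of_forall_eigen T.h T.htop I hI _ T.e_ne T.he
  let J : LieIdeal ℂ g := { I with lie_mem := fun {w m} hm => hI' w m hm }
  have hJ : J = ⊤ := by
    rcases LieAlgebra.IsSimple.eq_bot_or_eq_top (R := ℂ) J with h0 | h0
    · exfalso
      have : T.e ∈ J := fun σ hσ => hcon σ hσ
      rw [h0] at this
      exact T.e_ne (by simpa using this)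
    · exact h0
  have : x ∈ J := by rw [hJ]; trivial
  exact this 1 (one_mem _)

end Ct

theorem stOrb : StOrb.{u} := by
  intro g _ _ _ _ T n B A _ _ _ X
  refine ⟨?_, ?_⟩
  · obtain ⟨σ, hσ, he⟩ := T.exists_swap
    obtain ⟨ψ, -, h2⟩ := X.exists_lift B σ hσ
    exact ⟨ψ, by rw [h2, he, map_neg]⟩
  · rintro p ⟨x, hx⟩
    obtain ⟨σ, hσ, he⟩ := T.exists_apply_ne (p.toLinearMap.comp (X.phiR B)) ⟨x, hx⟩
    obtain ⟨ψ, h1, h2⟩ := X.exists_lift B σ hσ
    exact ⟨ψ, h1, by rw [h2]; exact he⟩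

end Vale.Agent.P292.X442
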