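import Vale.Agent.P292.Defs

namespace Vale.Agent.P292.X442

universe u v

/-- The Lie algebra `H⁰(X, L) = (𝒜 1, P)` of contact vector fields is `g`. -/
def HasLieAlgebra (g : Type v) [LieRing g] [LieAlgebra ℂ g] {R : Type u} [CommRing R]
    [Algebra ℂ R] (𝒜 : ℕ → Submodule ℂ R) (P : R →ₗ[ℂ] R →ₗ[ℂ] R) : Prop :=
  ∃ φ : g →ₗ[ℂ] R, Function.Injective φ ∧ LinearMap.range φ = 𝒜 1 ∧
    ∀ x y : g, φ ⁅x, y⁆ = P (φ x) (φ y)

/-- `(R, 𝒜, P)` is a contact Fano manifold of dimension at least three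
(`trdeg R = dim X + 1`) whose Lie algebra of contact vector fields is `g`. -/
def IsModel (g : Type v) [LieRing g] [LieAlgebra ℂ g] {R : Type u} [CommRing R]
    [Algebra ℂ R] (𝒜 : ℕ → Submodule ℂ R) [GradedAlgebra 𝒜] (P : R →ₗ[ℂ] R →ₗ[ℂ] R) : Prop :=
  IsContactFano 𝒜 P ∧ 4 ≤ Algebra.trdeg ℂ R ∧ HasLieAlgebra g 𝒜 P

/-- `g` is the Lie algebra of contact vector fields of a contact Fano manifold of dimension at
least three. -/
def IsRealized (g : Type v) [LieRing g] [LieAlgebra ℂ g] : Prop :=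
  ∃ (R : Type) (_ : CommRing R) (_ : Algebra ℂ R) (𝒜 : ℕ → Submodule ℂ R) (_ : GradedAlgebra 𝒜)
    (P : R →ₗ[ℂ] R →ₗ[ℂ] R), IsModel g 𝒜 P

end Vale.Agent.P292.X442
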