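import Vale.Agent.P292.X442.Ring

/-! Block B: dual bases of the piece of degree one. -/

namespace Vale.Agent.P292.X442

open LieAlgebra

universe u

namespace BS192

variable {g : Type u} [LieRing g] [LieAlgebra ℂ g]

/-- the piece of degree one -/
def W (T : Ct g) : Submodule ℂ g where
  carrier := {x | ⁅T.h, x⁆ = x}
  zero_mem' := by simp
  add_mem' := fun {x y} hx hy => by
    change ⁅T.h, x + y⁆ = x + y
    rw [lie_add, show ⁅T.h, x⁆ = x from hx, show ⁅T.h, y⁆ = y from hy]
  smul_mem' := fun c x hx => by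
    change ⁅T.h, c • x⁆ = c • x
    rw [lie_smul, show ⁅T.h, x⁆ = x from hx]

/-- the form on the piece of degree one -/
noncomputable def form (T : Ct g) : LinearMap.BilinForm ℂ (W T) :=
  LinearMap.mk₂ ℂ (fun x y => T.c ⁅(x : g), (y : g)⁆)
    (fun x x' y => by simp) (fun c x y => by simp) (fun x y y' => by simp)
    (fun c x y => by simp)

theorem form_apply (T : Ct g) (x y : W T) : form T x y = T.c ⁅(x : g), (y : g)⁆ := rfl

theorem form_nondeg (T : Ct g) [FiniteDimensional ℂ g] : (form T).Nondegenerate := by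
  have h1 : ∀ x : W T, (∀ y, form T x y = 0) → x = 0 := fun x hx =>
    Subtype.ext (T.nondeg x x.2 fun v hv => hx ⟨v, hv⟩)
  refine ⟨h1, fun y hy => h1 y fun x => ?_⟩
  have := hy x
  rw [form_apply] at this ⊢
  rw [← lie_skew, map_neg, this, neg_zero]

end BS192

open BS192 in
theorem stBs : StBs.{u} := by
  intro g _ _ _ T
  classical
  let b := Module.finBasis ℂ (W T)
  let d := (form T).dualBasis (form_nondeg T) b
  have hd : ∀ i j, form T (d i) (b j) = if j = i then 1 else 0 := fun i j =>
    LinearMap.BilinForm.apply_dualBasis_left _ _ i j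
  refine ⟨Module.finrank ℂ (W T), ⟨fun k => b k, fun k => d k, fun k => (b k).2,
    fun k => (d k).2, fun k l => ?_, fun x hx => ?_, fun x hx => ?_⟩, ?_⟩
  · change form T (d k) (b l) = _
    rw [hd]
    by_cases h : k = l
    · rw [if_pos h, if_pos h.symm]
    · rw [if_neg h, if_neg (fun h' => h h'.symm)]
  · have h1 : ∀ y : W T, y = ∑ k, form T (d k) y • b k := fun y => by
      conv_lhs => rw [← b.sum_repr y]
      refine Finset.sum_congr rfl fun k _ => ?_
      congr 1
      conv_rhs => rw [← b.sum_repr y, map_sum]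
      simp [hd]
    have h2 := congrArg (Subtype.val) (h1 ⟨x, hx⟩)
    rw [AddSubmonoidClass.coe_finsetSum] at h2
    exact h2
  · have h1 : ∀ y : W T, y = ∑ k, form T y (b k) • d k := fun y => by
      conv_lhs => rw [← d.sum_repr y]
      refine Finset.sum_congr rfl fun k _ => ?_
      congr 1
      conv_rhs => rw [← d.sum_repr y, map_sum, LinearMap.sum_apply]
      simp [hd]
    have h2 := congrArg (Subtype.val) (h1 ⟨x, hx⟩)
    rw [AddSubmonoidClass.coe_finsetSum] at h2
    exact h2
  · rintro ⟨x, hx0, hx⟩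
    have : Nontrivial (W T) := ⟨⟨⟨x, hx⟩, 0, fun h => hx0 (congrArg Subtype.val h)⟩⟩
    exact Module.finrank_pos

end Vale.Agent.P292.X442
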