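import Vale.Agent.P292.X442.Ring

/-! Block D: the dimension of the ring. -/

namespace Vale.Agent.P292.X442

open LieAlgebra Polynomial

universe u

theorem alg_of_sq {R A : Type*} [CommRing R] [CommRing A] [Algebra R A] {c d : R} (hc : c ≠ 0)
    {x : A} (h : algebraMap R A c * x ^ 2 = algebraMap R A d) : IsAlgebraic R x := by
  refine ⟨C c * X ^ 2 - C d, fun h0 => hc ?_, ?_⟩
  · have h1 := congrArg (fun q : R[X] => q.coeff 2) h0
    simpa [coeff_C] using h1
  · simp [h]

theorem stDim : StDim.{u} := by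
  intro g _ _ _ T n B A _ _ _ X hdim hn
  have ha : X.a ≠ 0 := fun h => by
    have := X.ab
    rw [h, zero_mul] at this
    exact zero_ne_one this
  have he : X.phiR B T.e ≠ 0 := fun h => by
    have h1 := congrArg Subtype.val h
    rw [X.coe_phiR, X.phi_e] at h1
    exact mul_ne_zero ha ha h1
  have halg : Algebra.IsAlgebraic (X.RR B) A := by
    have h1 : (⊤ : Subalgebra ℂ A) ≤ (Subalgebra.algebraicClosure (X.RR B) A).restrictScalars ℂ := by
      rw [← X.gen, Algebra.adjoin_le_iff]
      rintro z ((rfl | rfl | rfl) | ⟨k, rfl⟩)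
      · refine alg_of_sq (c := 1) (d := X.phiR B T.e) one_ne_zero ?_
        rw [map_one, one_mul, pow_two]
        exact (X.phi_e B).symm
      · refine alg_of_sq (c := X.phiR B T.e) (d := 1) he ?_
        rw [map_one]
        change X.phi B T.e * _ = _
        rw [X.phi_e]
        linear_combination (X.a * X.b + 1) * X.ab
      · refine alg_of_sq (c := X.phiR B T.e) (d := X.phiR B T.h ^ 2) he ?_
        rw [map_pow]
        change X.phi B T.e * _ = X.phi B T.h ^ 2
        rw [X.phi_e, X.phi_h]
        ring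
      · refine alg_of_sq (c := X.phiR B T.e) (d := X.phiR B (B.u k) ^ 2) he ?_
        rw [map_pow]
        change X.phi B T.e * _ = X.phi B (B.u k) ^ 2
        rw [X.phi_e, X.phi_uk]
        ring
    exact ⟨fun x => h1 (x := x) trivial⟩
  have i1 : FaithfulSMul ℂ (X.RR B) := (faithfulSMul_iff_algebraMap_injective ℂ (X.RR B)).2
    (algebraMap ℂ (X.RR B)).injective
  have i2 : FaithfulSMul (X.RR B) A :=
    (faithfulSMul_iff_algebraMap_injective (X.RR B) A).2 Subtype.val_injective
  have h2 : Algebra.trdeg ℂ (X.RR B) = Algebra.trdeg ℂ A := by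
    rw [← trdeg_add_eq ℂ (X.RR B) (A := A), trdeg_eq_zero_iff.2 halg, add_zero]
  rw [h2]
  refine le_trans ?_ hdim
  have : (3 : Cardinal) = ((3 : ℕ) : Cardinal) := by norm_num
  rw [this]
  exact_mod_cast (show 3 ≤ n + 2 by omega)

end Vale.Agent.P292.X442
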