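import Vale.Agent.P292.X442.Real
import Vale.Agent.P292.X442.Ct169
import Vale.Agent.P292.X442.Dx231
import Vale.Agent.P292.X442.Mon9
import Vale.Agent.P292.X442.StBs192
import Vale.Agent.P292.X442.StDim192
import Vale.Agent.P292.X442.Nor231
import Vale.Agent.P292.X442.Orb169
import Vale.Agent.P292.X442.RealDef

/-! Every simple Lie algebra of dimension different from three is the Lie algebra of contact
vector fields of a contact Fano manifold of dimension at least three. -/

namespace Vale.Agent.P292.X442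

open LieAlgebra

universe v

theorem trdeg_RR {g : Type v} [LieRing g] [LieAlgebra ℂ g] {T : Ct g} {n : ℕ} (B : Bs T n)
    {A : Type} [CommRing A] [Algebra ℂ A] [IsDomain A]
    (X : Dx A (Fin n) fun k l => T.c ⁅B.u k, B.u l⁆) :
    Algebra.trdeg ℂ (X.RR B) = Algebra.trdeg ℂ A := by
  have ha : X.a ≠ 0 := fun h => by
    have := X.ab
    rw [h, zero_mul] at this
    exact zero_ne_one this
  have he : X.phiR B T.e ≠ 0 := fun h => by
    have h1 := congrArg Subtype.val h
    rw [X.coe_phiR, X.phi_e] at h1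
    exact mul_ne_zero ha ha h1
  have halg : Algebra.IsAlgebraic (X.RR B) A := by
    have h1 : (⊤ : Subalgebra ℂ A) ≤
        (Subalgebra.algebraicClosure (X.RR B) A).restrictScalars ℂ := by
      rw [← X.gen, Algebra.adjoin_le_iff]
      rintro z ((rfl | rfl | rfl) | ⟨k, rfl⟩)
      · refine alg_of_sq (c := 1) (d := X.phiR B T.e) one_ne_zero ?_
        rw [map_one, one_mul, pow_two]
        exact (X.phi_e B).symm
      · refine alg_of_sq (c := X.phiR B T.e) (d := 1) he ?_
        rw [map_one]
        change X.phi B T.e * _ = _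
        rw [X.phi_e]
        linear_combination (X.a * X.b + 1) * X.ab
      · refine alg_of_sq (c := X.phiR B T.e) (d := X.phiR B T.h ^ 2) he ?_
        rw [map_pow]
        change X.phi B T.e * _ = X.phi B T.h ^ 2
        rw [X.phi_e, X.phi_h]
        ring
      · refine alg_of_sq (c := X.phiR B T.e) (d := X.phiR B (B.u k) ^ 2) he ?_
        rw [map_pow]
        change X.phi B T.e * _ = X.phi B (B.u k) ^ 2
        rw [X.phi_e, X.phi_uk]
        ring
    exact ⟨fun x => h1 (x := x) trivial⟩
  have i1 : FaithfulSMul ℂ (X.RR B) := (faithfulSMul_iff_algebraMap_injective ℂ (X.RR B)).2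
    (algebraMap ℂ (X.RR B)).injective
  have i2 : FaithfulSMul (X.RR B) A :=
    (faithfulSMul_iff_algebraMap_injective (X.RR B) A).2 Subtype.val_injective
  rw [← trdeg_add_eq ℂ (X.RR B) (A := A), trdeg_eq_zero_iff.2 halg, add_zero]

theorem two_le {g : Type v} [LieRing g] [LieAlgebra ℂ g] {T : Ct g} {n : ℕ} (B : Bs T n)
    (hn : 0 < n) : 2 ≤ n := by
  by_contra h
  obtain rfl : n = 1 := by omega
  have h1 := B.exp_u (B.v 0) (B.hv 0)
  rw [Fin.sum_univ_one, lie_self, map_zero, zero_smul] at h1
  have h2 := B.dual 0 0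
  rw [h1, zero_lie, map_zero, if_pos rfl] at h2
  exact zero_ne_one h2

theorem isRealized_aux (hOrb : StOrb.{v}) (hNor : StNor.{v}) (g : Type v) [LieRing g]
    [LieAlgebra ℂ g] [FiniteDimensional ℂ g] [LieAlgebra.IsSimple ℂ g]
    (h3 : Module.finrank ℂ g ≠ 3) : IsRealized g := by
  obtain ⟨T, hT⟩ := stCt g
  obtain ⟨n, B, hB⟩ := stBs g T
  have hn : 2 ≤ n := two_le B (hB (hT h3))
  obtain ⟨A, i1, i2, i3, i4, hdim, ⟨X⟩⟩ := stDx n (fun k l => T.c ⁅B.u k, B.u l⁆)
    (fun k l => by rw [← lie_skew, map_neg])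
  obtain ⟨hmon, hfin, hbot, htop, hsig, hev⟩ := stMon n _ A X
  obtain ⟨hw, horb⟩ := hOrb g T n B A X
  have hnor := hNor g T n B A X
    (fun r hr hf => X.mem_RR B hmon hbot hfin htop hsig hr hf) hev hw
  have hcf := X.isContactFano B hmon hbot hfin htop hnor horb (stSym g T n B A X hev)
  have hinj : Function.Injective (X.phi B) := X.phi_ker_ideal B
  refine ⟨X.RR B, inferInstance, inferInstance, X.gr B, inferInstance, X.PR B, hcf, ?_,
    X.phiR B, fun x y hxy => hinj (congrArg Subtype.val hxy), ?_,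
    fun x y => (X.PR_phi B x y).symm⟩
  swap
  · ext r
    rw [X.mem_gr_one B]
    rfl
  rw [trdeg_RR B X]
  refine le_trans ?_ hdim
  have h5 : (4 : Cardinal) = ((4 : ℕ) : Cardinal) := by norm_num
  rw [h5]
  exact_mod_cast (show 4 ≤ n + 2 by omega)

/-- every simple Lie algebra of dimension different from three is realized -/
theorem isRealized (g : Type v) [LieRing g] [LieAlgebra ℂ g] [FiniteDimensional ℂ g]
    [LieAlgebra.IsSimple ℂ g] (h3 : Module.finrank ℂ g ≠ 3) : IsRealized g :=
  isRealized_aux stOrb stNor g h3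

end Vale.Agent.P292.X442
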