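import Vale.Agent.P292.H442.Ext
import Vale.Agent.P292.X442.Main
import Vale.Agent.P292.X442.DarSt
import Vale.Agent.P292.X442.Iface3

/-! Every contact Fano manifold of dimension at least three has a Darboux chart. -/

namespace Vale.Agent.P292.X442

open LieAlgebra Vale.Agent.P292.H442

universe u v

theorem HasDarbouxChart.transport {R : Type u} [CommRing R] [Algebra ℂ R]
    {𝒜 : ℕ → Submodule ℂ R} {P : R →ₗ[ℂ] R →ₗ[ℂ] R} {R' : Type v} [CommRing R'] [Algebra ℂ R']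
    {𝒜' : ℕ → Submodule ℂ R'} {P' : R' →ₗ[ℂ] R' →ₗ[ℂ] R'} (F : R ≃ₐ[ℂ] R')
    (hF : IsContactIso 𝒜 P 𝒜' P' F) (h : HasDarbouxChart 𝒜' P') : HasDarbouxChart 𝒜 P := by
  obtain ⟨n, e, h, x, w, ⟨he, hh, hx⟩, ⟨h1, h2, h3, h4, h5⟩, hai, hN⟩ := h
  have hP : ∀ a b, P (F.symm a) (F.symm b) = F.symm (P' a b) := by
    intro a b
    apply F.injective
    rw [hF.bracket, AlgEquiv.apply_symm_apply, AlgEquiv.apply_symm_apply,
      AlgEquiv.apply_symm_apply]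
  have hg : ∀ k a, a ∈ 𝒜' k → F.symm a ∈ 𝒜 k := fun k a ha =>
    (hF.graded k _).2 (by rwa [AlgEquiv.apply_symm_apply])
  refine ⟨n, F.symm e, F.symm h, fun k => F.symm (x k), w,
    ⟨hg 1 e he, hg 1 h hh, fun k => hg 1 _ (hx k)⟩,
    ⟨by rw [hP, h1, map_smul], fun k => by rw [hP, h2], fun k => by rw [hP, h3, map_zero],
      fun k l => by rw [hP, h4, map_smul], h5⟩, ?_, fun r => ?_⟩
  · have h6 := hai.map' (f := (F.symm : R' →ₐ[ℂ] R)) F.symm.injective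
    convert h6 using 1
    funext o
    rcases o with _ | _ | k
    · rfl
    · rfl
    · rfl
  · obtain ⟨N, hN⟩ := hN (F r)
    refine ⟨N, ?_⟩
    have h7 : (F.symm : R' →ₐ[ℂ] R) (e ^ N * F r) ∈
        (Algebra.adjoin ℂ ({e, h} ∪ Set.range x)).map (F.symm : R' →ₐ[ℂ] R) := ⟨_, hN, rfl⟩
    rw [AlgHom.map_adjoin] at h7
    have h8 : (F.symm : R' →ₐ[ℂ] R) (e ^ N * F r) = F.symm e ^ N * r := by
      change F.symm (e ^ N * F r) = _
      rw [map_mul, map_pow, AlgEquiv.symm_apply_apply]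
    rw [h8] at h7
    refine Algebra.adjoin_mono ?_ h7
    rintro _ ⟨y, hy, rfl⟩
    rcases hy with (rfl | rfl) | ⟨k, rfl⟩
    · exact Or.inl (Or.inl rfl)
    · exact Or.inl (Or.inr rfl)
    · exact Or.inr ⟨k, rfl⟩

theorem exists_realization (hDar : StDar.{v}) (g : Type v) [LieRing g]
    [LieAlgebra ℂ g] [FiniteDimensional ℂ g] [LieAlgebra.IsSimple ℂ g]
    (h3 : Module.finrank ℂ g ≠ 3) :
    ∃ (R : Type) (_ : CommRing R) (_ : Algebra ℂ R) (𝒜 : ℕ → Submodule ℂ R) (_ : GradedAlgebra 𝒜)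
      (P : R →ₗ[ℂ] R →ₗ[ℂ] R) (φ : g ≃ₗ[ℂ] 𝒜 1),
      IsContactFano 𝒜 P ∧ 4 ≤ Algebra.trdeg ℂ R ∧
        (∀ x y : g, ((φ ⁅x, y⁆ : 𝒜 1) : R) = P (φ x) (φ y)) ∧ HasDarbouxChart 𝒜 P := by
  obtain ⟨T, hT⟩ := stCt g
  obtain ⟨n, B, hB⟩ := stBs g T
  have hn : 2 ≤ n := two_le B (hB (hT h3))
  obtain ⟨A, i1, i2, i3, i4, hdim, ⟨X⟩⟩ := stDx n (fun k l => T.c ⁅B.u k, B.u l⁆)
    (fun k l => by rw [← lie_skew, map_neg])
  obtain ⟨hmon, hfin, hbot, htop, hsig, hev⟩ := stMon n _ A X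
  obtain ⟨hw, horb⟩ := stOrb g T n B A X
  have hnor := stNor g T n B A X
    (fun r hr hf => X.mem_RR B hmon hbot hfin htop hsig hr hf) hev hw
  have hcf := X.isContactFano B hmon hbot hfin htop hnor horb (stSym g T n B A X hev)
  have hinj : Function.Injective (X.phi B) := X.phi_ker_ideal B
  let φ0 : g →ₗ[ℂ] X.gr B 1 := (X.phiR B).codRestrict (X.gr B 1)
    fun x => (X.mem_gr_one B).2 ⟨x, rfl⟩
  have hbij : Function.Bijective φ0 := by
    refine ⟨fun x y hxy => hinj ?_, fun r => ?_⟩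
    · exact congrArg (fun r : X.gr B 1 => ((r : X.RR B) : A)) hxy
    · obtain ⟨x, hx⟩ := (X.mem_gr_one B).1 r.2
      exact ⟨x, Subtype.ext hx⟩
  refine ⟨X.RR B, inferInstance, inferInstance, X.gr B, inferInstance, X.PR B,
    LinearEquiv.ofBijective φ0 hbij, hcf, ?_, fun x y => (X.PR_phi B x y).symm,
    hDar g T n B A X hev hdim⟩
  rw [trdeg_RR B X]
  refine le_trans ?_ hdim
  have h5 : (4 : Cardinal) = ((4 : ℕ) : Cardinal) := by norm_num
  rw [h5]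
  exact_mod_cast (show 4 ≤ n + 2 by omega)

theorem hasDarbouxChart (hDar : StDar.{u}) (hNot3 : StNot3.{u}) {R : Type u} [CommRing R]
    [Algebra ℂ R] {𝒜 : ℕ → Submodule ℂ R} [GradedAlgebra 𝒜] {P : R →ₗ[ℂ] R →ₗ[ℂ] R}
    (hX : IsContactFano 𝒜 P) (hdim : 3 ≤ Algebra.trdeg ℂ R) : HasDarbouxChart 𝒜 P := by
  have hC := hasCore hX hdim
  obtain ⟨e, h, f, x, hCo, -⟩ := id hC
  have := hCo.isSimple
  have h3 : Module.finrank ℂ (LieOne hX) ≠ 3 := hNot3 𝒜 P hX hdim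
  obtain ⟨R', i1, i2, 𝒜', i3, P', φ, hX', hdim', hφ, hchart⟩ :=
    exists_realization hDar (LieOne hX) h3
  have hdim3 : 3 ≤ Algebra.trdeg ℂ R' := le_trans (by norm_num) hdim'
  obtain ⟨F, hF, -⟩ := exists_extension hC (hasCore hX' hdim3)
    (show LieOne hX ≃ₗ[ℂ] LieOne hX' from φ) (fun u v => by
      apply LieOne.incl_injective hX'
      rw [LieOne.incl_lie]
      exact hφ u v)
  exact hchart.transport F hF

end Vale.Agent.P292.X442
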