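import Vale.Agent.P292.X442.DarSt
import Vale.Agent.P292.X442.StDim192
import Mathlib.LinearAlgebra.Matrix.NonsingularInverse

/-! Block C: the Darboux chart. -/

namespace Vale.Agent.P292.X442

open LieAlgebra

universe u

theorem algInd_of_card {A : Type} [CommRing A] [IsDomain A] [Algebra ℂ A] {n : ℕ}
    {ι : Type} [Fintype ι] (hι : Fintype.card ι = n) (z : ι → A)
    (halg : Algebra.IsAlgebraic (Algebra.adjoin ℂ (Set.range z)) A)
    (hn : ((n : ℕ) : Cardinal) ≤ Algebra.trdeg ℂ A) : AlgebraicIndependent ℂ z := by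
  classical
  have hf : FaithfulSMul ℂ A := (faithfulSMul_iff_algebraMap_injective ℂ A).2
    (algebraMap ℂ A).injective
  obtain ⟨s, hs, hb⟩ := exists_isTranscendenceBasis_subset (R := ℂ) (Set.range z)
  have hcard : Cardinal.mk s = Algebra.trdeg ℂ A := by
    have := hb.lift_cardinalMk_eq_trdeg
    simpa using this
  have hfin : (Set.range z).Finite := Set.finite_range z
  have h1 : n ≤ s.ncard := by
    have hsf : s.Finite := hfin.subset hs
    rw [← hcard] at hn
    have h2 : Cardinal.mk s = ((s.ncard : ℕ) : Cardinal) := by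
      rw [Set.cast_ncard hsf]
    rw [h2] at hn
    exact_mod_cast hn
  have h2 : (Set.range z).ncard ≤ n := by
    rw [← Set.image_univ]
    refine (Set.ncard_image_le Set.finite_univ).trans ?_
    rw [Set.ncard_univ, Nat.card_eq_fintype_card, hι]
  have hs' : s = Set.range z := Set.eq_of_subset_of_ncard_le hs (h2.trans h1) hfin
  have hinj : Function.Injective z := by
    have h3 : (z '' Set.univ).ncard = (Set.univ : Set ι).ncard := by
      rw [Set.image_univ, ← hs', Set.ncard_univ, Nat.card_eq_fintype_card, hι]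
      exact le_antisymm ((Set.ncard_le_ncard hs hfin).trans h2) h1
    exact Set.injOn_univ.1 (Set.injOn_of_ncard_image_eq h3 Set.finite_univ)
  have h4 := hb.1
  rw [hs'] at h4
  exact (algebraicIndependent_subtype_range hinj).1 h4

theorem stDar : StDar.{u} := by
  intro g _ _ _ T n B A _ _ _ X h2 hdim
  have ha : X.a ≠ 0 := fun h => by
    have := X.ab
    rw [h, zero_mul] at this
    exact zero_ne_one this
  have he : X.phi B T.e ≠ 0 := fun h => by
    rw [X.phi_e] at h
    exact mul_ne_zero ha ha h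
  have hgr : ∀ x : g, X.phiR B x ∈ X.gr B 1 := fun x => by
    change ((X.phiR B x : X.RR B) : A) ∈ (LinearMap.range (X.phi B)) ^ 1
    rw [pow_one]
    exact ⟨x, rfl⟩
  -- the Darboux coordinates in `A`
  let z : Option (Option (Fin n)) → X.RR B := fun o =>
    o.elim (X.phiR B T.e) fun o => o.elim (X.phiR B T.h) fun k => X.phiR B (B.u k)
  let z' : Option (Option (Fin n)) → A := fun o => (z o : A)
  have hz0 : z' none = X.phi B T.e := rfl
  have hz1 : z' (some none) = X.phi B T.h := rfl
  have hz2 : ∀ k, z' (some (some k)) = X.phi B (B.u k) := fun k => rfl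
  set S := Algebra.adjoin ℂ (Set.range z') with hS
  have hzS : ∀ o, z' o ∈ S := fun o => Algebra.subset_adjoin ⟨o, rfl⟩
  let e' : S := ⟨z' none, hzS none⟩
  let h' : S := ⟨z' (some none), hzS (some none)⟩
  let x' : Fin n → S := fun k => ⟨z' (some (some k)), hzS _⟩
  have he' : e' ≠ 0 := fun h => he (congrArg Subtype.val h)
  have halg : Algebra.IsAlgebraic S A := by
    have h1 : (⊤ : Subalgebra ℂ A) ≤ (Subalgebra.algebraicClosure S A).restrictScalars ℂ := by
      rw [← X.gen, Algebra.adjoin_le_iff]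
      rintro y ((rfl | rfl | rfl) | ⟨k, rfl⟩)
      · refine alg_of_sq (c := 1) (d := e') one_ne_zero ?_
        rw [map_one, one_mul, pow_two]
        exact (X.phi_e B).symm
      · refine alg_of_sq (c := e') (d := 1) he' ?_
        rw [map_one]
        change X.phi B T.e * _ = _
        rw [X.phi_e]
        linear_combination (X.a * X.b + 1) * X.ab
      · refine alg_of_sq (c := e') (d := h' ^ 2) he' ?_
        rw [map_pow]
        change X.phi B T.e * _ = X.phi B T.h ^ 2
        rw [X.phi_e, X.phi_h]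
        ring
      · refine alg_of_sq (c := e') (d := x' k ^ 2) he' ?_
        rw [map_pow]
        change X.phi B T.e * _ = X.phi B (B.u k) ^ 2
        rw [X.phi_e, X.phi_uk]
        ring
    exact ⟨fun x => h1 (x := x) trivial⟩
  have hind : AlgebraicIndependent ℂ z' := by
    refine algInd_of_card (n := n + 2) ?_ z' halg hdim
    simp
  have hind2 : AlgebraicIndependent ℂ z := AlgebraicIndependent.of_comp (X.RR B).val hind
  refine ⟨n, X.phiR B T.e, X.phiR B T.h, fun k => X.phiR B (B.u k),
    Matrix.of fun k l => T.c ⁅B.u k, B.u l⁆, ⟨hgr _, hgr _, fun k => hgr _⟩,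
    ⟨?_, ?_, ?_, ?_, ?_⟩, hind2, ?_⟩
  · rw [X.PR_phi, T.he, map_smul]
  · intro k
    rw [X.PR_phi, B.hu]
  · intro k
    rw [X.PR_phi, Dx.lie_e_one (B.hu k), map_zero]
  · intro k l
    rw [X.PR_phi, Matrix.of_apply, ← map_smul]
    congr 1
    refine T.top_eq _ ?_
    rw [T.lie_wt (μ := 1) (ν := 1) (by rw [B.hu, one_smul]) (by rw [B.hu, one_smul])]
    norm_num
  · refine Matrix.det_ne_zero_of_left_inverse
      (B := Matrix.of fun k j => T.c ⁅B.v j, B.v k⁆) ?_
    ext k l
    rw [Matrix.mul_apply, Matrix.one_apply, ← B.dual k l]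
    conv_rhs => rw [B.exp_u (B.v k) (B.hv k)]
    rw [sum_lie, map_sum]
    refine Finset.sum_congr rfl fun j _ => ?_
    rw [Matrix.of_apply, Matrix.of_apply, smul_lie, map_smul, smul_eq_mul]
  · intro r
    obtain ⟨N, hN⟩ := h2 r (X.sigma_of_mem B r.2)
    refine ⟨N, ?_⟩
    have h3 : Algebra.adjoin ℂ ({X.a ^ 2, X.a * X.s} ∪ Set.range fun k => X.a * X.y k) ≤
        (Algebra.adjoin ℂ ({X.phiR B T.e, X.phiR B T.h} ∪
          Set.range fun k => X.phiR B (B.u k))).map (X.RR B).val := by
      rw [Algebra.adjoin_le_iff]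
      rintro y ((rfl | rfl) | ⟨k, rfl⟩)
      · refine ⟨X.phiR B T.e, Algebra.subset_adjoin (Or.inl (Or.inl rfl)), ?_⟩
        change X.phi B T.e = _
        rw [X.phi_e, pow_two]
      · refine ⟨-X.phiR B T.h, Subalgebra.neg_mem _ (Algebra.subset_adjoin (Or.inl (Or.inr rfl))), ?_⟩
        change -X.phi B T.h = _
        rw [X.phi_h, neg_neg]
      · refine ⟨X.phiR B (B.u k), Algebra.subset_adjoin (Or.inr ⟨k, rfl⟩), ?_⟩
        change X.phi B (B.u k) = _
        rw [X.phi_uk]
    obtain ⟨s, hs, hs'⟩ := h3 hN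
    have h4 : X.phiR B T.e ^ N * r = s := by
      apply Subtype.ext
      change X.phi B T.e ^ N * (r : A) = _
      rw [X.phi_e, ← pow_two, ← pow_mul]
      exact hs'.symm
    rw [h4]
    exact hs

end Vale.Agent.P292.X442
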