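import Vale.Agent.P292.Defs
import Mathlib.RingTheory.AlgebraicIndependent.Basic
import Mathlib.LinearAlgebra.Matrix.Determinant.Basic

namespace Vale.Agent.P292.X442

universe u

/-- `X` contains an affine space of its own dimension, the complement `X_e` of a hyperplane
section `e = 0`, on which the contact structure is the standard one: `R[1/e]` is the Laurent
polynomial ring `ℂ[e, 1/e, h/e, u k/e]`, with the standard brackets. -/
def HasDarbouxChart {R : Type u} [CommRing R] [Algebra ℂ R] (𝒜 : ℕ → Submodule ℂ R)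
    (P : R →ₗ[ℂ] R →ₗ[ℂ] R) : Prop :=
  ∃ (n : ℕ) (e h : R) (x : Fin n → R) (w : Matrix (Fin n) (Fin n) ℂ),
    (e ∈ 𝒜 1 ∧ h ∈ 𝒜 1 ∧ ∀ k, x k ∈ 𝒜 1) ∧
    (P h e = (2 : ℂ) • e ∧ (∀ k, P h (x k) = x k) ∧ (∀ k, P e (x k) = 0) ∧
      (∀ k l, P (x k) (x l) = w k l • e) ∧ w.det ≠ 0) ∧
    AlgebraicIndependent ℂ (fun o : Option (Option (Fin n)) =>
      o.elim e fun o => o.elim h x) ∧
    ∀ r : R, ∃ N : ℕ, e ^ N * r ∈ Algebra.adjoin ℂ ({e, h} ∪ Set.range x)

end Vale.Agent.P292.X442
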