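import Vale.Agent.P292.X442.Iface

/-! Elementary facts on Darboux rings. -/

namespace Vale.Agent.P292.X442

open LieAlgebra

namespace Dx

variable {A : Type*} [CommRing A] [Algebra ℂ A] {ι : Type*} {w : ι → ι → ℂ} (X : Dx A ι w)

/-- the Hamiltonian derivation of an element -/
noncomputable def ham (x : A) : Derivation ℂ A A :=
  Derivation.mk' (X.P x) fun y z => by
    rw [X.leib, smul_eq_mul, smul_eq_mul]
    ring

@[simp] theorem ham_apply (x y : A) : X.ham x y = X.P x y := rfl

theorem skew (x y : A) : X.P x y = -X.P y x := by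
  have h1 := X.alt (x + y)
  rw [map_add, map_add, LinearMap.add_apply, LinearMap.add_apply, X.alt, X.alt] at h1
  linear_combination h1

theorem leib' (x y z : A) : X.P (x * y) z = x * X.P y z + y * X.P x z := by
  rw [X.skew, X.leib, X.skew z x, X.skew z y]
  ring

theorem P_alg (x : A) (c : ℂ) : X.P x (algebraMap ℂ A c) = 0 := (X.ham x).map_algebraMap c

theorem P_alg' (x : A) (c : ℂ) : X.P (algebraMap ℂ A c) x = 0 := by
  rw [X.skew, X.P_alg, neg_zero]

theorem P_one (x : A) : X.P x 1 = 0 := by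
  have := X.P_alg x 1
  rwa [map_one] at this

theorem ba : X.b * X.a = 1 := by rw [mul_comm, X.ab]

include X in
theorem der_b (D : Derivation ℂ A A) : D X.b = -(X.b * X.b * D X.a) := by
  have h1 : D (X.a * X.b) = 0 := by rw [X.ab]; exact D.map_one_eq_zero
  rw [D.leibniz, smul_eq_mul, smul_eq_mul] at h1
  linear_combination X.b * h1 - D X.b * X.ab

/-- derivations which agree on `a`, `s` and the `y k` are equal -/
theorem der_ext {D D' : Derivation ℂ A A} (ha : D X.a = D' X.a) (hs : D X.s = D' X.s)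
    (hy : ∀ k, D (X.y k) = D' (X.y k)) : D = D' := by
  refine Derivation.ext_of_adjoin_eq_top _ X.gen ?_
  rintro z ((rfl | rfl | rfl) | ⟨k, rfl⟩)
  · exact ha
  · rw [X.der_b, X.der_b, ha]
  · exact hs
  · exact hy k

theorem der_zero {D : Derivation ℂ A A} (ha : D X.a = 0) (hs : D X.s = 0)
    (hy : ∀ k, D (X.y k) = 0) (r : A) : D r = 0 := by
  have : D = 0 := X.der_ext (by simpa using ha) (by simpa using hs) (fun k => by simpa using hy k)
  rw [this, Derivation.zero_apply]

/-- biderivations vanishing on generators vanish -/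
theorem bider_zero (β : A → A → A) (D1 : ∀ y, Derivation ℂ A A) (D2 : ∀ x, Derivation ℂ A A)
    (h1 : ∀ x y, D1 y x = β x y) (h2 : ∀ x y, D2 x y = β x y)
    (haa : β X.a X.a = 0) (has : β X.a X.s = 0) (hay : ∀ k, β X.a (X.y k) = 0)
    (hsa : β X.s X.a = 0) (hss : β X.s X.s = 0) (hsy : ∀ k, β X.s (X.y k) = 0)
    (hya : ∀ k, β (X.y k) X.a = 0) (hys : ∀ k, β (X.y k) X.s = 0)
    (hyy : ∀ k l, β (X.y k) (X.y l) = 0) (x y : A) : β x y = 0 := by
  have ka : ∀ y, β X.a y = 0 := fun y => by
    rw [← h2]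
    exact X.der_zero (by rw [h2, haa]) (by rw [h2, has]) (fun k => by rw [h2, hay]) y
  have ks : ∀ y, β X.s y = 0 := fun y => by
    rw [← h2]
    exact X.der_zero (by rw [h2, hsa]) (by rw [h2, hss]) (fun k => by rw [h2, hsy]) y
  have ky : ∀ k y, β (X.y k) y = 0 := fun k y => by
    rw [← h2]
    exact X.der_zero (by rw [h2, hya]) (by rw [h2, hys]) (fun l => by rw [h2, hyy]) y
  rw [← h1]
  exact X.der_zero (by rw [h1, ka]) (by rw [h1, ks]) (fun k => by rw [h1, ky]) x

/-- the Euler derivation and the bracket -/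
theorem E_P (x y : A) : X.E (X.P x y) = X.P (X.E x) y + X.P x (X.E y) - 2 * X.P x y := by
  have key := X.bider_zero
    (fun x y => X.E (X.P x y) - X.P (X.E x) y - X.P x (X.E y) + 2 * X.P x y)
    (fun y => ⁅X.ham y, X.E⁆ + X.ham (X.E y) - (2 : A) • X.ham y)
    (fun x => ⁅X.E, X.ham x⁆ - X.ham (X.E x) + (2 : A) • X.ham x) ?_ ?_ ?_ ?_ ?_ ?_ ?_ ?_ ?_ ?_ ?_
    x y
  · linear_combination key
  · intro x y
    simp only [Derivation.sub_apply, Derivation.add_apply, Derivation.commutator_apply, ham_apply,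
      Derivation.smul_apply, smul_eq_mul]
    rw [X.skew x y, X.skew (X.E x) y, X.skew x (X.E y), map_neg]
    ring
  · intro x y
    simp only [Derivation.sub_apply, Derivation.add_apply, Derivation.commutator_apply, ham_apply,
      Derivation.smul_apply, smul_eq_mul]
    ring
  · simp only [X.Ea, X.alt, map_zero]; ring
  · simp only [X.Ea, X.Es, X.as, Derivation.map_one_eq_zero]; ring
  · intro k; simp only [X.Ea, X.Ey, X.ay, map_zero]; ring
  · simp only [X.Ea, X.Es, X.skew X.s X.a, X.as, map_neg, Derivation.map_one_eq_zero]; ring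
  · simp only [X.Es, X.alt, map_zero]; ring
  · intro k; simp only [X.Es, X.Ey, X.sy, map_zero]; ring
  · intro k; simp only [X.Ea, X.Ey, X.skew _ X.a, X.ay, map_zero, neg_zero]; ring
  · intro k; simp only [X.Es, X.Ey, X.skew _ X.s, X.sy, map_zero, neg_zero]; ring
  · intro k l; simp only [X.Ey, X.yy, Derivation.map_algebraMap]; ring

end Dx

end Vale.Agent.P292.X442
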