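import Vale.Agent.P292.X442.Key

/-! The ring of the Lie algebra is graded, and it consists of all the even elements on which `f`
is nilpotent. -/

namespace Vale.Agent.P292.X442

open LieAlgebra

universe u

variable {g : Type u} [LieRing g] [LieAlgebra ℂ g]
variable {T : Ct g} {n : ℕ} (B : Bs T n) {A : Type} [CommRing A] [Algebra ℂ A]
  (X : Dx A (Fin n) fun k l => T.c ⁅B.u k, B.u l⁆)

namespace Dx

theorem F_neg (hmon : ⨆ p : ℤ × ℤ, X.V p.1 p.2 = ⊤) (hbot : ∀ d m : ℤ, d < m → X.V d m = ⊥)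
    {k : ℤ} (hk : k < 0) {r : A} (hr : r ∈ X.F B k) : r = 0 := by
  have h1 := X.F_le B hmon hbot k hr
  have h2 : (⨆ m : Finset.Icc (-(2 * k)) (2 * k), X.V (2 * k) m) = ⊥ := by
    rw [eq_bot_iff]
    refine iSup_le fun m => ?_
    have := Finset.mem_Icc.1 m.2
    omega
  rw [h2] at h1
  exact (Submodule.mem_bot ℂ).1 h1

/-- the ring consists of the even elements on which `f` is nilpotent -/
theorem mem_RR [FiniteDimensional ℂ g] [LieAlgebra.IsSimple ℂ g] [IsDomain A]
    (hmon : ⨆ p : ℤ × ℤ, X.V p.1 p.2 = ⊤) (hbot : ∀ d m : ℤ, d < m → X.V d m = ⊥)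
    (hfin : ∀ d m : ℤ, FiniteDimensional ℂ (X.V d m))
    (htop : ∀ k : ℕ, X.V k k = Submodule.span ℂ {X.a ^ k})
    (hsig : ∀ d m : ℤ, ∀ r ∈ X.V d m, X.σ r = ((-1 : ℂ) ^ d) • r)
    {r : A} (hr : X.σ r = r) (hf : X.FN B r) : r ∈ X.RR B := by
  obtain ⟨s, x, hx, rfl⟩ := X.exists_comp B hmon r
  have hf' := X.comp_FN B s x hx hf
  have hodd : ∀ p ∈ s, ((-1 : ℂ) ^ p.1 - 1) • x p = 0 := by
    refine X.vanish B s (fun p => ((-1 : ℂ) ^ p.1 - 1) • x p)
      (fun p => Submodule.smul_mem _ _ (hx p)) ?_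
    simp only [sub_smul, one_smul, Finset.sum_sub_distrib]
    rw [sub_eq_zero]
    rw [map_sum] at hr
    conv_rhs => rw [← hr]
    exact Finset.sum_congr rfl fun p _ => (hsig _ _ _ (hx p)).symm
  refine sum_mem fun p hp => ?_
  by_cases hp0 : x p = 0
  · rw [hp0]; exact zero_mem _
  rcases Int.even_or_odd p.1 with ⟨k, hk⟩ | ho
  · have hF : x p ∈ X.F B k := by
      refine ⟨?_, hf' p hp⟩
      rw [(hx p).1, hk]
      push_cast
      module
    rcases lt_or_ge k 0 with hk0 | hk0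
    · exact absurd (X.F_neg B hmon hbot hk0 hF) hp0
    · obtain ⟨m, rfl⟩ := Int.eq_ofNat_of_zero_le hk0
      exact X.pow_RR B m (X.F_eq B hmon hbot hfin htop m hF)
  · exfalso
    have h1 := hodd p hp
    rw [ho.neg_one_zpow] at h1
    have h2 := (smul_eq_zero.1 h1).resolve_right hp0
    norm_num at h2

theorem E_mem {r : A} (hr : r ∈ X.RR B) : X.E r ∈ X.RR B := by
  refine Algebra.adjoin_induction (p := fun r _ => X.E r ∈ X.RR B) ?_ ?_ ?_ ?_ hr
  · rintro _ ⟨y, rfl⟩
    rw [X.E_phi' B]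
    exact (X.RR B).smul_mem (X.phi_mem B y) 2
  · intro c
    rw [Derivation.map_algebraMap]
    exact zero_mem _
  · intro a b _ _ ha hb
    rw [map_add]
    exact add_mem ha hb
  · intro a b ha' hb' ha hb
    rw [Derivation.leibniz]
    exact add_mem (mul_mem ha' hb) (mul_mem hb' ha)

/-- the Euler operator of the ring -/
noncomputable def ER : Module.End ℂ (X.RR B) where
  toFun r := ⟨X.E r, X.E_mem B r.2⟩
  map_add' x y := Subtype.ext (map_add X.E (x : A) y)
  map_smul' c x := Subtype.ext (X.E.map_smul c (x : A))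

theorem mem_gr {k : ℕ} {r : X.RR B} :
    r ∈ X.gr B k ↔ (r : A) ∈ (LinearMap.range (X.phi B)) ^ k := Iff.rfl

theorem gr_indep : iSupIndep (X.gr B) := by
  have h1 := Module.End.eigenspaces_iSupIndep (X.ER B)
  have h2 : Function.Injective fun k : ℕ => (2 * (k : ℂ)) := by
    intro a b hab
    have : (a : ℂ) = b := by
      simp only at hab
      linear_combination hab / 2
    exact_mod_cast this
  refine (h1.comp h2).mono fun k r hr => ?_
  change r ∈ Module.End.eigenspace (X.ER B) (2 * (k : ℂ))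
  rw [Module.End.mem_eigenspace_iff]
  exact Subtype.ext (X.pow_E B k hr)

theorem mul_iSup_mem {x y : A} (hx : x ∈ ⨆ k : ℕ, (LinearMap.range (X.phi B)) ^ k)
    (hy : y ∈ ⨆ k : ℕ, (LinearMap.range (X.phi B)) ^ k) :
    x * y ∈ ⨆ k : ℕ, (LinearMap.range (X.phi B)) ^ k := by
  refine Submodule.iSup_induction _ (motive := fun x => x * y ∈
    ⨆ k : ℕ, (LinearMap.range (X.phi B)) ^ k) hx ?_ ?_ ?_
  · intro i x hx
    refine Submodule.iSup_induction _ (motive := fun y => x * y ∈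
      ⨆ k : ℕ, (LinearMap.range (X.phi B)) ^ k) hy ?_ ?_ ?_
    · intro j y hy
      refine Submodule.mem_iSup_of_mem (i + j) ?_
      rw [pow_add]
      exact Submodule.mul_mem_mul hx hy
    · rw [mul_zero]; exact zero_mem _
    · intro y y' hy hy'
      rw [mul_add]
      exact add_mem hy hy'
  · rw [zero_mul]; exact zero_mem _
  · intro x x' hx hx'
    rw [add_mul]
    exact add_mem hx hx'

theorem mem_iSup_pow {r : A} (hr : r ∈ X.RR B) :
    r ∈ ⨆ k : ℕ, (LinearMap.range (X.phi B)) ^ k := by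
  refine Algebra.adjoin_induction (p := fun r _ => r ∈ ⨆ k : ℕ,
    (LinearMap.range (X.phi B)) ^ k) ?_ ?_ ?_ ?_ hr
  · rintro _ ⟨y, rfl⟩
    refine Submodule.mem_iSup_of_mem 1 ?_
    rw [pow_one]
    exact ⟨y, rfl⟩
  · intro c
    refine Submodule.mem_iSup_of_mem 0 ?_
    rw [pow_zero, Submodule.mem_one]
    exact ⟨c, rfl⟩
  · intro a b _ _ ha hb
    exact add_mem ha hb
  · intro a b _ _ ha hb
    exact X.mul_iSup_mem B ha hb

theorem gr_top : ⨆ k, X.gr B k = ⊤ := by
  rw [eq_top_iff]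
  intro r _
  obtain ⟨f, hf, hs⟩ := (Submodule.mem_iSup_iff_exists_finsupp _ _).1 (X.mem_iSup_pow B r.2)
  have h1 : r = ∑ k ∈ f.support, (⟨f k, X.pow_RR B k (hf k)⟩ : X.RR B) := by
    apply Subtype.ext
    rw [← hs, AddSubmonoidClass.coe_finsetSum]
    rfl
  rw [h1]
  exact sum_mem fun k _ => Submodule.mem_iSup_of_mem k (hf k)

noncomputable instance : GradedAlgebra (X.gr B) :=
  { one_mem := by
      rw [mem_gr, pow_zero, Submodule.mem_one]
      exact ⟨1, by simp⟩
    mul_mem := fun i j x y hx hy => by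
      rw [mem_gr] at hx hy ⊢
      rw [pow_add]
      exact Submodule.mul_mem_mul hx hy
    toDecomposition := ((DirectSum.isInternal_submodule_iff_iSupIndep_and_iSup_eq_top
      (X.gr B)).2 ⟨X.gr_indep B, X.gr_top B⟩).chooseDecomposition }

end Dx

end Vale.Agent.P292.X442
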