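import Vale.Agent.P292.X442.Phi

/-! The homomorphism from the Lie algebra to the Darboux ring. -/

namespace Vale.Agent.P292.X442

open LieAlgebra

variable {g : Type*} [LieRing g] [LieAlgebra ℂ g]
variable {T : Ct g} {n : ℕ} (B : Bs T n) {A : Type*} [CommRing A] [Algebra ℂ A]
  (X : Dx A (Fin n) fun k l => T.c ⁅B.u k, B.u l⁆)

namespace Dx

/-- the recursion operator -/
noncomputable def op (F G : g →ₗ[ℂ] A) : g →ₗ[ℂ] A :=
  (LinearMap.mulLeft ℂ X.b).comp ((LinearMap.mulLeft ℂ X.s).comp (G.comp (ad ℂ g T.e)) +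
    ∑ k, (LinearMap.mulLeft ℂ (X.y k)).comp (F.comp (ad ℂ g (B.v k))))

theorem op_apply (F G : g →ₗ[ℂ] A) (v : g) : X.op B F G v =
    X.b * (X.s * G ⁅T.e, v⁆ + ∑ k, X.y k * F ⁅B.v k, v⁆) := by
  simp [op, LinearMap.sum_apply]

/-- the components of the map -/
noncomputable def psi : ℕ → (g →ₗ[ℂ] A)
  | 0 => 0
  | 1 => 0
  | 2 => (LinearMap.toSpanSingleton ℂ A (X.a * X.a)).comp T.c
  | (m + 3) => (((m : ℂ) + 1)⁻¹) • X.op B (psi (m + 2)) (psi (m + 1))

theorem psi_zero (v : g) : X.psi B 0 v = 0 := rfl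

theorem psi_one (v : g) : X.psi B 1 v = 0 := rfl

theorem psi_two (v : g) : X.psi B 2 v = T.c v • (X.a * X.a) := rfl

theorem psi_rec (m : ℕ) (v : g) : ((m : ℂ) - 2) • X.psi B m v =
    X.b * (X.s * X.psi B (m - 2) ⁅T.e, v⁆ + ∑ k, X.y k * X.psi B (m - 1) ⁅B.v k, v⁆) := by
  rcases m with _ | _ | _ | m
  · simp [psi_zero]
  · simp [psi_zero, psi_one]
  · simp [psi_zero, psi_one]
  · have h1 : (((m + 3 : ℕ) : ℂ) - 2) = (m : ℂ) + 1 := by push_cast; ring
    have h2 : (m : ℂ) + 1 ≠ 0 := by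
      have : ((m + 1 : ℕ) : ℂ) ≠ 0 := Nat.cast_ne_zero.2 (Nat.succ_ne_zero m)
      push_cast at this
      exact this
    rw [h1]
    change ((m : ℂ) + 1) • ((((m : ℂ) + 1)⁻¹) • X.op B (X.psi B (m + 2)) (X.psi B (m + 1))) v = _
    rw [LinearMap.smul_apply, smul_inv_smul₀ h2, op_apply]
    rfl

theorem P_b (x : A) : X.P x X.b = -(X.b * X.b * X.P x X.a) := X.der_b (X.ham x)

theorem lie_e_one {u : g} (hu : ⁅T.h, u⁆ = u) : ⁅T.e, u⁆ = 0 := by
  have h1 : ⁅T.h, ⁅T.e, u⁆⁆ = (3 : ℂ) • ⁅T.e, u⁆ := by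
    rw [T.lie_wt T.he (μ := 2) (ν := 1) (by rw [hu, one_smul])]
    norm_num
  refine T.wt_eq_zero h1 fun i h => ?_
  have h2 : ((i : ℕ) : ℂ) = 5 := by linear_combination -h
  have h3 : (i : ℕ) = 5 := by exact_mod_cast h2
  omega

theorem psi_wt (m : ℕ) {v : g} {μ : ℂ} (hv : ⁅T.h, v⁆ = μ • v) (hμ : μ ≠ 4 - m) :
    X.psi B m v = 0 := by
  induction m using Nat.strong_induction_on generalizing v μ with
  | _ m ih =>
    rcases Nat.lt_or_ge 2 m with hm | hm
    · have h1 := X.psi_rec B m v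
      have h2 : (m : ℂ) - 2 ≠ 0 := by
        intro h
        have : (m : ℂ) = (2 : ℕ) := by push_cast; linear_combination h
        have : m = 2 := by exact_mod_cast this
        omega
      have c2 : ((m - 2 : ℕ) : ℂ) = (m : ℂ) - 2 := by push_cast [Nat.cast_sub hm.le]; ring
      have c1 : ((m - 1 : ℕ) : ℂ) = (m : ℂ) - 1 := by
        push_cast [Nat.cast_sub (show 1 ≤ m by omega)]; ring
      have h3 : X.psi B (m - 2) ⁅T.e, v⁆ = 0 :=
        ih (m - 2) (by omega) (T.lie_wt T.he hv) (by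
          rw [c2]; intro h; apply hμ; linear_combination h)
      have h4 : ∀ k, X.psi B (m - 1) ⁅B.v k, v⁆ = 0 := fun k =>
        ih (m - 1) (by omega) (T.lie_wt (μ := 1) (by rw [B.hv, one_smul]) hv) (by
          rw [c1]; intro h; apply hμ; linear_combination h)
      rw [h3] at h1
      simp only [h4, mul_zero, Finset.sum_const_zero, add_zero] at h1
      exact (smul_eq_zero.1 h1).resolve_left h2
    · have h5 : m = 0 ∨ m = 1 ∨ m = 2 := by omega
      rcases h5 with rfl | rfl | rfl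
      · rfl
      · rfl
      · rw [psi_two, T.c_zero v μ hv (by intro h; apply hμ; rw [h]; norm_num), zero_smul]

theorem psi_big {m : ℕ} (hm : 7 ≤ m) (v : g) : X.psi B m v = 0 := by
  obtain ⟨w, hw, hwe⟩ := T.dec v
  rw [hw, map_sum]
  refine Finset.sum_eq_zero fun i _ => X.psi_wt B m (hwe i) ?_
  intro h
  have h1 : ((i : ℕ) : ℂ) + m = 6 := by linear_combination h
  have h2 : (i : ℕ) + m = 6 := by exact_mod_cast h1
  omega

/-- induction principle for identities between derivations on the components -/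
theorem psi_der (D : Derivation ℂ A A) (F : ℕ → g → A) (h0 : ∀ v, F 0 v = 0) (h1 : ∀ v, F 1 v = 0)
    (h2 : ∀ v, D (X.psi B 2 v) = F 2 v)
    (hrec : ∀ m, 3 ≤ m → (∀ l < m, ∀ v, D (X.psi B l v) = F l v) → ∀ v,
      D (((m : ℂ) - 2) • X.psi B m v) = ((m : ℂ) - 2) • F m v) (m : ℕ) (v : g) :
    D (X.psi B m v) = F m v := by
  induction m using Nat.strong_induction_on generalizing v with
  | _ m ih =>
    rcases Nat.lt_or_ge 2 m with hm | hm
    · have h3 := hrec m hm ih v
      rw [Derivation.map_smul] at h3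
      have h4 : (m : ℂ) - 2 ≠ 0 := by
        intro h
        have : (m : ℂ) = (2 : ℕ) := by push_cast; linear_combination h
        have : m = 2 := by exact_mod_cast this
        omega
      exact smul_right_injective _ h4 h3
    · have h5 : m = 0 ∨ m = 1 ∨ m = 2 := by omega
      rcases h5 with rfl | rfl | rfl
      · rw [psi_zero, map_zero, h0]
      · rw [psi_one, map_zero, h1]
      · exact h2 v

theorem der_rec (D : Derivation ℂ A A) (m : ℕ) (v : g) : D (((m : ℂ) - 2) • X.psi B m v) =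
    -(X.b * X.b * D X.a) * (X.s * X.psi B (m - 2) ⁅T.e, v⁆ +
      ∑ k, X.y k * X.psi B (m - 1) ⁅B.v k, v⁆) +
    X.b * (D X.s * X.psi B (m - 2) ⁅T.e, v⁆ + X.s * D (X.psi B (m - 2) ⁅T.e, v⁆) +
      ∑ k, D (X.y k) * X.psi B (m - 1) ⁅B.v k, v⁆ +
      ∑ k, X.y k * D (X.psi B (m - 1) ⁅B.v k, v⁆)) := by
  rw [psi_rec, D.leibniz, X.der_b, smul_eq_mul, smul_eq_mul, map_add, map_sum, D.leibniz,
    smul_eq_mul, smul_eq_mul]
  simp only [D.leibniz, smul_eq_mul, Finset.sum_add_distrib]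
  have h : ∑ k, X.psi B (m - 1) ⁅B.v k, v⁆ * D (X.y k) =
      ∑ k, D (X.y k) * X.psi B (m - 1) ⁅B.v k, v⁆ :=
    Finset.sum_congr rfl fun k _ => mul_comm _ _
  rw [h]
  ring

theorem Le_psi (m : ℕ) (v : g) :
    X.P (X.a * X.a) (X.psi B m v) = X.psi B (m - 2) ⁅T.e, v⁆ := by
  refine X.psi_der B (X.ham (X.a * X.a)) (fun m v => X.psi B (m - 2) ⁅T.e, v⁆) (fun v => rfl)
    (fun v => rfl) (fun v => ?_) (fun m hm ih v => ?_) m v
  · rw [psi_two, ham_apply, map_smul, X.leib, X.Le_a]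
    simp [psi_zero]
  · rw [X.der_rec B]
    simp only [ham_apply] at ih ⊢
    rw [ih (m - 2) (by omega)]
    simp only [ih (m - 1) (by omega), X.Le_a, X.Le_s, X.Le_y]
    have h1 := X.psi_rec B (m - 2) ⁅T.e, v⁆
    have h2 : ∀ k, ⁅B.v k, ⁅T.e, v⁆⁆ = ⁅T.e, ⁅B.v k, v⁆⁆ := fun k => by
      have hz : ⁅B.v k, T.e⁆ = 0 := by rw [← lie_skew, lie_e_one (B.hv k), neg_zero]
      rw [leibniz_lie, hz, zero_lie, zero_add]
    simp only [h2] at h1
    have c2 : ((m - 2 : ℕ) : ℂ) = (m : ℂ) - 2 := by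
      push_cast [Nat.cast_sub (show 2 ≤ m by omega)]; ring
    rw [c2, Algebra.smul_def, show m - 2 - 1 = m - 1 - 2 by omega] at h1
    rw [Algebra.smul_def]
    simp only [map_sub, map_natCast, map_ofNat] at h1 ⊢
    simp only [zero_mul, Finset.sum_const_zero, mul_zero, neg_zero, add_zero, zero_add]
    linear_combination -h1 + 2 * X.psi B (m - 2) ⁅T.e, v⁆ * X.ab

theorem Lu_psi {u : g} (hu : ⁅T.h, u⁆ = u) (m : ℕ) (v : g) :
    X.P (X.a * X.ell B u) (X.psi B m v) = X.psi B (m - 1) ⁅u, v⁆ := by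
  refine X.psi_der B (X.ham (X.a * X.ell B u)) (fun m v => X.psi B (m - 1) ⁅u, v⁆) (fun v => rfl)
    (fun v => rfl) (fun v => ?_) (fun m hm ih v => ?_) m v
  · rw [psi_two, ham_apply, map_smul, X.leib, X.Lu_a]
    simp [psi_one]
  · rw [X.der_rec B]
    simp only [ham_apply] at ih ⊢
    rw [ih (m - 2) (by omega)]
    simp only [ih (m - 1) (by omega), X.Lu_a, X.Lu_s, X.Lu_y B u hu]
    have h1 := X.psi_rec B (m - 1) ⁅u, v⁆
    have he : ⁅T.e, ⁅u, v⁆⁆ = ⁅u, ⁅T.e, v⁆⁆ := by
      rw [leibniz_lie, lie_e_one hu, zero_lie, zero_add]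
    have h2 : ∀ k, ⁅B.v k, ⁅u, v⁆⁆ = T.c ⁅B.v k, u⁆ • ⁅T.e, v⁆ + ⁅u, ⁅B.v k, v⁆⁆ := fun k => by
      rw [leibniz_lie]
      congr 1
      have h3 : ⁅T.h, ⁅B.v k, u⁆⁆ = (2 : ℂ) • ⁅B.v k, u⁆ := by
        rw [T.lie_wt (μ := 1) (ν := 1) (by rw [B.hv, one_smul]) (by rw [hu, one_smul])]
        norm_num
      rw [T.top_eq _ h3, smul_lie, map_smul, T.ce, smul_eq_mul, mul_one]
    simp only [h2, he, map_add, map_smul, mul_add, Finset.sum_add_distrib] at h1
    have h4 : ∑ k, X.y k * T.c ⁅B.v k, u⁆ • X.psi B (m - 1 - 1) ⁅T.e, v⁆ =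
        X.ell B u * X.psi B (m - 1 - 1) ⁅T.e, v⁆ := by
      rw [ell_apply, Finset.sum_mul]
      refine Finset.sum_congr rfl fun k _ => ?_
      rw [mul_smul_comm, smul_mul_assoc]
    have h5 : ∑ k, T.c ⁅u, B.u k⁆ • X.a * X.psi B (m - 1) ⁅B.v k, v⁆ =
        X.a * X.psi B (m - 1) ⁅u, v⁆ := by
      conv_rhs => rw [B.exp_v u hu]
      rw [sum_lie, map_sum, Finset.mul_sum]
      refine Finset.sum_congr rfl fun k _ => ?_
      rw [smul_lie, map_smul, smul_mul_assoc, mul_smul_comm]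
    rw [h4] at h1
    rw [h5]
    have c1 : ((m - 1 : ℕ) : ℂ) = (m : ℂ) - 1 := by
      push_cast [Nat.cast_sub (show 1 ≤ m by omega)]; ring
    rw [c1, Algebra.smul_def, show m - 1 - 2 = m - 2 - 1 by omega,
      show m - 1 - 1 = m - 2 by omega] at h1
    rw [Algebra.smul_def, show m - 1 - 1 = m - 2 by omega]
    simp only [map_sub, map_natCast, map_ofNat, map_one] at h1 ⊢
    simp only [mul_zero, neg_zero, zero_mul, zero_add]
    linear_combination -h1 + X.psi B (m - 1) ⁅u, v⁆ * X.ab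

theorem E_psi (m : ℕ) (v : g) : X.E (X.psi B m v) = 2 * X.psi B m v := by
  refine X.psi_der B X.E (fun m v => 2 * X.psi B m v) (fun v => by simp [psi_zero])
    (fun v => by simp [psi_one]) (fun v => ?_) (fun m hm ih v => ?_) m v
  · rw [psi_two, Derivation.map_smul, X.E.leibniz, X.Ea, smul_eq_mul, mul_smul_comm]
    congr 1
    ring
  · rw [X.der_rec B]
    simp only [ih (m - 2) (by omega), ih (m - 1) (by omega), X.Ea, X.Es, X.Ey]
    have h1 := X.psi_rec B m v
    have h2 : ∑ k, X.y k * (2 * X.psi B (m - 1) ⁅B.v k, v⁆) =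
        2 * ∑ k, X.y k * X.psi B (m - 1) ⁅B.v k, v⁆ := by
      rw [Finset.mul_sum]
      exact Finset.sum_congr rfl fun k _ => by ring
    rw [h2, ← mul_smul_comm, h1]
    linear_combination (-X.b * (X.s * X.psi B (m - 2) ⁅T.e, v⁆ +
      ∑ k, X.y k * X.psi B (m - 1) ⁅B.v k, v⁆)) * X.ab

theorem Lh_psi (m : ℕ) (v : g) :
    X.P (X.a * X.s) (X.psi B m v) = ((m : ℂ) - 4) • X.psi B m v := by
  refine X.psi_der B (X.ham (X.a * X.s)) (fun m v => ((m : ℂ) - 4) • X.psi B m v)
    (fun v => by simp [psi_zero]) (fun v => by simp [psi_one]) (fun v => ?_)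
    (fun m hm ih v => ?_) m v
  · rw [psi_two, ham_apply, map_smul, X.leib, X.Lh_a, smul_comm]
    congr 1
    have : (((2 : ℕ) : ℂ) - 4) = -2 := by norm_num
    rw [this, neg_smul, two_smul]
    ring
  · rw [X.der_rec B]
    simp only [ham_apply] at ih ⊢
    simp only [ih (m - 2) (by omega), ih (m - 1) (by omega), X.Lh_a, X.Lh_s, X.Lh_y]
    have h1 := X.psi_rec B m v
    have c2 : ((m - 2 : ℕ) : ℂ) = (m : ℂ) - 2 := by
      push_cast [Nat.cast_sub (show 2 ≤ m by omega)]; ring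
    have c1 : ((m - 1 : ℕ) : ℂ) = (m : ℂ) - 1 := by
      push_cast [Nat.cast_sub (show 1 ≤ m by omega)]; ring
    rw [smul_comm, h1, c2, c1]
    have h2 : ∑ k, X.y k * (((m : ℂ) - 1 - 4) • X.psi B (m - 1) ⁅B.v k, v⁆) =
        ((m : ℂ) - 5) • ∑ k, X.y k * X.psi B (m - 1) ⁅B.v k, v⁆ := by
      rw [Finset.smul_sum]
      refine Finset.sum_congr rfl fun k _ => ?_
      rw [mul_smul_comm]
      congr 1
      ring
    rw [h2]
    simp only [Algebra.smul_def, map_sub, map_natCast, map_ofNat, zero_mul,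
      Finset.sum_const_zero]
    linear_combination (X.b * (X.s * X.psi B (m - 2) ⁅T.e, v⁆ +
      ∑ k, X.y k * X.psi B (m - 1) ⁅B.v k, v⁆)) * X.ab

/-- the map from the Lie algebra to the Darboux ring -/
noncomputable def phi : g →ₗ[ℂ] A := ∑ m ∈ Finset.range 7, X.psi B m

theorem phi_apply (v : g) : X.phi B v = ∑ m ∈ Finset.range 7, X.psi B m v := by
  rw [phi, LinearMap.sum_apply]

theorem phi_apply' (v : g) : X.phi B v = ∑ m ∈ Finset.range 9, X.psi B m v := by
  rw [Finset.sum_range_succ, Finset.sum_range_succ, X.psi_big B (le_refl 7),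
    X.psi_big B (show 7 ≤ 8 by norm_num), add_zero, add_zero, phi_apply]

theorem Le_phi (v : g) : X.P (X.a * X.a) (X.phi B v) = X.phi B ⁅T.e, v⁆ := by
  rw [phi_apply', phi_apply, map_sum, Finset.sum_congr rfl fun m _ => X.Le_psi B m v]
  simp [Finset.sum_range_succ, psi_zero, psi_one]

theorem Lu_phi {u : g} (hu : ⁅T.h, u⁆ = u) (v : g) :
    X.P (X.a * X.ell B u) (X.phi B v) = X.phi B ⁅u, v⁆ := by
  rw [phi_apply', phi_apply, map_sum, Finset.sum_congr rfl fun m _ => X.Lu_psi B hu m v]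
  simp [Finset.sum_range_succ, psi_zero, X.psi_big B (le_refl 7)]

theorem E_phi (v : g) : X.E (X.phi B v) = 2 * X.phi B v := by
  rw [phi_apply, map_sum, Finset.sum_congr rfl fun m _ => X.E_psi B m v, Finset.mul_sum]

theorem Lh_phi {v : g} {μ : ℂ} (hv : ⁅T.h, v⁆ = μ • v) :
    X.P (X.a * X.s) (X.phi B v) = (-μ) • X.phi B v := by
  rw [phi_apply, map_sum, Finset.smul_sum]
  refine Finset.sum_congr rfl fun m _ => ?_
  rw [X.Lh_psi B]
  by_cases h : μ = 4 - m
  · rw [h]; congr 1; ring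
  · rw [X.psi_wt B m hv h, smul_zero, smul_zero]

theorem phi_e : X.phi B T.e = X.a * X.a := by
  rw [phi_apply, Finset.sum_eq_single 2]
  · rw [psi_two, T.ce, one_smul]
  · intro m _ hm
    refine X.psi_wt B m T.he ?_
    intro h
    apply hm
    have : (m : ℂ) = (2 : ℕ) := by push_cast; linear_combination h
    exact_mod_cast this
  · intro h; exact absurd (Finset.mem_range.2 (by norm_num)) h

theorem phi_u {u : g} (hu : ⁅T.h, u⁆ = u) : X.phi B u = X.a * X.ell B u := by
  have hu' : ⁅T.h, u⁆ = (1 : ℂ) • u := by rw [hu, one_smul]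
  rw [phi_apply, Finset.sum_eq_single 3]
  · have h1 := X.psi_rec B 3 u
    have h2 : ((3 : ℕ) : ℂ) - 2 = 1 := by norm_num
    rw [h2, one_smul] at h1
    rw [h1, ell_apply]
    simp only [show 3 - 2 = 1 by norm_num, show 3 - 1 = 2 by norm_num, psi_one, psi_two, mul_zero,
      zero_add, Finset.mul_sum]
    refine Finset.sum_congr rfl fun k _ => ?_
    simp only [Algebra.smul_def]
    linear_combination (X.a * X.y k * algebraMap ℂ A (T.c ⁅B.v k, u⁆)) * X.ab
  · intro m _ hm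
    refine X.psi_wt B m hu' ?_
    intro h
    apply hm
    have : (m : ℂ) = (3 : ℕ) := by push_cast; linear_combination h
    exact_mod_cast this
  · intro h; exact absurd (Finset.mem_range.2 (by norm_num)) h

theorem phi_uk (k : Fin n) : X.phi B (B.u k) = X.a * X.y k := by
  rw [X.phi_u B (B.hu k), ell_u]

theorem phi_h : X.phi B T.h = -(X.a * X.s) := by
  have hh : ⁅T.h, T.h⁆ = (0 : ℂ) • T.h := by rw [lie_self, zero_smul]
  have h0 : ∀ m, m ≠ 4 → X.psi B m T.h = 0 := fun m hm => by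
    refine X.psi_wt B m hh ?_
    intro h
    apply hm
    have : (m : ℂ) = (4 : ℕ) := by push_cast; linear_combination h
    exact_mod_cast this
  have h5 : ∀ k, X.psi B 3 (B.v k) = X.a * X.ell B (B.v k) := fun k => by
    rw [← X.phi_u B (B.hv k), phi_apply, Finset.sum_eq_single 3]
    · intro m _ hm
      refine X.psi_wt B m (μ := 1) (by rw [B.hv, one_smul]) ?_
      intro h
      apply hm
      have : (m : ℂ) = (3 : ℕ) := by push_cast; linear_combination h
      exact_mod_cast this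
    · intro h; exact absurd (Finset.mem_range.2 (by norm_num)) h
  rw [phi_apply, Finset.sum_eq_single 4]
  · have h1 := X.psi_rec B 4 T.h
    have h2 : ((4 : ℕ) : ℂ) - 2 = 2 := by norm_num
    have he : ⁅T.e, T.h⁆ = (-2 : ℂ) • T.e := by rw [← lie_skew, T.he, neg_smul]
    have hv : ∀ k, ⁅B.v k, T.h⁆ = -B.v k := fun k => by rw [← lie_skew, B.hv]
    rw [h2] at h1
    simp only [show 4 - 2 = 2 by norm_num, show 4 - 1 = 3 by norm_num, psi_two, he, map_smul,
      T.ce, hv, map_neg, h5] at h1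
    have h3 : ∑ k, X.y k * -(X.a * X.ell B (B.v k)) = 0 := by
      have : ∑ k, X.y k * -(X.a * X.ell B (B.v k)) =
          -X.a * ∑ k, X.y k * X.ell B (B.v k) := by
        rw [Finset.mul_sum]
        exact Finset.sum_congr rfl fun k _ => by ring
      rw [this, X.sum_y_ell B, mul_zero]
    rw [h3] at h1
    have h4 : (2 : ℂ) • (X.psi B 4 T.h + X.a * X.s) = 0 := by
      rw [smul_add, h1]
      simp only [Algebra.smul_def, map_ofNat, map_neg, map_one]
      linear_combination (-2 * X.a * X.s) * X.ab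
    have h6 := (smul_eq_zero.1 h4).resolve_left two_ne_zero
    linear_combination h6
  · intro m _ hm; exact h0 m hm
  · intro h; exact absurd (Finset.mem_range.2 (by norm_num)) h

/-- the defect of the homomorphism property vanishes -/
theorem phi_lie_aux (N p q : ℕ) (hN : p + q ≤ N) (x z : g)
    (hx : ⁅T.h, x⁆ = ((2 : ℂ) - p) • x) (hz : ⁅T.h, z⁆ = ((2 : ℂ) - q) • z) :
    X.P (X.phi B x) (X.phi B z) - X.phi B ⁅x, z⁆ = 0 := by
  induction N generalizing p q x z with
  | zero =>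
    obtain rfl : p = 0 := by omega
    have h1 : ⁅T.h, x⁆ = (2 : ℂ) • x := by rw [hx]; simp
    rw [T.top_eq x h1, map_smul, map_smul, LinearMap.smul_apply, phi_e, Le_phi, smul_lie, map_smul,
      sub_self]
  | succ N ih =>
    have hlow : ∀ (p : ℕ) (x z : g), p ≤ 1 → ⁅T.h, x⁆ = ((2 : ℂ) - p) • x →
        X.P (X.phi B x) (X.phi B z) - X.phi B ⁅x, z⁆ = 0 := by
      intro p x z hp hx
      rcases (show p = 0 ∨ p = 1 by omega) with rfl | rfl
      · have h1 : ⁅T.h, x⁆ = (2 : ℂ) • x := by rw [hx]; simp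
        rw [T.top_eq x h1, map_smul, map_smul, LinearMap.smul_apply, phi_e, Le_phi, smul_lie,
          map_smul, sub_self]
      · have h1 : ⁅T.h, x⁆ = x := by rw [hx]; norm_num
        rw [X.phi_u B h1, X.Lu_phi B h1, sub_self]
    rcases Nat.lt_or_ge 1 p with hp | hp
    · rcases Nat.lt_or_ge 1 q with hq | hq
      · -- the main case
        have cp2 : ((p - 2 : ℕ) : ℂ) = (p : ℂ) - 2 := by
          push_cast [Nat.cast_sub (show 2 ≤ p by omega)]; ring
        have cp1 : ((p - 1 : ℕ) : ℂ) = (p : ℂ) - 1 := by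
          push_cast [Nat.cast_sub (show 1 ≤ p by omega)]; ring
        have cq2 : ((q - 2 : ℕ) : ℂ) = (q : ℂ) - 2 := by
          push_cast [Nat.cast_sub (show 2 ≤ q by omega)]; ring
        have cq1 : ((q - 1 : ℕ) : ℂ) = (q : ℂ) - 1 := by
          push_cast [Nat.cast_sub (show 1 ≤ q by omega)]; ring
        have h1 := ih (p - 2) q (by omega) ⁅T.e, x⁆ z (by
          rw [T.lie_wt T.he hx, cp2]; congr 1; ring) hz
        have h2 := ih p (q - 2) (by omega) x ⁅T.e, z⁆ hx (by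
          rw [T.lie_wt T.he hz, cq2]; congr 1; ring)
        have h3 : ∀ k, X.P (X.phi B ⁅B.v k, x⁆) (X.phi B z) - X.phi B ⁅⁅B.v k, x⁆, z⁆ = 0 :=
          fun k => ih (p - 1) q (by omega) _ z (by
            rw [T.lie_wt (μ := 1) (by rw [B.hv, one_smul]) hx, cp1]; congr 1; ring) hz
        have h4 : ∀ k, X.P (X.phi B x) (X.phi B ⁅B.v k, z⁆) - X.phi B ⁅x, ⁅B.v k, z⁆⁆ = 0 :=
          fun k => ih p (q - 1) (by omega) x _ hx (by
            rw [T.lie_wt (μ := 1) (by rw [B.hv, one_smul]) hz, cq1]; congr 1; ring)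
        have h5 := X.euler B (X.P (X.phi B x) (X.phi B z) - X.phi B ⁅x, z⁆)
        have e1 : X.P (X.a * X.a) (X.P (X.phi B x) (X.phi B z) - X.phi B ⁅x, z⁆) = 0 := by
          rw [map_sub, X.jac, X.Le_phi, X.Le_phi, X.Le_phi, leibniz_lie, map_add]
          linear_combination h1 + h2
        have e2 : ∀ k, X.P (X.a * X.ell B (B.v k))
            (X.P (X.phi B x) (X.phi B z) - X.phi B ⁅x, z⁆) = 0 := fun k => by
          rw [map_sub, X.jac, X.Lu_phi B (B.hv k), X.Lu_phi B (B.hv k), X.Lu_phi B (B.hv k),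
            leibniz_lie, map_add]
          linear_combination h3 k + h4 k
        have e3 : X.E (X.P (X.phi B x) (X.phi B z) - X.phi B ⁅x, z⁆) =
            2 * (X.P (X.phi B x) (X.phi B z) - X.phi B ⁅x, z⁆) := by
          rw [map_sub, X.E_P, X.E_phi, X.E_phi, X.E_phi]
          have : (2 : A) = algebraMap ℂ A 2 := by rw [map_ofNat]
          rw [this, ← Algebra.smul_def, ← Algebra.smul_def, map_smul, map_smul,
            LinearMap.smul_apply]
          simp only [Algebra.smul_def, map_ofNat]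
          ring
        have e4 : X.P (X.a * X.s) (X.P (X.phi B x) (X.phi B z) - X.phi B ⁅x, z⁆) =
            ((p : ℂ) + q - 4) • (X.P (X.phi B x) (X.phi B z) - X.phi B ⁅x, z⁆) := by
          rw [map_sub, X.jac, X.Lh_phi B hx, X.Lh_phi B hz, X.Lh_phi B (T.lie_wt hx hz), map_smul,
            map_smul, LinearMap.smul_apply]
          simp only [Algebra.smul_def, map_sub, map_add, map_neg, map_natCast, map_ofNat]
          ring
        rw [e3, e4, e1] at h5
        simp only [e2, mul_zero, Finset.sum_const_zero, add_zero] at h5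
        have h6 : ((p : ℂ) + q - 2) • (X.P (X.phi B x) (X.phi B z) - X.phi B ⁅x, z⁆) = 0 := by
          simp only [Algebra.smul_def, map_sub, map_add, map_natCast, map_ofNat] at h5 ⊢
          linear_combination h5
        refine (smul_eq_zero.1 h6).resolve_left ?_
        intro h7
        have h8 : ((p + q : ℕ) : ℂ) = (2 : ℕ) := by push_cast; linear_combination h7
        have h9 : p + q = 2 := by exact_mod_cast h8
        omega
      · have h1 := hlow q z x hq hz
        rw [X.skew, ← lie_skew, map_neg]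
        linear_combination -h1
    · exact hlow p x z hp hx

theorem phi_lie (x z : g) : X.phi B ⁅x, z⁆ = X.P (X.phi B x) (X.phi B z) := by
  obtain ⟨w, hw, hwe⟩ := T.dec x
  obtain ⟨t, ht, hte⟩ := T.dec z
  have hc : ∀ i : Fin 5, ((i : ℕ) : ℂ) - 2 = 2 - ((4 - (i : ℕ) : ℕ) : ℂ) := fun i => by
    rw [Nat.cast_sub (by omega)]; push_cast; ring
  have key : ∀ i j, X.phi B ⁅w i, t j⁆ = X.P (X.phi B (w i)) (X.phi B (t j)) := fun i j => by
    have h := X.phi_lie_aux B _ _ _ le_rfl (w i) (t j) (by rw [hwe i, hc i])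
      (by rw [hte j, hc j])
    linear_combination -h
  rw [hw, ht, sum_lie, map_sum, map_sum, map_sum, LinearMap.sum_apply]
  refine Finset.sum_congr rfl fun i _ => ?_
  rw [lie_sum, map_sum, map_sum, map_sum]
  exact Finset.sum_congr rfl fun j _ => key i j

end Dx

end Vale.Agent.P292.X442
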