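import Vale.Agent.P292.AdjVar

/-! Interface of the construction of the contact Fano manifold of a simple Lie algebra. -/

namespace Vale.Agent.P292.X442

open LieAlgebra

universe u

/-- a contact grading triple of a Lie algebra -/
structure Ct (g : Type*) [LieRing g] [LieAlgebra ℂ g] where
  e : g
  h : g
  f : g
  c : g →ₗ[ℂ] ℂ
  he : ⁅h, e⁆ = (2 : ℂ) • e
  hf : ⁅h, f⁆ = (-2 : ℂ) • f
  ef : ⁅e, f⁆ = h
  ce : c e = 1
  c_zero : ∀ (v : g) (μ : ℂ), ⁅h, v⁆ = μ • v → μ ≠ 2 → c v = 0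
  top_eq : ∀ v : g, ⁅h, v⁆ = (2 : ℂ) • v → v = c v • e
  dec : ∀ v : g, ∃ w : Fin 5 → g, v = ∑ i, w i ∧ ∀ i : Fin 5, ⁅h, w i⁆ = (((i : ℕ) : ℂ) - 2) • w i
  nondeg : ∀ u : g, ⁅h, u⁆ = u → (∀ v : g, ⁅h, v⁆ = v → c ⁅u, v⁆ = 0) → u = 0

/-- Block E1: every simple Lie algebra has a contact grading triple, and the piece of degree one
is nonzero unless the dimension is three. -/
def StCt : Prop := ∀ (g : Type u) [LieRing g] [LieAlgebra ℂ g] [FiniteDimensional ℂ g]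
  [LieAlgebra.IsSimple ℂ g], ∃ T : Ct g, Module.finrank ℂ g ≠ 3 → ∃ u : g, u ≠ 0 ∧ ⁅T.h, u⁆ = u

/-- a Darboux ring: generated by `a, b = 1/a, s, y k` with a constant Poisson bracket -/
structure Dx (A : Type*) [CommRing A] [Algebra ℂ A] (ι : Type*) (w : ι → ι → ℂ) where
  a : A
  b : A
  s : A
  y : ι → A
  P : A →ₗ[ℂ] A →ₗ[ℂ] A
  E : Derivation ℂ A A
  σ : A →ₐ[ℂ] A
  ab : a * b = 1
  gen : Algebra.adjoin ℂ ({a, b, s} ∪ Set.range y) = ⊤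
  alt : ∀ x, P x x = 0
  leib : ∀ x y z, P x (y * z) = P x y * z + y * P x z
  jac : ∀ x y z, P x (P y z) = P (P x y) z + P y (P x z)
  as : P a s = 1
  ay : ∀ k, P a (y k) = 0
  sy : ∀ k, P s (y k) = 0
  yy : ∀ k l, P (y k) (y l) = algebraMap ℂ A (w k l)
  Ea : E a = a
  Es : E s = s
  Ey : ∀ k, E (y k) = y k
  σa : σ a = -a
  σs : σ s = -s
  σy : ∀ k, σ (y k) = -y k

/-- Block E2: Darboux rings exist, and they are normal domains of the expected dimension. -/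
def StDx : Prop := ∀ (n : ℕ) (w : Fin n → Fin n → ℂ), (∀ k l, w k l = -w l k) →
  ∃ (A : Type) (_ : CommRing A) (_ : Algebra ℂ A), IsDomain A ∧ IsIntegrallyClosed A ∧
    ((n + 2 : ℕ) : Cardinal) ≤ Algebra.trdeg ℂ A ∧ Nonempty (Dx A (Fin n) w)

/-- Block X: the exponential of a locally nilpotent derivation of an algebra with a bracket. -/
def StExp : Prop := ∀ (R : Type) [CommRing R] [Algebra ℂ R] (P : R →ₗ[ℂ] R →ₗ[ℂ] R)
  (D : Derivation ℂ R R), (∀ x y, D (P x y) = P (D x) y + P x (D y)) →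
  (∀ r, ∃ n, (⇑D)^[n] r = 0) →
  ∃ ψ : R ≃ₐ[ℂ] R, (∀ x y, ψ (P x y) = P (ψ x) (ψ y)) ∧
    ∀ (r : R) (n : ℕ), (⇑D)^[n] r = 0 →
      ψ r = ∑ l ∈ Finset.range n, ((l.factorial : ℂ)⁻¹) • (⇑D)^[l] r

end Vale.Agent.P292.X442
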