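import Vale.Agent.P292.X442.Dx

/-! Second interface: monomials in a Darboux ring. -/

namespace Vale.Agent.P292.X442

namespace Dx

variable {A : Type*} [CommRing A] [Algebra ℂ A] {ι : Type*} {w : ι → ι → ℂ} (X : Dx A ι w)

/-- the elements of degree `d` (for the Euler derivation) and weight `m` (for the Hamiltonian
`-a s`) -/
def V (d m : ℤ) : Submodule ℂ A where
  carrier := {r | X.E r = (d : ℂ) • r ∧ X.P (X.a * X.s) r = (-(m : ℂ)) • r}
  zero_mem' := by simp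
  add_mem' := fun {x y} hx hy => by
    refine ⟨?_, ?_⟩
    · rw [map_add, hx.1, hy.1, smul_add]
    · rw [map_add, hx.2, hy.2, smul_add]
  smul_mem' := fun c x hx => by
    refine ⟨?_, ?_⟩
    · rw [Derivation.map_smul, hx.1, smul_comm]
    · rw [map_smul, hx.2, smul_comm]

theorem mem_V {d m : ℤ} {r : A} : r ∈ X.V d m ↔
    X.E r = (d : ℂ) • r ∧ X.P (X.a * X.s) r = (-(m : ℂ)) • r := Iff.rfl

end Dx

/-- Block M: `A` is spanned by the monomials `a ^ i s ^ j y ^ α`, `i : ℤ`, of degree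
`i + j + |α|` and weight `i - j`. -/
def StMon : Prop := ∀ (n : ℕ) (w : Fin n → Fin n → ℂ) (A : Type) [CommRing A] [Algebra ℂ A]
  [IsDomain A] (X : Dx A (Fin n) w),
  (⨆ p : ℤ × ℤ, X.V p.1 p.2 = ⊤) ∧
  (∀ d m : ℤ, FiniteDimensional ℂ (X.V d m)) ∧
  (∀ d m : ℤ, d < m → X.V d m = ⊥) ∧
  (∀ k : ℕ, X.V k k = Submodule.span ℂ {X.a ^ k}) ∧
  (∀ d m : ℤ, ∀ r ∈ X.V d m, X.σ r = ((-1 : ℂ) ^ d) • r) ∧
  (∀ r : A, X.σ r = r → ∃ N : ℕ, X.a ^ (2 * N) * r ∈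
    Algebra.adjoin ℂ ({X.a ^ 2, X.a * X.s} ∪ Set.range fun k => X.a * X.y k))

end Vale.Agent.P292.X442
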