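import Vale.Agent.P292.X442.Ring
import Vale.Agent.P292.X442.Exp192

/-! The key statement: the elements of degree `2 k` of the Darboux ring on which `f` is
nilpotent are the polynomials of degree `k` in the image of the Lie algebra. -/

namespace Vale.Agent.P292.X442

open LieAlgebra

universe u

variable {g : Type u} [LieRing g] [LieAlgebra ℂ g]
variable {T : Ct g} {n : ℕ} (B : Bs T n) {A : Type} [CommRing A] [Algebra ℂ A]
  (X : Dx A (Fin n) fun k l => T.c ⁅B.u k, B.u l⁆)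

namespace Dx

theorem E_phi' (v : g) : X.E (X.phi B v) = (2 : ℂ) • X.phi B v := by
  rw [X.E_phi, Algebra.smul_def, map_ofNat]

theorem V_P {d m d' m' : ℤ} {q r : A} (hq : q ∈ X.V d m) (hr : r ∈ X.V d' m') :
    X.P q r ∈ X.V (d + d' - 2) (m + m') := by
  refine ⟨?_, ?_⟩
  · rw [X.E_P, hq.1, hr.1, map_smul, map_smul, LinearMap.smul_apply]
    have : (2 : A) = algebraMap ℂ A 2 := by rw [map_ofNat]
    rw [this, ← Algebra.smul_def]
    push_cast
    module
  · rw [X.jac, hq.2, hr.2, map_smul, map_smul, LinearMap.smul_apply]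
    push_cast
    module

theorem phi_V {x : g} {ν : ℤ} (hx : ⁅T.h, x⁆ = (ν : ℂ) • x) : X.phi B x ∈ X.V 2 ν :=
  ⟨by rw [X.E_phi' B]; norm_cast, X.Lh_phi B hx⟩

theorem V_L {x : g} {ν : ℤ} (hx : ⁅T.h, x⁆ = (ν : ℂ) • x) {d m : ℤ} {r : A}
    (hr : r ∈ X.V d m) : X.L B x r ∈ X.V d (m + ν) := by
  have h := X.V_P B (X.phi_V B hx) hr
  rw [show 2 + d - 2 = d by ring, add_comm ν m] at h
  exact h

theorem V_iter {x : g} {ν : ℤ} (hx : ⁅T.h, x⁆ = (ν : ℂ) • x) {d m : ℤ} {r : A}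
    (hr : r ∈ X.V d m) (N : ℕ) : (⇑(X.L B x))^[N] r ∈ X.V d (m + N * ν) := by
  induction N with
  | zero => simpa using hr
  | succ N ih =>
    rw [Function.iterate_succ_apply']
    have h := X.V_L B hx ih
    rw [show m + (N : ℤ) * ν + ν = m + ((N + 1 : ℕ) : ℤ) * ν by push_cast; ring] at h
    exact h

/-- homogeneous elements with sum zero are zero -/
theorem vanish (s : Finset (ℤ × ℤ)) (x : ℤ × ℤ → A) (hx : ∀ p, x p ∈ X.V p.1 p.2)
    (hsum : ∑ p ∈ s, x p = 0) : ∀ p ∈ s, x p = 0 := by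
  refine eig_sum ((X.E : A →ₗ[ℂ] A) - Complex.I • X.P (X.a * X.s)) s
    (fun p => (p.1 : ℂ) + Complex.I * (p.2 : ℂ)) ?_ x ?_ hsum
  · intro p _ q _ h
    have h1 := congrArg Complex.re h
    have h2 := congrArg Complex.im h
    simp only [Complex.add_re, Complex.add_im, Complex.mul_re, Complex.mul_im, Complex.I_re,
      Complex.I_im, Complex.intCast_re, Complex.intCast_im, zero_mul, one_mul, sub_zero,
      zero_add, add_zero] at h1 h2
    exact Prod.ext (by exact_mod_cast h1) (by exact_mod_cast h2)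
  · intro p _
    rw [LinearMap.sub_apply, LinearMap.smul_apply, (hx p).2]
    change X.E (x p) - _ = _
    rw [(hx p).1]
    module

theorem T_e_wt : ⁅T.h, T.e⁆ = ((2 : ℤ) : ℂ) • T.e := by rw [T.he]; norm_cast

theorem T_f_wt : ⁅T.h, T.f⁆ = ((-2 : ℤ) : ℂ) • T.f := by rw [T.hf]; norm_cast

theorem FN_P {q r : A} (hq : X.FN B q) (hr : X.FN B r) : X.FN B (X.P q r) := by
  obtain ⟨i, hi⟩ := hq
  obtain ⟨j, hj⟩ := hr
  have hit : ∀ (n : ℕ) (r : A), ((X.L B T.f : A →ₗ[ℂ] A) ^ n) r = (⇑(X.L B T.f))^[n] r := by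
    intro n r
    rw [Module.End.pow_apply]
    rfl
  refine ⟨2 * max i j, ?_⟩
  rw [← hit]
  refine E192.bil_zero (B := X.P) (fun x y => ?_) ?_ ?_
  · change X.P (X.phi B T.f) (X.P x y) = _
    rw [X.jac]
    rfl
  · rw [hit]; exact iterate_zero_of_le _ (le_max_left i j) hi
  · rw [hit]; exact iterate_zero_of_le _ (le_max_right i j) hj

theorem FN_of_mem {r : A} (hr : r ∈ X.RR B) : X.FN B r :=
  X.iter_nil B ⟨5, T.ad_nil (by norm_num) T_f_wt⟩ hr

/-- the commutation relation of `f` with a power of `e` -/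
theorem f_e_iter {d m : ℤ} {z : A} (hz : z ∈ X.V d m) (hf : X.L B T.f z = 0) (N : ℕ) :
    X.L B T.f ((⇑(X.L B T.e))^[N + 1] z) =
      (-(((N : ℂ) + 1) * (m + N))) • (⇑(X.L B T.e))^[N] z := by
  have hcomm : ∀ r : A, X.L B T.f (X.L B T.e r) = X.L B T.e (X.L B T.f r) -
      X.L B T.h r := by
    intro r
    simp only [L_apply]
    rw [X.jac, ← X.phi_lie, ← lie_skew, T.ef, map_neg, map_neg, LinearMap.neg_apply]
    ring
  have hh : ∀ (i : ℕ), X.L B T.h ((⇑(X.L B T.e))^[i] z) =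
      ((m : ℂ) + 2 * i) • (⇑(X.L B T.e))^[i] z := by
    intro i
    have h1 := (X.V_iter B T_e_wt hz i).2
    rw [L_apply, X.phi_h, map_neg, LinearMap.neg_apply, h1]
    push_cast
    module
  induction N with
  | zero =>
    rw [Function.iterate_succ_apply', Function.iterate_zero_apply, hcomm, hf, map_zero]
    have h2 := hh 0
    rw [Function.iterate_zero_apply] at h2
    rw [h2]
    push_cast
    module
  | succ N ih =>
    rw [Function.iterate_succ_apply', hcomm, ih, hh, Derivation.map_smul,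
      ← Function.iterate_succ_apply' (⇑(X.L B T.e)) N z]
    push_cast
    module

/-- the weights of elements on which `f` is nilpotent are bounded below -/
theorem wt_bound (hbot : ∀ d m : ℤ, d < m → X.V d m = ⊥) {d m : ℤ} {r : A}
    (hr : r ∈ X.V d m) (hr0 : r ≠ 0) (hf : X.FN B r) : -d ≤ m := by
  classical
  set j := Nat.find hf with hj
  have hj1 : (⇑(X.L B T.f))^[j] r = 0 := Nat.find_spec hf
  have hj0 : 0 < j := by
    rw [Nat.pos_iff_ne_zero]
    intro h
    rw [h, Function.iterate_zero_apply] at hj1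
    exact hr0 hj1
  obtain ⟨i, hi⟩ : ∃ i, j = i + 1 := ⟨j - 1, by omega⟩
  have hz0 : (⇑(X.L B T.f))^[i] r ≠ 0 := Nat.find_min hf (by omega)
  have hz1 : X.L B T.f ((⇑(X.L B T.f))^[i] r) = 0 := by
    rw [← Function.iterate_succ_apply' (⇑(X.L B T.f)) i r, Nat.succ_eq_add_one, ← hi]
    exact hj1
  have hzV := X.V_iter B T_f_wt hr i
  set z := (⇑(X.L B T.f))^[i] r with hzdef
  set m' : ℤ := m + i * (-2) with hm'
  have hm'le : m' ≤ m := by omega
  have he : ∃ N : ℕ, (⇑(X.L B T.e))^[N] z = 0 := by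
    refine ⟨(d - m' + 1).toNat, ?_⟩
    have h1 := X.V_iter B T_e_wt hzV (d - m' + 1).toNat
    rw [hbot] at h1
    · exact (Submodule.mem_bot ℂ).1 h1
    · omega
  set a := Nat.find he with ha
  have ha1 : (⇑(X.L B T.e))^[a] z = 0 := Nat.find_spec he
  have ha0 : 0 < a := by
    rw [Nat.pos_iff_ne_zero]
    intro h
    rw [h, Function.iterate_zero_apply] at ha1
    exact hz0 ha1
  obtain ⟨N, hN⟩ : ∃ N, a = N + 1 := ⟨a - 1, by omega⟩
  have hN0 : (⇑(X.L B T.e))^[N] z ≠ 0 := Nat.find_min he (by omega)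
  have h1 := X.f_e_iter B hzV hz1 N
  rw [← hN, ha1, map_zero] at h1
  have h2 := (smul_eq_zero.1 h1.symm).resolve_right hN0
  rw [neg_eq_zero, mul_eq_zero] at h2
  have h3 : (m' : ℂ) + N = 0 := h2.resolve_left (by
    have : ((N + 1 : ℕ) : ℂ) ≠ 0 := Nat.cast_ne_zero.2 (Nat.succ_ne_zero N)
    push_cast at this
    exact this)
  have h4 : m' + N = 0 := by exact_mod_cast h3
  have h5 := X.V_iter B T_e_wt hzV N
  by_contra hlt
  push Not at hlt
  rw [hbot] at h5
  · exact hN0 ((Submodule.mem_bot ℂ).1 h5)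
  · omega

/-- the piece of degree `2 k` of the elements on which `f` is nilpotent -/
def F (k : ℤ) : Submodule ℂ A where
  carrier := {r | X.E r = (2 * (k : ℂ)) • r ∧ X.FN B r}
  zero_mem' := ⟨by simp, ⟨0, rfl⟩⟩
  add_mem' := fun {x y} hx hy => by
    refine ⟨by rw [map_add, hx.1, hy.1, smul_add], ?_⟩
    obtain ⟨i, hi⟩ := hx.2
    obtain ⟨j, hj⟩ := hy.2
    refine ⟨max i j, ?_⟩
    rw [iterate_map_add, iterate_zero_of_le _ (le_max_left i j) hi,
      iterate_zero_of_le _ (le_max_right i j) hj, add_zero]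
  smul_mem' := fun c x hx => by
    refine ⟨by rw [Derivation.map_smul, hx.1, smul_comm], ?_⟩
    obtain ⟨i, hi⟩ := hx.2
    refine ⟨i, ?_⟩
    have : ∀ i : ℕ, (⇑(X.L B T.f))^[i] (c • x) = c • (⇑(X.L B T.f))^[i] x := by
      intro i
      induction i with
      | zero => rfl
      | succ i ih => rw [Function.iterate_succ_apply', ih, Derivation.map_smul,
          Function.iterate_succ_apply']
    rw [this, hi, smul_zero]

theorem mem_F {k : ℤ} {r : A} : r ∈ X.F B k ↔ X.E r = (2 * (k : ℂ)) • r ∧ X.FN B r := Iff.rfl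

theorem F_L (x : g) {k : ℤ} {r : A} (hr : r ∈ X.F B k) : X.L B x r ∈ X.F B k := by
  refine ⟨?_, X.FN_P B (X.FN_of_mem B (X.phi_mem B x)) hr.2⟩
  rw [L_apply, X.E_P, X.E_phi' B, hr.1, map_smul, map_smul, LinearMap.smul_apply]
  have : (2 : A) = algebraMap ℂ A 2 := by rw [map_ofNat]
  rw [this, ← Algebra.smul_def]
  module

noncomputable instance (k : ℤ) : LieRingModule g (X.F B k) where
  bracket x r := ⟨X.L B x r, X.F_L B x r.2⟩
  add_lie x y r := Subtype.ext (by
    change X.P (X.phi B (x + y)) (r : A) = X.P (X.phi B x) r + X.P (X.phi B y) r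
    rw [map_add, map_add, LinearMap.add_apply])
  lie_add x r q := Subtype.ext (by
    change X.P (X.phi B x) ((r : A) + q) = X.P (X.phi B x) r + X.P (X.phi B x) q
    rw [map_add])
  leibniz_lie x y r := Subtype.ext (by
    change X.P (X.phi B x) (X.P (X.phi B y) (r : A)) =
      X.P (X.phi B ⁅x, y⁆) r + X.P (X.phi B y) (X.P (X.phi B x) r)
    rw [X.phi_lie, X.jac])

theorem coe_lie_F {k : ℤ} (x : g) (r : X.F B k) :
    ((⁅x, r⁆ : X.F B k) : A) = X.P (X.phi B x) r := rfl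

instance (k : ℤ) : LieModule ℂ g (X.F B k) where
  smul_lie c x r := Subtype.ext (by
    change X.P (X.phi B (c • x)) (r : A) = c • X.P (X.phi B x) r
    rw [map_smul, map_smul, LinearMap.smul_apply])
  lie_smul c x r := Subtype.ext (by
    change X.P (X.phi B x) (c • (r : A)) = c • X.P (X.phi B x) r
    rw [map_smul])

theorem pow_L (x : g) (k : ℕ) {r : A} (hr : r ∈ (LinearMap.range (X.phi B)) ^ k) :
    X.P (X.phi B x) r ∈ (LinearMap.range (X.phi B)) ^ k := by
  induction k generalizing r with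
  | zero =>
    rw [pow_zero, Submodule.mem_one] at hr
    obtain ⟨c, rfl⟩ := hr
    rw [X.P_alg]
    exact zero_mem _
  | succ k ih =>
    rw [pow_succ] at hr
    refine Submodule.mul_induction_on hr ?_ ?_
    · rintro a ha _ ⟨b, rfl⟩
      rw [X.leib, ← X.phi_lie, pow_succ]
      exact add_mem (Submodule.mul_mem_mul (ih ha) ⟨b, rfl⟩)
        (Submodule.mul_mem_mul ha ⟨_, rfl⟩)
    · intro a b ha hb
      rw [map_add]
      exact add_mem ha hb

theorem pow_E (k : ℕ) {r : A} (hr : r ∈ (LinearMap.range (X.phi B)) ^ k) :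
    X.E r = (2 * (k : ℂ)) • r := by
  induction k generalizing r with
  | zero =>
    rw [pow_zero, Submodule.mem_one] at hr
    obtain ⟨c, rfl⟩ := hr
    rw [Derivation.map_algebraMap]
    simp
  | succ k ih =>
    rw [pow_succ] at hr
    refine Submodule.mul_induction_on hr ?_ ?_
    · rintro a ha _ ⟨b, rfl⟩
      rw [Derivation.leibniz, ih ha, X.E_phi' B, smul_eq_mul, smul_eq_mul, mul_smul_comm,
        mul_smul_comm, mul_comm (X.phi B b)]
      push_cast
      module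
    · intro a b ha hb
      rw [map_add, ha, hb, smul_add]

theorem pow_RR (k : ℕ) {r : A} (hr : r ∈ (LinearMap.range (X.phi B)) ^ k) : r ∈ X.RR B := by
  induction k generalizing r with
  | zero =>
    rw [pow_zero, Submodule.mem_one] at hr
    obtain ⟨c, rfl⟩ := hr
    exact (X.RR B).algebraMap_mem c
  | succ k ih =>
    rw [pow_succ] at hr
    refine Submodule.mul_induction_on hr ?_ ?_
    · rintro a ha _ ⟨b, rfl⟩
      exact mul_mem (ih ha) (X.phi_mem B b)
    · intro a b ha hb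
      exact add_mem ha hb

/-- the submodule of the polynomials of degree `k` -/
noncomputable def NN (k : ℕ) : LieSubmodule ℂ g (X.F B (k : ℤ)) where
  carrier := {r | (r : A) ∈ (LinearMap.range (X.phi B)) ^ k}
  zero_mem' := zero_mem ((LinearMap.range (X.phi B)) ^ k)
  add_mem' := fun hx hy => add_mem (S := Submodule ℂ A) hx hy
  smul_mem' := fun c _ hx => Submodule.smul_mem _ c hx
  lie_mem := fun {x _} hr => X.pow_L B x k hr

/-- a submodule stable under `h` contains a weight vector -/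
theorem exists_wt (N : Submodule ℂ A) {d : ℤ} (hE : ∀ r ∈ N, X.E r = (d : ℂ) • r)
    (hN : ∀ r ∈ N, X.P (X.a * X.s) r ∈ N) (s : Finset ℤ) (x : ℤ → A)
    (hx : ∀ m, X.P (X.a * X.s) (x m) = (-(m : ℂ)) • x m) (z : A) (hz : z ∈ N) (hz0 : z ≠ 0)
    (hs : z = ∑ m ∈ s, x m) : ∃ m : ℤ, ∃ y ∈ N, y ∈ X.V d m ∧ y ≠ 0 := by
  classical
  induction s using Finset.induction_on generalizing x z with
  | empty => exact absurd hs hz0
  | insert m s hm ih =>
    by_cases h : X.P (X.a * X.s) z + (m : ℂ) • z = 0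
    · refine ⟨m, z, hz, ⟨hE z hz, ?_⟩, hz0⟩
      rw [neg_smul]
      exact eq_neg_of_add_eq_zero_left h
    · refine ih (fun j => ((m : ℂ) - j) • x j) (fun j => ?_) _
        (add_mem (hN z hz) (N.smul_mem _ hz)) h ?_
      · simp only [map_smul, hx j]
        rw [smul_comm]
      · rw [hs, Finset.sum_insert hm, map_add, map_sum, hx m, smul_add, Finset.smul_sum]
        simp only [hx, sub_smul, Finset.sum_sub_distrib, neg_smul, Finset.sum_neg_distrib]
        abel

theorem exists_comp (hmon : ⨆ p : ℤ × ℤ, X.V p.1 p.2 = ⊤) (r : A) :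
    ∃ (s : Finset (ℤ × ℤ)) (x : ℤ × ℤ → A), (∀ p, x p ∈ X.V p.1 p.2) ∧ r = ∑ p ∈ s, x p := by
  have h1 : r ∈ ⨆ p : ℤ × ℤ, X.V p.1 p.2 := by rw [hmon]; exact Submodule.mem_top
  obtain ⟨f, hf, hs⟩ := (Submodule.mem_iSup_iff_exists_finsupp _ _).1 h1
  exact ⟨f.support, f, hf, hs.symm⟩

/-- the components of an element on which `f` is nilpotent -/
theorem comp_FN (s : Finset (ℤ × ℤ)) (x : ℤ × ℤ → A) (hx : ∀ p, x p ∈ X.V p.1 p.2)
    (hf : X.FN B (∑ p ∈ s, x p)) : ∀ p ∈ s, X.FN B (x p) := by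
  classical
  obtain ⟨N, hN⟩ := hf
  intro p hp
  refine ⟨N, ?_⟩
  rw [iterate_sum] at hN
  have h1 := X.vanish B (s.image fun p => (p.1, p.2 + N * (-2)))
    (fun q => (⇑(X.L B T.f))^[N] (x (q.1, q.2 - N * (-2)))) (fun q => ?_) ?_
    (p.1, p.2 + N * (-2)) (Finset.mem_image_of_mem _ hp)
  · simpa using h1
  · have h2 := X.V_iter B T_f_wt (hx (q.1, q.2 - N * (-2))) N
    rw [show q.2 - (N : ℤ) * (-2) + (N : ℤ) * (-2) = q.2 by ring] at h2
    exact h2
  · rw [Finset.sum_image]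
    · simpa using hN
    · intro a _ b _ hab
      have h3 := congrArg Prod.fst hab
      have h4 := congrArg Prod.snd hab
      simp only at h3 h4
      exact Prod.ext h3 (by omega)

/-- the degrees of the components of an eigenvector of the Euler derivation -/
theorem comp_E (s : Finset (ℤ × ℤ)) (x : ℤ × ℤ → A) (hx : ∀ p, x p ∈ X.V p.1 p.2) {d : ℤ}
    (hE : X.E (∑ p ∈ s, x p) = (d : ℂ) • ∑ p ∈ s, x p) : ∀ p ∈ s, x p ≠ 0 → p.1 = d := by
  intro p hp hp0
  have h1 := X.vanish B s (fun p => ((p.1 : ℂ) - d) • x p)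
    (fun p => Submodule.smul_mem _ _ (hx p)) ?_ p hp
  · have h2 := (smul_eq_zero.1 h1).resolve_right hp0
    have h3 : (p.1 : ℂ) = d := by linear_combination h2
    exact_mod_cast h3
  · simp only [sub_smul, Finset.sum_sub_distrib, ← Finset.smul_sum]
    rw [← hE, map_sum, sub_eq_zero]
    exact Finset.sum_congr rfl fun p _ => ((hx p).1).symm

/-- finite dimensionality -/
theorem F_le (hmon : ⨆ p : ℤ × ℤ, X.V p.1 p.2 = ⊤) (hbot : ∀ d m : ℤ, d < m → X.V d m = ⊥)
    (k : ℤ) : X.F B k ≤ ⨆ m : Finset.Icc (-(2 * k)) (2 * k), X.V (2 * k) m := by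
  classical
  intro r hr
  obtain ⟨s, x, hx, rfl⟩ := X.exists_comp B hmon r
  have hE := X.comp_E B s x hx (d := 2 * k) (by rw [hr.1]; push_cast; rfl)
  have hf := X.comp_FN B s x hx hr.2
  refine Submodule.sum_mem _ fun p hp => ?_
  by_cases hp0 : x p = 0
  · rw [hp0]; exact zero_mem _
  · have h1 := hE p hp hp0
    have h2 := X.wt_bound B hbot (hx p) hp0 (hf p hp)
    have h3 : p.2 ≤ p.1 := by
      by_contra h
      push Not at h
      have h4 := hx p
      rw [hbot _ _ h] at h4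
      exact hp0 ((Submodule.mem_bot ℂ).1 h4)
    refine Submodule.mem_iSup_of_mem ⟨p.2, ?_⟩ ?_
    · rw [Finset.mem_Icc]
      exact ⟨by omega, by omega⟩
    · have h4 := hx p
      rw [h1] at h4
      exact h4

theorem NN_le (k : ℕ) {r : A} (hr : r ∈ (LinearMap.range (X.phi B)) ^ k) :
    r ∈ X.F B (k : ℤ) :=
  ⟨by rw [X.pow_E B k hr]; norm_cast, X.FN_of_mem B (X.pow_RR B k hr)⟩

theorem F_eq [FiniteDimensional ℂ g] [LieAlgebra.IsSimple ℂ g] [IsDomain A]
    (hmon : ⨆ p : ℤ × ℤ, X.V p.1 p.2 = ⊤) (hbot : ∀ d m : ℤ, d < m → X.V d m = ⊥)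
    (hfin : ∀ d m : ℤ, FiniteDimensional ℂ (X.V d m))
    (htop : ∀ k : ℕ, X.V k k = Submodule.span ℂ {X.a ^ k}) (k : ℕ) {r : A}
    (hr : r ∈ X.F B (k : ℤ)) : r ∈ (LinearMap.range (X.phi B)) ^ k := by
  classical
  have hfd : FiniteDimensional ℂ (X.F B (k : ℤ)) :=
    Submodule.finiteDimensional_of_le (X.F_le B hmon hbot k)
  obtain ⟨N', hN'⟩ := exists_isCompl_lieSubmodule g (X.F B (k : ℤ)) (X.NN B k)
  by_cases hbotN : N' = ⊥
  · have h1 : X.NN B k = ⊤ := by
      have := hN'.sup_eq_top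
      rwa [hbotN, sup_bot_eq] at this
    have h2 : (⟨r, hr⟩ : X.F B (k : ℤ)) ∈ X.NN B k := by rw [h1]; exact LieSubmodule.mem_top _
    exact h2
  exfalso
  obtain ⟨z, hzN, hz0⟩ : ∃ z ∈ N', z ≠ 0 := by
    by_contra h
    push Not at h
    exact hbotN ((LieSubmodule.eq_bot_iff N').2 h)
  let N : Submodule ℂ A := (N' : Submodule ℂ (X.F B (k : ℤ))).map (X.F B (k : ℤ)).subtype
  have hmemN : ∀ y : X.F B (k : ℤ), (y : A) ∈ N ↔ y ∈ N' := by
    intro y
    constructor
    · rintro ⟨y', hy', he⟩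
      have : y' = y := Subtype.ext he
      rw [← this]
      exact hy'
    · intro hy
      exact ⟨y, hy, rfl⟩
  have hNF : ∀ y ∈ N, ∃ y' : X.F B (k : ℤ), y' ∈ N' ∧ (y' : A) = y := fun y hy => hy
  have hNE : ∀ y ∈ N, X.E y = ((2 * k : ℤ) : ℂ) • y := by
    intro y hy
    obtain ⟨y', -, rfl⟩ := hNF y hy
    rw [y'.2.1]
    push_cast
    rfl
  have hNL : ∀ (x : g), ∀ y ∈ N, X.P (X.phi B x) y ∈ N := by
    intro x y hy
    obtain ⟨y', hy', rfl⟩ := hNF y hy
    rw [← X.coe_lie_F B, hmemN]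
    exact N'.lie_mem hy'
  have hNh : ∀ y ∈ N, X.P (X.a * X.s) y ∈ N := by
    intro y hy
    have h1 := N.neg_mem (hNL T.h y hy)
    rw [X.phi_h, map_neg, LinearMap.neg_apply, neg_neg] at h1
    exact h1
  -- a weight vector
  have hwt : ∃ m : ℤ, ∃ y ∈ N, y ∈ X.V (2 * k) m ∧ y ≠ 0 := by
    obtain ⟨s, x, hx, hs⟩ := X.exists_comp B hmon (z : A)
    have hE := X.comp_E B s x hx (d := 2 * k) (by rw [← hs, z.2.1]; push_cast; rfl)
    refine X.exists_wt B N hNE hNh (s.image Prod.snd)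
      (fun m => ∑ p ∈ s.filter (fun p => p.2 = m), x p) (fun m => ?_) z ((hmemN z).2 hzN)
      (fun h => hz0 (Subtype.ext h)) ?_
    · rw [map_sum, Finset.smul_sum]
      refine Finset.sum_congr rfl fun p hp => ?_
      rw [Finset.mem_filter] at hp
      rw [(hx p).2, hp.2]
    · rw [hs]
      exact (Finset.sum_fiberwise_of_maps_to (fun p hp => Finset.mem_image_of_mem _ hp) _).symm
  -- of maximal weight
  have hbd : ∀ m : ℤ, (∃ y ∈ N, y ∈ X.V (2 * k) m ∧ y ≠ 0) → m ≤ 2 * k := by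
    rintro m ⟨y, -, hy, hy0⟩
    by_contra h
    push Not at h
    rw [hbot _ _ h] at hy
    exact hy0 ((Submodule.mem_bot ℂ).1 hy)
  obtain ⟨m, ⟨y, hyN, hyV, hy0⟩, hmax⟩ :=
    Int.exists_greatest_of_bdd (P := fun m => ∃ y ∈ N, y ∈ X.V (2 * k) m ∧ y ≠ 0)
      ⟨2 * k, hbd⟩ hwt
  have he : X.P (X.a * X.a) y = 0 := by
    by_contra h
    have h1 := X.V_L B T_e_wt hyV
    rw [L_apply, X.phi_e] at h1
    have h2 := hNL T.e y hyN
    rw [X.phi_e] at h2
    have := hmax _ ⟨_, h2, h1, h⟩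
    omega
  have hu : ∀ k, X.P (X.a * X.ell B (B.v k)) y = 0 := by
    intro i
    by_contra h
    have h1 := X.V_L B (x := B.v i) (ν := 1) (by rw [B.hv]; norm_num) hyV
    rw [L_apply, X.phi_u B (B.hv i)] at h1
    have h2 := hNL (B.v i) y hyN
    rw [X.phi_u B (B.hv i)] at h2
    have := hmax _ ⟨_, h2, h1, h⟩
    omega
  have h1 := X.euler B y
  rw [he] at h1
  simp only [hu, mul_zero, Finset.sum_const_zero, add_zero] at h1
  rw [hyV.1, hyV.2, ← add_smul] at h1
  have h2 := (smul_eq_zero.1 h1).resolve_right hy0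
  have h3 : m = 2 * k := by
    have h4 : (m : ℂ) = ((2 * k : ℤ) : ℂ) := by linear_combination -h2
    exact_mod_cast h4
  rw [h3] at hyV
  have h5 : X.V (2 * k : ℤ) (2 * k : ℤ) = Submodule.span ℂ {X.a ^ (2 * k)} := by
    have := htop (2 * k)
    push_cast at this
    exact this
  rw [h5] at hyV
  obtain ⟨c, rfl⟩ := Submodule.mem_span_singleton.1 hyV
  have hc : c ≠ 0 := fun h => hy0 (by rw [h, zero_smul])
  have h6 : X.a ^ (2 * k) ∈ N := by
    have := N.smul_mem c⁻¹ hyN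
    rwa [smul_smul, inv_mul_cancel₀ hc, one_smul] at this
  have h7 : X.a ^ (2 * k) ∈ (LinearMap.range (X.phi B)) ^ k := by
    rw [pow_mul]
    have h8 : X.a ^ 2 ∈ LinearMap.range (X.phi B) := ⟨T.e, by rw [X.phi_e, pow_two]⟩
    exact Submodule.pow_mem_pow _ h8 k
  have h8 : (⟨X.a ^ (2 * k), X.NN_le B k h7⟩ : X.F B (k : ℤ)) ∈ X.NN B k ⊓ N' :=
    ⟨h7, (hmemN _).1 h6⟩
  rw [hN'.inf_eq_bot] at h8
  have h9 := congrArg (Subtype.val) ((LieSubmodule.mem_bot _).1 h8)
  exact hy0 (by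
    change c • X.a ^ (2 * k) = 0
    have h10 : X.a ^ (2 * k) = 0 := h9
    rw [h10, smul_zero])

end Dx

end Vale.Agent.P292.X442
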