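import Vale.Agent.P292.X442.Iface3

/-! The Lie algebra of a contact Fano manifold of dimension at least three is not
three-dimensional. -/

namespace Vale.Agent.P292.X442

open Vale.Agent.P292.H442 Module

universe u v

theorem stNot3 : StNot3.{u} := by
  intro R _ _ 𝒜 _ P hX hdim h3
  have hcore := hasCore hX hdim
  have hadj := hcore.adjoin
  have hirr := irreducible hcore 2
  obtain ⟨e, h, f, x, hC, -⟩ := hcore
  have hdom := hX.domain
  have he0 := hC.e_ne_zero
  have hh0 := hC.h_ne_zero
  have hf0 := hC.f_ne_zero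
  -- `e, h, f` span
  have hlin : LinearIndependent ℂ ![e, h, f] := by
    have hinj : Function.Injective ![(2 : ℂ), 0, -2] := by
      intro i j hij
      fin_cases i <;> fin_cases j <;> simp at hij ⊢ <;> norm_num at hij
    refine Module.End.eigenvectors_linearIndependent' (P h) ![(2 : ℂ), 0, -2] hinj _ ?_
    intro i
    fin_cases i
    · exact ⟨Module.End.mem_eigenspace_iff.2 hC.h_e, he0⟩
    · exact ⟨Module.End.mem_eigenspace_iff.2 (by simpa using hX.alternating h), hh0⟩
    · exact ⟨Module.End.mem_eigenspace_iff.2 (by simpa using hC.h_f), hf0⟩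
  have hspan : Submodule.span ℂ (Set.range ![e, h, f]) = 𝒜 1 := by
    have hfin : FiniteDimensional ℂ (𝒜 1) := Module.finite_of_finrank_eq_succ (n := 2) h3
    refine Submodule.eq_of_le_of_finrank_eq ?_ ?_
    · rw [Submodule.span_le]
      rintro _ ⟨i, rfl⟩
      fin_cases i
      · exact hC.he
      · exact hC.hh
      · exact hC.hf
    · rw [finrank_span_eq_card hlin, h3]
      rfl
  have hex : ∀ a ∈ 𝒜 1, ∃ α β γ : ℂ, a = α • e + β • h + γ • f := by
    intro a ha
    rw [← hspan, Submodule.mem_span_range_iff_exists_fun] at ha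
    obtain ⟨c, hc⟩ := ha
    rw [Fin.sum_univ_three] at hc
    exact ⟨c 0, c 1, c 2, hc.symm⟩
  -- the Casimir element
  obtain ⟨c, hc⟩ : ∃ c : R, c = h * h + 4 * (e * f) := ⟨_, rfl⟩
  have heh : P e h = -((2 : ℂ) • e) := by rw [hX.skew, hC.h_e]
  have hfe : P f e = -h := by rw [hX.skew, hC.ef]
  have h4 : ∀ a b : R, P a (4 * b) = 4 * P a b := by
    intro a b
    have : (4 : R) * b = (4 : ℂ) • b := by
      rw [Algebra.smul_def, map_ofNat]
    rw [this, map_smul, Algebra.smul_def, map_ofNat]
  have h2 : ∀ a : R, (2 : ℂ) • a = 2 * a := by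
    intro a
    rw [Algebra.smul_def, map_ofNat]
  have hPe : P e c = 0 := by
    rw [hc, map_add, h4, hX.leibniz, hX.leibniz, heh, hC.ef, hX.alternating, h2]
    ring
  have hPh : P h c = 0 := by
    rw [hc, map_add, h4, hX.leibniz, hX.leibniz, hX.alternating, hC.h_e, hC.h_f, h2, h2]
    ring
  have hPf : P f c = 0 := by
    rw [hc, map_add, h4, hX.leibniz, hX.leibniz, hC.f_h, hfe, hX.alternating, h2]
    ring
  have hc2 : c ∈ 𝒜 2 := by
    rw [hc]
    have h5 : ∀ a ∈ 𝒜 1, ∀ b ∈ 𝒜 1, a * b ∈ 𝒜 2 := fun a ha b hb =>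
      SetLike.mul_mem_graded (A := 𝒜) (i := 1) (j := 1) ha hb
    have h6 : (4 : R) * (e * f) = (4 : ℂ) • (e * f) := by
      rw [Algebra.smul_def, map_ofNat]
    rw [h6]
    exact add_mem (h5 _ hC.hh _ hC.hh) ((𝒜 2).smul_mem _ (h5 _ hC.he _ hC.hf))
  have hc0 : c = 0 := by
    rcases hirr (Submodule.span ℂ {c}) ((Submodule.span_singleton_le_iff_mem _ _).2 hc2) (by
      intro a ha r hr
      obtain ⟨μ, rfl⟩ := Submodule.mem_span_singleton.1 hr
      obtain ⟨α, β, γ, rfl⟩ := hex a ha
      have : P (α • e + β • h + γ • f) (μ • c) = 0 := by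
        simp only [map_add, map_smul, LinearMap.add_apply, LinearMap.smul_apply, hPe, hPh, hPf,
          smul_zero, add_zero]
      rw [this]
      exact zero_mem _) with h5 | h5
    · exact (Submodule.span_singleton_eq_bot).1 h5
    · exfalso
      have h6 : e * e ∈ Submodule.span ℂ {c} := by
        rw [h5]
        exact SetLike.mul_mem_graded (A := 𝒜) (i := 1) (j := 1) hC.he hC.he
      obtain ⟨μ, hμ⟩ := Submodule.mem_span_singleton.1 h6
      have h7 : P h (e * e) = 0 := by rw [← hμ, map_smul, hPh, smul_zero]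
      rw [hX.leibniz, hC.h_e, h2] at h7
      have h8 : (4 : R) * (e * e) = 0 := by linear_combination h7
      have h9 : (4 : R) = algebraMap ℂ R 4 := by rw [map_ofNat]
      have h10 : (4 : R) ≠ 0 := by
        rw [h9]
        intro h0
        have := (algebraMap ℂ R).injective (h0.trans (map_zero _).symm)
        norm_num at this
      exact (mul_ne_zero h10 (mul_ne_zero he0 he0)) h8
  -- the transcendence degree
  have halg : Algebra.IsAlgebraic (Algebra.adjoin ℂ ({e, h} : Set R)) R := by
    constructor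
    intro r
    have he1 : e ∈ Algebra.adjoin ℂ ({e, h} : Set R) := Algebra.subset_adjoin (by simp)
    have hh1 : h ∈ Algebra.adjoin ℂ ({e, h} : Set R) := Algebra.subset_adjoin (by simp)
    have hS : ∀ s ∈ Algebra.adjoin ℂ ({e, h} : Set R),
        IsAlgebraic (Algebra.adjoin ℂ ({e, h} : Set R)) s := fun s hs =>
      isAlgebraic_algebraMap (⟨s, hs⟩ : Algebra.adjoin ℂ ({e, h} : Set R))
    have hfa : IsAlgebraic (Algebra.adjoin ℂ ({e, h} : Set R)) f := by
      let e' : Algebra.adjoin ℂ ({e, h} : Set R) := ⟨e, he1⟩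
      let h' : Algebra.adjoin ℂ ({e, h} : Set R) := ⟨h, hh1⟩
      refine ⟨Polynomial.C (4 * e') * Polynomial.X + Polynomial.C (h' * h'), ?_, ?_⟩
      · intro h0
        have h5 := congrArg (fun p => Polynomial.coeff p 1) h0
        simp only [Polynomial.coeff_add, Polynomial.coeff_C_mul, Polynomial.coeff_X_one,
          Polynomial.coeff_C_succ, Polynomial.coeff_zero, mul_one, add_zero] at h5
        have h6 := congrArg (fun s : Algebra.adjoin ℂ ({e, h} : Set R) => (s : R)) h5
        have h7 : (4 : R) * e = 0 := h6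
        have h9 : (4 : R) = algebraMap ℂ R 4 := by rw [map_ofNat]
        have h10 : (4 : R) ≠ 0 := by
          rw [h9]
          intro h0
          have := (algebraMap ℂ R).injective (h0.trans (map_zero _).symm)
          norm_num at this
        exact (mul_ne_zero h10 he0) h7
      · rw [map_add, map_mul, Polynomial.aeval_C, Polynomial.aeval_C, Polynomial.aeval_X]
        change (4 : R) * e * f + h * h = 0
        rw [← hc0, hc]
        ring
    have hr : r ∈ Algebra.adjoin ℂ (𝒜 1 : Set R) := by
      rw [hadj]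
      trivial
    refine Algebra.adjoin_induction
      (p := fun r _ => IsAlgebraic (Algebra.adjoin ℂ ({e, h} : Set R)) r) ?_ ?_ ?_ ?_ hr
    · intro a ha
      obtain ⟨α, β, γ, rfl⟩ := hex a ha
      refine IsAlgebraic.add (hS _ (add_mem (Subalgebra.smul_mem _ he1 _)
        (Subalgebra.smul_mem _ hh1 _))) ?_
      rw [Algebra.smul_def]
      exact IsAlgebraic.mul (hS _ (Subalgebra.algebraMap_mem _ γ)) hfa
    · intro γ
      exact hS _ (Subalgebra.algebraMap_mem _ γ)
    · intro a b _ _ ha hb
      exact ha.add hb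
    · intro a b _ _ ha hb
      exact ha.mul hb
  have h5 := Algebra.IsAlgebraic.trdeg_le_cardinalMk ℂ ({e, h} : Set R)
  have h6 : Cardinal.mk ({e, h} : Set R) ≤ 2 := by
    refine (Cardinal.mk_insert_le).trans ?_
    rw [Cardinal.mk_singleton]
    norm_num
  have h7 : (3 : Cardinal.{u}) ≤ 2 := hdim.trans (h5.trans h6)
  have h8 : ((3 : ℕ) : Cardinal.{u}) ≤ ((2 : ℕ) : Cardinal.{u}) := by exact_mod_cast h7
  rw [Nat.cast_le] at h8
  omega

end Vale.Agent.P292.X442
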