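import Vale.Agent.P292.X442.Iface2

/-! The map from the Lie algebra to the Darboux ring. -/

namespace Vale.Agent.P292.X442

open LieAlgebra

/-- eigenvectors of different eigenvalues with sum zero are zero -/
theorem eig_sum {V : Type*} [AddCommGroup V] [Module ℂ V] (T : Module.End ℂ V) {ι : Type*}
    (s : Finset ι) (μ : ι → ℂ) (hμ : ∀ i ∈ s, ∀ j ∈ s, μ i = μ j → i = j) (x : ι → V)
    (hx : ∀ i ∈ s, T (x i) = μ i • x i) (hsum : ∑ i ∈ s, x i = 0) : ∀ i ∈ s, x i = 0 := by
  classical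
  induction s using Finset.induction_on generalizing x with
  | empty => intro i hi; exact absurd hi (Finset.notMem_empty i)
  | insert i s his ih =>
    have h1 : ∑ j ∈ s, (μ j - μ i) • x j = 0 := by
      have h2 := congrArg T hsum
      rw [Finset.sum_insert his, map_add, map_zero, map_sum, hx i (Finset.mem_insert_self i s),
        Finset.sum_congr rfl fun j hj => hx j (Finset.mem_insert_of_mem hj)] at h2
      rw [Finset.sum_insert his] at hsum
      have h3 : x i = -∑ j ∈ s, x j := by linear_combination (norm := module) hsum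
      simp only [sub_smul, Finset.sum_sub_distrib]
      rw [← Finset.smul_sum]
      rw [h3, smul_neg] at h2
      linear_combination (norm := module) h2
    have h4 := ih (fun a ha b hb => hμ a (Finset.mem_insert_of_mem ha) b
      (Finset.mem_insert_of_mem hb)) (fun j => (μ j - μ i) • x j) (fun j hj => by
        simp only [map_smul, hx j (Finset.mem_insert_of_mem hj)]
        rw [smul_comm]) h1
    have h5 : ∀ j ∈ s, x j = 0 := fun j hj => by
      refine (smul_eq_zero.1 (h4 j hj)).resolve_left fun h => ?_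
      have := hμ j (Finset.mem_insert_of_mem hj) i (Finset.mem_insert_self i s)
        (sub_eq_zero.1 h)
      exact his (this ▸ hj)
    intro j hj
    rcases Finset.mem_insert.1 hj with rfl | hj
    · rw [Finset.sum_insert his, Finset.sum_eq_zero h5, add_zero] at hsum
      exact hsum
    · exact h5 j hj

variable {g : Type*} [LieRing g] [LieAlgebra ℂ g]

/-- dual bases of the piece of degree one -/
structure Bs (T : Ct g) (n : ℕ) where
  u : Fin n → g
  v : Fin n → g
  hu : ∀ k, ⁅T.h, u k⁆ = u k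
  hv : ∀ k, ⁅T.h, v k⁆ = v k
  dual : ∀ k l, T.c ⁅v k, u l⁆ = if k = l then 1 else 0
  exp_u : ∀ x, ⁅T.h, x⁆ = x → x = ∑ k, T.c ⁅v k, x⁆ • u k
  exp_v : ∀ x, ⁅T.h, x⁆ = x → x = ∑ k, T.c ⁅x, u k⁆ • v k

namespace Ct

variable (T : Ct g)

theorem lie_wt {x y : g} {μ ν : ℂ} (hx : ⁅T.h, x⁆ = μ • x)
    (hy : ⁅T.h, y⁆ = ν • y) : ⁅T.h, ⁅x, y⁆⁆ = (μ + ν) • ⁅x, y⁆ := by
  rw [leibniz_lie, hx, hy, smul_lie, lie_smul, add_smul]

theorem wt_eq_zero {x : g} {μ : ℂ} (hx : ⁅T.h, x⁆ = μ • x)
    (hμ : ∀ i : Fin 5, μ ≠ ((i : ℕ) : ℂ) - 2) : x = 0 := by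
  obtain ⟨w, hw, hwe⟩ := T.dec x
  have h1 := eig_sum (ad ℂ g T.h) (Finset.univ : Finset (Option (Fin 5)))
    (fun o => o.elim μ fun i => ((i : ℕ) : ℂ) - 2) ?_ (fun o => o.elim (-x) w) ?_ ?_ none
    (Finset.mem_univ _)
  · exact neg_eq_zero.1 h1
  · rintro (_ | i) _ (_ | j) _ h
    · rfl
    · exact absurd h (hμ j)
    · exact absurd h.symm (hμ i)
    · have h2 : ((i : ℕ) : ℂ) - 2 = ((j : ℕ) : ℂ) - 2 := h
      have h3 : ((i : ℕ) : ℂ) = ((j : ℕ) : ℂ) := by linear_combination h2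
      have h4 : (i : ℕ) = j := by exact_mod_cast h3
      rw [Fin.ext h4]
  · rintro (_ | i) _
    · simp only [Option.elim, map_neg, ad_apply, hx, smul_neg]
    · exact hwe i
  · rw [Fintype.sum_option]
    simp only [Option.elim]
    rw [← hw]
    abel

end Ct

variable {T : Ct g} {n : ℕ} (B : Bs T n) {A : Type*} [CommRing A] [Algebra ℂ A]
  (X : Dx A (Fin n) fun k l => T.c ⁅B.u k, B.u l⁆)

namespace Dx

/-- the linear form of a vector of degree one -/
noncomputable def ell : g →ₗ[ℂ] A :=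
  ∑ k, (LinearMap.toSpanSingleton ℂ A (X.y k)).comp (T.c.comp (ad ℂ g (B.v k)))

theorem ell_apply (v : g) : X.ell B v = ∑ k, T.c ⁅B.v k, v⁆ • X.y k := by
  simp [ell, LinearMap.sum_apply]

theorem ell_u (k : Fin n) : X.ell B (B.u k) = X.y k := by
  rw [ell_apply]
  simp [B.dual]

theorem P_ell (u : g) (hu : ⁅T.h, u⁆ = u) (k : Fin n) :
    X.P (X.ell B u) (X.y k) = algebraMap ℂ A (T.c ⁅u, B.u k⁆) := by
  conv_rhs => rw [B.exp_u u hu]
  rw [ell_apply, map_sum, LinearMap.sum_apply, sum_lie, map_sum, map_sum]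
  refine Finset.sum_congr rfl fun j _ => ?_
  rw [map_smul, LinearMap.smul_apply, X.yy, smul_lie, map_smul, smul_eq_mul, map_mul,
    Algebra.smul_def]

theorem P_a_ell (v : g) : X.P X.a (X.ell B v) = 0 := by
  rw [ell_apply, map_sum]
  refine Finset.sum_eq_zero fun k _ => ?_
  rw [map_smul, X.ay, smul_zero]

theorem P_s_ell (v : g) : X.P X.s (X.ell B v) = 0 := by
  rw [ell_apply, map_sum]
  refine Finset.sum_eq_zero fun k _ => ?_
  rw [map_smul, X.sy, smul_zero]

theorem sum_y_ell : ∑ k, X.y k * X.ell B (B.v k) = 0 := by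
  have h1 : ∑ k, X.y k * X.ell B (B.v k) = ∑ k, ∑ l, T.c ⁅B.v l, B.v k⁆ • (X.y k * X.y l) := by
    refine Finset.sum_congr rfl fun k _ => ?_
    rw [ell_apply, Finset.mul_sum]
    refine Finset.sum_congr rfl fun l _ => ?_
    rw [mul_smul_comm]
  have h2 : ∑ k, ∑ l, T.c ⁅B.v l, B.v k⁆ • (X.y k * X.y l) =
      -∑ k, ∑ l, T.c ⁅B.v l, B.v k⁆ • (X.y k * X.y l) := by
    conv_lhs => rw [Finset.sum_comm]
    rw [← Finset.sum_neg_distrib]
    refine Finset.sum_congr rfl fun k _ => ?_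
    rw [← Finset.sum_neg_distrib]
    refine Finset.sum_congr rfl fun l _ => ?_
    rw [← lie_skew, map_neg, neg_smul, mul_comm]
  rw [h1]
  have h3 : (2 : ℂ) • ∑ k, ∑ l, T.c ⁅B.v l, B.v k⁆ • (X.y k * X.y l) = 0 := by
    rw [two_smul]
    nth_rewrite 2 [h2]
    exact add_neg_cancel _
  exact (smul_eq_zero.1 h3).resolve_left two_ne_zero

theorem der_sum_apply {A : Type*} [CommRing A] [Algebra ℂ A] {κ : Type*} (t : Finset κ)
    (D : κ → Derivation ℂ A A) (r : A) : (∑ k ∈ t, D k) r = ∑ k ∈ t, D k r := by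
  classical
  induction t using Finset.induction_on with
  | empty => simp
  | insert i t hi ih => rw [Finset.sum_insert hi, Finset.sum_insert hi, Derivation.add_apply, ih]

/-! The operators of `e`, of the vectors of degree one, and of `h`. -/

theorem Le_a : X.P (X.a * X.a) X.a = 0 := by rw [X.leib', X.alt]; ring

theorem Le_s : X.P (X.a * X.a) X.s = 2 * X.a := by rw [X.leib', X.as]; ring

theorem Le_y (k : Fin n) : X.P (X.a * X.a) (X.y k) = 0 := by rw [X.leib', X.ay]; ring

theorem Lu_a (u : g) : X.P (X.a * X.ell B u) X.a = 0 := by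
  rw [X.leib', X.alt, X.skew _ X.a, X.P_a_ell]; ring

theorem Lu_s (u : g) : X.P (X.a * X.ell B u) X.s = X.ell B u := by
  rw [X.leib', X.as, X.skew _ X.s, X.P_s_ell]; ring

theorem Lu_y (u : g) (hu : ⁅T.h, u⁆ = u) (k : Fin n) :
    X.P (X.a * X.ell B u) (X.y k) = T.c ⁅u, B.u k⁆ • X.a := by
  rw [X.leib', X.ay, X.P_ell B u hu, Algebra.smul_def]; ring

theorem Lh_a : X.P (X.a * X.s) X.a = -X.a := by
  rw [X.leib', X.alt, X.skew _ X.a, X.as]; ring

theorem Lh_s : X.P (X.a * X.s) X.s = X.s := by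
  rw [X.leib', X.alt, X.as]; ring

theorem Lh_y (k : Fin n) : X.P (X.a * X.s) (X.y k) = 0 := by
  rw [X.leib', X.ay, X.sy]; ring

/-- the main Euler identity -/
theorem euler (r : A) : X.E r + X.P (X.a * X.s) r =
    X.b * (X.s * X.P (X.a * X.a) r + ∑ k, X.y k * X.P (X.a * X.ell B (B.v k)) r) := by
  have key := X.der_ext (D := X.E + X.ham (X.a * X.s))
    (D' := X.b • (X.s • X.ham (X.a * X.a) + ∑ k, X.y k • X.ham (X.a * X.ell B (B.v k))))
    ?_ ?_ ?_
  · have h := DFunLike.congr_fun key r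
    simp only [Derivation.add_apply, Derivation.smul_apply, smul_eq_mul, ham_apply,
      der_sum_apply] at h
    exact h
  · simp only [Derivation.add_apply, Derivation.smul_apply, smul_eq_mul, ham_apply, X.Ea, X.Lh_a,
      X.Le_a, der_sum_apply, X.Lu_a]
    simp
  · simp only [Derivation.add_apply, Derivation.smul_apply, smul_eq_mul, ham_apply, X.Es, X.Lh_s,
      X.Le_s, der_sum_apply, X.Lu_s]
    rw [X.sum_y_ell B]
    linear_combination (-2 * X.s) * X.ab
  · intro j
    simp only [Derivation.add_apply, Derivation.smul_apply, smul_eq_mul, ham_apply, X.Ey, X.Lh_y,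
      X.Le_y, der_sum_apply, X.Lu_y B _ (B.hv _), B.dual]
    simp only [ite_smul, one_smul, zero_smul, mul_ite, mul_zero, Finset.sum_ite_eq',
      Finset.mem_univ, if_true]
    linear_combination (-X.y j) * X.ab

end Dx

end Vale.Agent.P292.X442
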