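import Vale.Agent.P292.Defs
import Mathlib.RingTheory.MvPolynomial.Homogeneous

namespace Vale.Agent.P292.X442

universe u v

/-- The homogeneous ideal of `X` in the projective space of `H⁰(X, L) = 𝒜 1` is generated by
quadrics: for every basis `b` of `𝒜 1`, the kernel of `ℂ[x_j] → R`, `x_j ↦ b j`, is generated by
its homogeneous elements of degree two. -/
def IsGeneratedByQuadrics {R : Type u} [CommRing R] [Algebra ℂ R] (𝒜 : ℕ → Submodule ℂ R) :
    Prop :=
  ∀ (κ : Type v) (b : Module.Basis κ ℂ (𝒜 1)),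
    RingHom.ker (MvPolynomial.aeval (fun j => (b j : R)) : MvPolynomial κ ℂ →ₐ[ℂ] R) =
      Ideal.span {G | G.IsHomogeneous 2 ∧ MvPolynomial.aeval (fun j => (b j : R)) G = 0}

end Vale.Agent.P292.X442
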