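import Vale.Agent.P292.X442.Ring

/-! Block S: nondegeneracy of the bracket at the points of the chart of `e`. -/

namespace Vale.Agent.P292.X442

open LieAlgebra

universe u

namespace Sym192

variable {g : Type u} [LieRing g] [LieAlgebra ℂ g]
variable {T : Ct g} {n : ℕ} (B : Bs T n) {A : Type} [CommRing A] [Algebra ℂ A]
  (X : Dx A (Fin n) fun k l => T.c ⁅B.u k, B.u l⁆)
variable (p : X.RR B →ₐ[ℂ] ℂ)

/-- the part of an element which vanishes at `p` -/
noncomputable def cut (r : X.RR B) : X.RR B := r - algebraMap ℂ (X.RR B) (p r)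

theorem cut_mem (r : X.RR B) : cut B X p r ∈ RingHom.ker p := by
  rw [RingHom.mem_ker, cut, map_sub, AlgHom.commutes]
  simp

theorem cut_add (r s : X.RR B) : cut B X p (r + s) = cut B X p r + cut B X p s := by
  simp only [cut, map_add]; ring

theorem cut_smul (c : ℂ) (r : X.RR B) : cut B X p (c • r) = c • cut B X p r := by
  rw [cut, cut, map_smul, smul_eq_mul, map_mul, smul_sub,
    Algebra.smul_def c (algebraMap ℂ (X.RR B) (p r))]

theorem cut_mul (r s : X.RR B) : cut B X p (r * s) =
    p r • cut B X p s + p s • cut B X p r + cut B X p r * cut B X p s := by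
  simp only [cut, map_mul, Algebra.smul_def]; ring

theorem cut_alg (c : ℂ) : cut B X p (algebraMap ℂ (X.RR B) c) = 0 := by
  rw [cut, AlgHom.commutes]; simp

/-- the elements which agree to first order with an element of the linear span -/
def S : Subalgebra ℂ (X.RR B) where
  carrier := {r | ∃ (α β : ℂ) (w : g), ⁅T.h, w⁆ = w ∧
    cut B X p r - cut B X p (X.phiR B (α • T.e + β • T.h + w)) ∈ RingHom.ker p ^ 2}
  algebraMap_mem' := fun c => ⟨0, 0, 0, by simp, by
    rw [cut_alg]; simp only [zero_smul, add_zero, map_zero]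
    have : cut B X p 0 = 0 := by simp [cut]
    rw [this, sub_zero]; exact zero_mem _⟩
  add_mem' := by
    rintro r s ⟨α, β, w, hw, h1⟩ ⟨α', β', w', hw', h2⟩
    refine ⟨α + α', β + β', w + w', by rw [lie_add, hw, hw'], ?_⟩
    have h3 : (α + α') • T.e + (β + β') • T.h + (w + w') =
        (α • T.e + β • T.h + w) + (α' • T.e + β' • T.h + w') := by module
    rw [h3, map_add, cut_add, cut_add]
    have h4 := add_mem h1 h2
    rw [show cut B X p r + cut B X p s - (cut B X p (X.phiR B (α • T.e + β • T.h + w)) +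
      cut B X p (X.phiR B (α' • T.e + β' • T.h + w'))) = (cut B X p r -
      cut B X p (X.phiR B (α • T.e + β • T.h + w))) + (cut B X p s -
      cut B X p (X.phiR B (α' • T.e + β' • T.h + w'))) by ring]
    exact h4
  mul_mem' := by
    rintro r s ⟨α, β, w, hw, h1⟩ ⟨α', β', w', hw', h2⟩
    refine ⟨p s * α + p r * α', p s * β + p r * β', p s • w + p r • w', by
      rw [lie_add, lie_smul, lie_smul, hw, hw'], ?_⟩
    have h3 : (p s * α + p r * α') • T.e + (p s * β + p r * β') • T.h +
        (p s • w + p r • w') =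
        p s • (α • T.e + β • T.h + w) + p r • (α' • T.e + β' • T.h + w') := by module
    rw [h3, map_add, map_smul, map_smul, cut_add, cut_smul, cut_smul, cut_mul]
    have h4 : cut B X p r * cut B X p s ∈ RingHom.ker p ^ 2 := by
      rw [pow_two]; exact Ideal.mul_mem_mul (cut_mem B X p r) (cut_mem B X p s)
    have h5 : p s • (cut B X p r - cut B X p (X.phiR B (α • T.e + β • T.h + w))) ∈
        RingHom.ker p ^ 2 := by
      rw [Algebra.smul_def]; exact Ideal.mul_mem_left _ _ h1
    have h6 : p r • (cut B X p s - cut B X p (X.phiR B (α' • T.e + β' • T.h + w'))) ∈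
        RingHom.ker p ^ 2 := by
      rw [Algebra.smul_def]; exact Ideal.mul_mem_left _ _ h2
    have h7 := add_mem (add_mem h4 h5) h6
    convert h7 using 1
    simp only [smul_sub]
    ring

theorem mem_S {r : X.RR B} : r ∈ S B X p ↔ ∃ (α β : ℂ) (w : g), ⁅T.h, w⁆ = w ∧
    cut B X p r - cut B X p (X.phiR B (α • T.e + β • T.h + w)) ∈ RingHom.ker p ^ 2 := Iff.rfl

theorem phi_mem_S (α β : ℂ) (w : g) (hw : ⁅T.h, w⁆ = w) :
    X.phiR B (α • T.e + β • T.h + w) ∈ S B X p :=
  ⟨α, β, w, hw, by rw [sub_self]; exact zero_mem _⟩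

/-- division by elements which do not vanish at `p` -/
theorem S_div {t r : X.RR B} (ht : t ∈ S B X p) (hpt : p t ≠ 0) (htr : t * r ∈ S B X p) :
    r ∈ S B X p := by
  have h1 : algebraMap ℂ (X.RR B) (p t)⁻¹ * (t * r - algebraMap ℂ (X.RR B) (p r) * t) ∈ S B X p :=
    mul_mem (algebraMap_mem _ _) (sub_mem htr (mul_mem (algebraMap_mem _ _) ht))
  obtain ⟨α, β, w, hw, h2⟩ := h1
  refine ⟨α, β, w, hw, ?_⟩
  have h3 : (cut B X p (algebraMap ℂ (X.RR B) (p t)⁻¹ * (t * r - algebraMap ℂ (X.RR B) (p r) * t)))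
      = cut B X p r + algebraMap ℂ (X.RR B) (p t)⁻¹ * (cut B X p t * cut B X p r) := by
    have h4 : algebraMap ℂ (X.RR B) (p t)⁻¹ * algebraMap ℂ (X.RR B) (p t) = 1 := by
      rw [← map_mul, inv_mul_cancel₀ hpt, map_one]
    simp only [cut, map_mul, map_sub, AlgHom.commutes, Algebra.algebraMap_self, RingHom.id_apply]
    linear_combination (r - algebraMap ℂ (X.RR B) (p r)) * h4
  have h5 : algebraMap ℂ (X.RR B) (p t)⁻¹ * (cut B X p t * cut B X p r) ∈ RingHom.ker p ^ 2 := by
    refine Ideal.mul_mem_left _ _ ?_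
    rw [pow_two]; exact Ideal.mul_mem_mul (cut_mem B X p t) (cut_mem B X p r)
  rw [h3] at h2
  have h6 := sub_mem h2 h5
  convert h6 using 1
  ring

/-- the Leibniz rule in the first variable -/
theorem PR_leib' (x y z : X.RR B) :
    X.PR B (x * y) z = x * X.PR B y z + y * X.PR B x z :=
  Subtype.ext (X.leib' x y z)

theorem PR_alg' (c : ℂ) (z : X.RR B) : X.PR B (algebraMap ℂ (X.RR B) c) z = 0 :=
  Subtype.ext (X.P_alg' z c)

theorem p_PR_sq {x : X.RR B} (hx : x ∈ RingHom.ker p ^ 2) (z : X.RR B) :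
    p (X.PR B x z) = 0 := by
  rw [pow_two] at hx
  refine Submodule.mul_induction_on hx ?_ ?_
  · intro m hm k hk
    rw [RingHom.mem_ker] at hm hk
    rw [PR_leib', map_add, map_mul, map_mul, hm, hk, zero_mul, zero_mul, add_zero]
  · intro x y hx hy
    rw [map_add, LinearMap.add_apply, map_add, hx, hy, add_zero]

end Sym192

open Sym192 in
theorem stSym : StSym.{u} := by
  intro g _ _ _ T n B A _ _ _ X hgen p hp q hq
  -- every element is in `S`
  have hall : ∀ r : X.RR B, r ∈ S B X p := by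
    intro r
    obtain ⟨N, hN⟩ := hgen r (X.sigma_of_mem B r.2)
    have h1 : Algebra.adjoin ℂ ({X.a ^ 2, X.a * X.s} ∪ Set.range fun k => X.a * X.y k) ≤
        (S B X p).map (X.RR B).val := by
      rw [Algebra.adjoin_le_iff]
      rintro z ((rfl | rfl) | ⟨k, rfl⟩)
      · refine ⟨X.phiR B T.e, ?_, ?_⟩
        · have := phi_mem_S B X p 1 0 0 (by simp)
          simpa using this
        · change ((X.phiR B T.e : X.RR B) : A) = _
          rw [X.coe_phiR, X.phi_e, pow_two]
      · refine ⟨-X.phiR B T.h, ?_, ?_⟩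
        · have := phi_mem_S B X p 0 1 0 (by simp)
          simpa using neg_mem this
        · change ((-X.phiR B T.h : X.RR B) : A) = _
          rw [NegMemClass.coe_neg, X.coe_phiR, X.phi_h, neg_neg]
      · refine ⟨X.phiR B (B.u k), ?_, ?_⟩
        · have := phi_mem_S B X p 0 0 (B.u k) (B.hu k)
          simpa using this
        · change ((X.phiR B (B.u k) : X.RR B) : A) = _
          rw [X.coe_phiR, X.phi_uk]
    obtain ⟨z, hz, hzr⟩ := h1 hN
    have h2 : z = (X.phiR B T.e) ^ N * r := by
      apply Subtype.ext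
      rw [show (z : A) = X.a ^ (2 * N) * r from hzr]
      rw [MulMemClass.coe_mul, SubmonoidClass.coe_pow, X.coe_phiR, X.phi_e, pow_mul, pow_two]
    rw [h2] at hz
    have h3 : X.phiR B T.e ∈ S B X p := by
      have := phi_mem_S B X p 1 0 0 (by simp)
      simpa using this
    refine S_div B X p (pow_mem h3 N) ?_ hz
    rw [map_pow]
    exact pow_ne_zero _ hp
  obtain ⟨α, β, w, hw, h1⟩ := hall q
  set v : g := α • T.e + β • T.h + w with hv
  have h2 : ∀ x : g, p (X.phiR B ⁅v, x⁆) = 0 := by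
    intro x
    have h3 := p_PR_sq B X p h1 (X.phiR B x)
    have h4 : X.PR B (cut B X p q - cut B X p (X.phiR B v)) (X.phiR B x) =
        X.PR B q (X.phiR B x) - X.phiR B ⁅v, x⁆ := by
      simp only [cut, map_sub, LinearMap.sub_apply, PR_alg', X.PR_phi, sub_zero]
    rw [h4, map_sub, hq, zero_sub, neg_eq_zero] at h3
    exact h3
  have hwe : ⁅w, T.e⁆ = 0 := by rw [← lie_skew, Dx.lie_e_one hw, neg_zero]
  have hβ : β = 0 := by
    have h3 := h2 T.e
    rw [hv, add_lie, add_lie, smul_lie, smul_lie, lie_self, T.he, hwe, smul_zero, zero_add,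
      add_zero, smul_smul, map_smul, map_smul, smul_eq_mul] at h3
    rcases mul_eq_zero.1 h3 with h | h
    · exact (mul_eq_zero.1 h).resolve_right two_ne_zero
    · exact absurd h hp
  have hw0 : w = 0 := by
    refine T.nondeg w hw fun x hx => ?_
    have h3 := h2 x
    have hex : ⁅T.e, x⁆ = 0 := Dx.lie_e_one hx
    have h4 : ⁅T.h, ⁅w, x⁆⁆ = (2 : ℂ) • ⁅w, x⁆ := by
      rw [T.lie_wt (μ := 1) (ν := 1) (by rw [hw, one_smul]) (by rw [hx, one_smul])]
      norm_num
    rw [hv, hβ, zero_smul, add_zero, add_lie, smul_lie, hex, smul_zero, zero_add,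
      T.top_eq _ h4, map_smul, map_smul, smul_eq_mul] at h3
    exact (mul_eq_zero.1 h3).resolve_right hp
  have hα : α = 0 := by
    have h3 := h2 T.h
    rw [hv, hβ, hw0, zero_smul, add_zero, add_zero, smul_lie, ← lie_skew, T.he, smul_neg,
      smul_smul, map_neg, map_smul, map_neg, map_smul, neg_eq_zero, smul_eq_mul] at h3
    rcases mul_eq_zero.1 h3 with h | h
    · exact (mul_eq_zero.1 h).resolve_right two_ne_zero
    · exact absurd h hp
  have h5 : v = 0 := by rw [hv, hα, hβ, hw0]; simp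
  rw [h5, map_zero] at h1
  have h6 : cut B X p 0 = 0 := by simp [cut]
  rw [h6, sub_zero] at h1
  exact h1

end Vale.Agent.P292.X442
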