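import Vale.Agent.P292.X442.Graded
import Vale.Agent.P292.X442.StSym192

/-! The ring of the Lie algebra is the section ring of a contact Fano manifold. -/

namespace Vale.Agent.P292.X442

open LieAlgebra

universe u

variable {g : Type u} [LieRing g] [LieAlgebra ℂ g]
variable {T : Ct g} {n : ℕ} (B : Bs T n) {A : Type} [CommRing A] [Algebra ℂ A]
  (X : Dx A (Fin n) fun k l => T.c ⁅B.u k, B.u l⁆)

namespace Dx

theorem phi_ker_ideal [LieAlgebra.IsSimple ℂ g] [Nontrivial A] :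
    Function.Injective (X.phi B) := by
  rw [← LinearMap.ker_eq_bot]
  let I : LieIdeal ℂ g :=
    { LinearMap.ker (X.phi B) with
      lie_mem := fun {x v} hv => by
        change X.phi B ⁅x, v⁆ = 0
        have hv' : X.phi B v = 0 := hv
        rw [X.phi_lie, hv', map_zero] }
  rcases LieAlgebra.IsSimple.eq_bot_or_eq_top (R := ℂ) I with h | h
  · rw [eq_bot_iff]
    intro v hv
    have h1 : v ∈ I := hv
    rw [h, LieSubmodule.mem_bot] at h1
    exact (Submodule.mem_bot ℂ).2 h1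
  · exfalso
    have h1 : T.e ∈ I := by rw [h]; exact LieSubmodule.mem_top _
    have h2 : X.phi B T.e = 0 := h1
    rw [X.phi_e] at h2
    have h3 : (1 : A) = 0 := by linear_combination (X.b * X.b) * h2 - (X.a * X.b + 1) * X.ab
    exact one_ne_zero h3

theorem mem_gr_one {r : X.RR B} : r ∈ X.gr B 1 ↔ ∃ x, X.phiR B x = r := by
  rw [mem_gr, pow_one]
  constructor
  · rintro ⟨x, hx⟩
    exact ⟨x, Subtype.ext hx⟩
  · rintro ⟨x, rfl⟩
    exact ⟨x, rfl⟩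

theorem adjoin_phiR : Algebra.adjoin ℂ (Set.range (X.phiR B)) = ⊤ := by
  rw [eq_top_iff]
  rintro ⟨r, hr⟩ -
  refine Algebra.adjoin_induction (p := fun r hr => (⟨r, hr⟩ : X.RR B) ∈
    Algebra.adjoin ℂ (Set.range (X.phiR B))) ?_ ?_ ?_ ?_ hr
  · rintro _ ⟨y, rfl⟩
    exact Algebra.subset_adjoin ⟨y, rfl⟩
  · intro c
    exact Subalgebra.algebraMap_mem _ c
  · intro a b ha' hb' ha hb
    exact add_mem ha hb
  · intro a b ha' hb' ha hb
    exact mul_mem ha hb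

theorem finiteType [FiniteDimensional ℂ g] : Algebra.FiniteType ℂ (X.RR B) := by
  classical
  let b := Module.finBasis ℂ g
  refine ⟨⟨Finset.univ.image fun i => X.phiR B (b i), ?_⟩⟩
  rw [eq_top_iff, ← X.adjoin_phiR B]
  refine Algebra.adjoin_le ?_
  rintro _ ⟨x, rfl⟩
  rw [← b.sum_repr x, map_sum]
  refine sum_mem fun i _ => ?_
  rw [map_smul]
  refine Subalgebra.smul_mem _ (Algebra.subset_adjoin ?_) _
  simp

theorem eq_zero_of_forall (p : X.RR B →ₐ[ℂ] ℂ) (h : ∀ x, p (X.phiR B x) = 0) (k : ℕ)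
    (hk : 0 < k) (r : X.RR B) (hr : r ∈ X.gr B k) : p r = 0 := by
  obtain ⟨k, rfl⟩ : ∃ j, k = j + 1 := ⟨k - 1, by omega⟩
  obtain ⟨r, hrr⟩ := r
  rw [mem_gr] at hr
  change r ∈ _ at hr
  rw [pow_succ] at hr
  have key : ∀ r (h1 : r ∈ (LinearMap.range (X.phi B)) ^ k * LinearMap.range (X.phi B)),
      ∃ h2 : r ∈ X.RR B, p ⟨r, h2⟩ = 0 := by
    intro r h1
    refine Submodule.mul_induction_on h1 ?_ ?_
    · rintro a ha _ ⟨b, rfl⟩
      refine ⟨mul_mem (X.pow_RR B k ha) (X.phi_mem B b), ?_⟩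
      have : (⟨a * X.phi B b, mul_mem (X.pow_RR B k ha) (X.phi_mem B b)⟩ : X.RR B) =
          ⟨a, X.pow_RR B k ha⟩ * X.phiR B b := rfl
      rw [this, map_mul, h, mul_zero]
    · rintro a b ⟨ha, ha'⟩ ⟨hb, hb'⟩
      refine ⟨add_mem ha hb, ?_⟩
      have : (⟨a + b, add_mem ha hb⟩ : X.RR B) = ⟨a, ha⟩ + ⟨b, hb⟩ := rfl
      rw [this, map_add, ha', hb', add_zero]
  obtain ⟨h2, h3⟩ := key r hr
  exact h3

theorem exists_of_not_isVertex {p : X.RR B →ₐ[ℂ] ℂ} (hp : ¬ IsVertex (X.gr B) p) :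
    ∃ x, p (X.phiR B x) ≠ 0 := by
  by_contra h
  push Not at h
  exact hp fun k hk r hr => X.eq_zero_of_forall B p h k hk r hr

theorem nondeg_transport {p : X.RR B →ₐ[ℂ] ℂ} (ψ : X.RR B ≃ₐ[ℂ] X.RR B)
    (hψ : ∀ x y, ψ (X.PR B x y) = X.PR B (ψ x) (ψ y))
    (hnd : ∀ a, (∀ b, (p.comp (ψ : X.RR B →ₐ[ℂ] X.RR B)) (X.PR B a b) = 0) →
      a - algebraMap ℂ (X.RR B) ((p.comp (ψ : X.RR B →ₐ[ℂ] X.RR B)) a) ∈
        RingHom.ker (p.comp (ψ : X.RR B →ₐ[ℂ] X.RR B)) ^ 2)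
    (a : X.RR B) (ha : ∀ b, p (X.PR B a b) = 0) :
    a - algebraMap ℂ (X.RR B) (p a) ∈ RingHom.ker p ^ 2 := by
  have h1 := hnd (ψ.symm a) (fun b => by
    change p (ψ (X.PR B (ψ.symm a) b)) = 0
    rw [hψ, AlgEquiv.apply_symm_apply]
    exact ha _)
  have h2 := Ideal.mem_map_of_mem (ψ : X.RR B →ₐ[ℂ] X.RR B) h1
  rw [Ideal.map_pow] at h2
  have h3 : Ideal.map (ψ : X.RR B →ₐ[ℂ] X.RR B)
      (RingHom.ker (p.comp (ψ : X.RR B →ₐ[ℂ] X.RR B))) ≤ RingHom.ker p := by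
    rw [Ideal.map_le_iff_le_comap]
    intro x hx
    rw [Ideal.mem_comap, RingHom.mem_ker]
    exact hx
  have h4 := Ideal.pow_right_mono h3 2 h2
  have h5 : (ψ : X.RR B →ₐ[ℂ] X.RR B) (ψ.symm a - algebraMap ℂ (X.RR B)
      ((p.comp (ψ : X.RR B →ₐ[ℂ] X.RR B)) (ψ.symm a))) = a - algebraMap ℂ (X.RR B) (p a) := by
    rw [map_sub, AlgHom.commutes, AlgHom.comp_apply]
    change ψ (ψ.symm a) - algebraMap ℂ (X.RR B) (p (ψ (ψ.symm a))) = _
    rw [AlgEquiv.apply_symm_apply]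
  rw [h5] at h4
  exact h4

theorem isContactFano [FiniteDimensional ℂ g] [LieAlgebra.IsSimple ℂ g] [IsDomain A]
    (hmon : ⨆ p : ℤ × ℤ, X.V p.1 p.2 = ⊤) (hbot : ∀ d m : ℤ, d < m → X.V d m = ⊥)
    (hfin : ∀ d m : ℤ, FiniteDimensional ℂ (X.V d m))
    (htop : ∀ k : ℕ, X.V k k = Submodule.span ℂ {X.a ^ k})
    (hnor : IsIntegrallyClosed (X.RR B))
    (horb : ∀ p : X.RR B →ₐ[ℂ] ℂ, (∃ x, p (X.phiR B x) ≠ 0) → ∃ ψ : X.RR B ≃ₐ[ℂ] X.RR B,
      (∀ x y, ψ (X.PR B x y) = X.PR B (ψ x) (ψ y)) ∧ p (ψ (X.phiR B T.e)) ≠ 0)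
    (hnd : ∀ p : X.RR B →ₐ[ℂ] ℂ, p (X.phiR B T.e) ≠ 0 →
      ∀ a, (∀ b, p (X.PR B a b) = 0) →
        a - algebraMap ℂ (X.RR B) (p a) ∈ RingHom.ker p ^ 2) :
    IsContactFano (X.gr B) (X.PR B) where
  domain := inferInstance
  normal := hnor
  finiteType := X.finiteType B
  connected r hr := by
    rw [mem_gr, pow_zero, Submodule.mem_one] at hr
    obtain ⟨c, hc⟩ := hr
    exact ⟨c, Subtype.ext hc.symm⟩
  nonempty := by
    have := X.finiteType B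
    obtain ⟨p, hp⟩ := exists_point_ne_zero (X.phiR B T.e) (fun h => by
      have h1 : X.phi B T.e = 0 := congrArg Subtype.val h
      rw [X.phi_e] at h1
      have h3 : (1 : A) = 0 := by linear_combination (X.b * X.b) * h1 - (X.a * X.b + 1) * X.ab
      exact one_ne_zero h3)
    exact ⟨p, fun hv => hp (hv 1 one_pos _ ((X.mem_gr_one B).2 ⟨_, rfl⟩))⟩
  lineBundle p hp d hd := by
    obtain ⟨x, hx⟩ := X.exists_of_not_isVertex B hp
    exact Nat.dvd_one.1 (hd 1 _ ((X.mem_gr_one B).2 ⟨x, rfl⟩) hx)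
  alternating := X.PR_alt B
  leibniz := X.PR_leib B
  jacobi := X.PR_jac B
  degree i j k hijk a ha b hb := by
    rw [mem_gr] at ha hb ⊢
    have h1 : (X.PR B a b : A) ∈ X.RR B := (X.PR B a b).2
    refine X.F_eq B hmon hbot hfin htop k ⟨?_, X.FN_of_mem B h1⟩
    rw [coe_PR, X.E_P, X.pow_E B i ha, X.pow_E B j hb, map_smul, map_smul, LinearMap.smul_apply]
    have h2 : (2 : A) = algebraMap ℂ A 2 := by rw [map_ofNat]
    have h3 : (i : ℂ) + j = k + 1 := by exact_mod_cast hijk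
    rw [h2, ← Algebra.smul_def, ← add_smul, ← sub_smul]
    congr 1
    push_cast
    linear_combination 2 * h3
  nondegenerate p hp := by
    obtain ⟨ψ, hψ, hψe⟩ := horb p (X.exists_of_not_isVertex B hp)
    exact X.nondeg_transport B ψ hψ (hnd _ hψe)

end Dx

end Vale.Agent.P292.X442
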